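import Vale.Agent.P027M.G.Keym

/-!
# P027, route M, block G: the atlas of a modular curve at a prime of good reduction
-/

set_option linter.all false

noncomputable section

namespace Vale.Agent.P027M.G

open Polynomial IntermediateField Module P025H373 P025H746 Vale.Agent.P019P P025H492 P025H816
open Vale.Agent.P022 Vale.Agent.P022.H542.L3 Vale.Agent.P022.H218.L3 Vale.Agent.P022.H236.L3
open Vale.Agent.P027M.M (io FF cv L G0 Gt GH Lv Mid Mdl NZ)
open scoped MatrixGroups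

namespace Atlm

theorem orbit_finite (X : Mdl) (x : FF) (h : IsOpen {g : GQ | X.gal g x = x}) :
    (Set.range fun g : GQ => X.gal g x).Finite := by
  haveI : Algebra.IsAlgebraic ℚ Qb := AlgebraicClosure.isAlgebraic ℚ
  haveI : IsAlgClosure ℚ Qb := ⟨inferInstance, inferInstance⟩
  haveI : IsGalois ℚ Qb := IsAlgClosure.isGalois ℚ Qb
  letI : MulAction GQ FF := MulAction.compHom FF (X.gal : GQ →* RingAut FF)
  haveI : Finite (GQ ⧸ MulAction.stabilizer GQ x) :=
    Subgroup.quotient_finite_of_isOpen _ h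
  have : Finite (MulAction.orbit GQ x) :=
    Finite.of_equiv _ (MulAction.orbitEquivQuotientStabilizer GQ x).symm
  exact this

theorem lt_iff {A : AV} {O : ValuationSubring Qb} (h : ∀ c, A.a c ≤ 1 ↔ c ∈ O) (c : Qb) :
    A.a c < 1 ↔ O.valuation c < 1 := by
  by_cases h0 : c = 0
  · simp [h0]
  rw [Keym.val_lt O h0, ← h, map_inv₀, not_le, one_lt_inv₀ (A.a.pos h0)]

theorem iso {A : AV} {O : ValuationSubring Qb} (h : ∀ c, A.a c ≤ 1 ↔ c ∈ O) {I : Subgroup GQ}
    (hI : D.Ine O I) {σ : GQ} (hσ : σ ∈ I) (c : Qb) : A.a (σ c) = A.a c := by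
  refine A.inv (σ : Qb ≃+* Qb) (fun x => ?_) c
  rw [h, h]
  refine ⟨fun h1 => ?_, fun h1 => hI.mem hσ h1⟩
  have := hI.mem (I.inv_mem hσ) h1
  change σ.symm (σ x) ∈ O at this
  rwa [AlgEquiv.symm_apply_apply] at this

end Atlm

open Atlm in
theorem atlm (X : Mdl) (hAV : AVE) (hW : WINF) (hWG : WGAL X) (hM : MODG X) (hX : M.GALX X)
    (hCh : CHART) (hCb : CHB) : ATLM X := by
  intro N Γ h _ O p hp hO hpN I r hI hr
  obtain ⟨A, O', hA, hAO⟩ := hAV O p hp hO
  obtain ⟨w, hw⟩ := hW A O' hA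
  have hN : (N : ℂ)⁻¹ ∈ O' := by
    have := (hA (N : Qb)⁻¹).2 ((hAO _).2 (Keym.inv_mem_of O hp hO hpN))
    rwa [map_inv₀, map_natCast] at this
  have hg := hM A O' w N Γ h hA hw hN
  let a : I →* RingAut (L Γ) :=
    { toFun := fun σ => r σ
      map_one' := RingEquiv.ext fun x => Subtype.ext (by
        rw [hr _ (1 : I).2, Subgroup.coe_one, map_one]; rfl)
      map_mul' := fun σ τ => RingEquiv.ext fun x => Subtype.ext (by
        rw [hr _ (σ * τ).2, Subgroup.coe_mul, map_mul]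
        change X.gal σ (X.gal τ x) = ((r σ (r τ x) : L Γ) : FF)
        rw [hr _ σ.2, hr _ τ.2]) }
  have hT : ∀ σ ∈ I, r σ (X.tL h.hi) = X.tL h.hi := fun σ hσ =>
    Subtype.ext ((hr σ hσ _).trans (hX.2.2.1 σ))
  obtain ⟨θ, h1, h2, h3, h4⟩ := hCh (Qv A) (L Γ) (X.tL h.hi) (w.comap (L Γ)) I a hg
    (fun g => ⟨((g : GQ) : Qb ≃+* Qb), fun c => Subtype.ext ((hr g g.2 _).trans (hX.2.1 g c))⟩)
    (fun g => hT g g.2)
    (fun g x hx => by
      have := (hWG A O' w hA hw g (iso hAO hI g.2)).2 (fun c hc =>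
        (lt_iff hAO _).2 (hI g g.2 c ((hAO c).1 hc))) (x : FF) hx
      rw [← hr g g.2 x] at this
      exact this)
    (fun x => by
      refine Set.Finite.of_finite_image (f := fun y : L Γ => (y : FF))
        ((orbit_finite X x (hX.2.2.2.2.2 x)).subset ?_) Subtype.val_injective.injOn
      rintro _ ⟨_, ⟨g, rfl⟩, rfl⟩
      exact ⟨g, (hr g g.2 x).symm⟩)
  let ι : O →+* OC (Qv A) := O.subtype.codRestrict (OC (Qv A)) fun c => (hAO c).2 c.2
  let res : O →+* kC (Qv A) := (IsLocalRing.residue (OC (Qv A))).comp ι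
  have hres : ∀ c : O, res c = cred (C := Qv A) (c : Qb) := fun c =>
    (cred_of (C := Qv A) ((hAO c).2 c.2)).symm
  obtain ⟨ch, e1, e2, hmov⟩ := hCb (Qv A) (L Γ) (X.tL h.hi) θ (w.comap (L Γ)) O res
    (fun c => (hAO c).symm) hres hg h2 h3 h4
  refine ⟨{ κ := kC (Qv A)
            res := res
            surj := fun y => ?_
            J := Unit
            ch := fun _ => ch
            fx := fun σ hσ _ => ?_
            fth := fun σ hσ _ => ?_
            mov := hmov }⟩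
  · obtain ⟨c, hc, rfl⟩ := cred_surj y
    exact ⟨⟨c, (hAO c).1 hc⟩, hres _⟩
  · exact e1 ▸ hT σ hσ
  · exact e2 ▸ h1 ⟨σ, hσ⟩

end Vale.Agent.P027M.G
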