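import Vale.Agent.P027M.G.Defs

/-!
# P027, route M, block G: the absolute value of a valuation ring of the algebraic numbers
-/

set_option linter.all false

noncomputable section

namespace Vale.Agent.P027M.G

open Polynomial Vale.Agent.P022 Vale.Agent.P022.H542.L3

namespace Norm

variable {O : ValuationSubring Qb} {p : ℕ}

theorem int_le (O : ValuationSubring Qb) (c : ℤ) : O.valuation (c : Qb) ≤ 1 :=
  (O.valuation_le_one_iff _).2 (intCast_mem O c)

theorem p_pos (hp : p.Prime) : 0 < O.valuation (p : Qb) :=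
  zero_lt_iff.2 ((_root_.map_ne_zero _).2 (Nat.cast_ne_zero.2 hp.ne_zero))

theorem unit (hp : p.Prime) (h : O.valuation (p : Qb) < 1) {u : ℕ} (hu : ¬ p ∣ u) :
    O.valuation (u : Qb) = 1 := by
  by_contra c
  have h1 : O.valuation (u : Qb) < 1 := lt_of_le_of_ne (by simpa using int_le O u) c
  obtain ⟨a, b, e⟩ := Nat.isCoprime_iff_coprime.2 ((hp.coprime_iff_not_dvd).2 hu)
  have e' : (a : Qb) * p + b * u = 1 := by exact_mod_cast congrArg (Int.cast : ℤ → Qb) e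
  have h2 := O.valuation.map_add_lt (x := (a : Qb) * p) (y := b * u) (g := 1)
    (by rw [map_mul]; exact (mul_le_of_le_one_left' (int_le O a)).trans_lt h)
    (by rw [map_mul]; exact (mul_le_of_le_one_left' (int_le O b)).trans_lt h1)
  rw [e', map_one] at h2
  exact lt_irrefl _ h2

theorem int_val (hp : p.Prime) (h : O.valuation (p : Qb) < 1) {c : ℤ} (hc : c ≠ 0) :
    ∃ k : ℕ, O.valuation (c : Qb) = O.valuation (p : Qb) ^ k := by
  obtain ⟨k, u, hu, e⟩ := Nat.exists_eq_pow_mul_and_not_dvd (Int.natAbs_ne_zero.2 hc) p hp.ne_one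
  refine ⟨k, ?_⟩
  have e1 : O.valuation (c : Qb) = O.valuation (c.natAbs : Qb) := by
    rcases Int.natAbs_eq c with h1 | h1
    · conv_lhs => rw [h1]
      rw [Int.cast_natCast]
    · conv_lhs => rw [h1]
      rw [Int.cast_neg, Int.cast_natCast, Valuation.map_neg]
  rw [e1, e, Nat.cast_mul, Nat.cast_pow, map_mul, map_pow, unit hp h hu, mul_one]

/-- `q` is the exponent of `x` -/
def Rl (O : ValuationSubring Qb) (p : ℕ) (x : Qb) (q : ℝ) : Prop :=
  ∃ (n : ℕ) (m : ℤ), 0 < n ∧ O.valuation x ^ n = O.valuation (p : Qb) ^ m ∧ q = m / n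

theorem two (hp : p.Prime) {x : Qb} (hx : x ≠ 0) {i j a b : ℕ} (hij : i < j)
    (e : O.valuation (p : Qb) ^ a * O.valuation x ^ i = O.valuation (p : Qb) ^ b * O.valuation x ^ j) :
    ∃ q, Rl O p x q := by
  obtain ⟨d, rfl⟩ := Nat.exists_eq_add_of_lt hij
  have h1 := (p_pos (O := O) hp).ne'
  have h2 : O.valuation x ≠ 0 := (_root_.map_ne_zero _).2 hx
  refine ⟨_, d + 1, (a : ℤ) - b, Nat.succ_pos d, ?_, rfl⟩
  rw [zpow_sub₀ h1, zpow_natCast, zpow_natCast, eq_div_iff (pow_ne_zero b h1)]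
  refine mul_right_cancel₀ (pow_ne_zero i h2) ?_
  rw [e, add_assoc, pow_add _ i]
  ac_rfl

theorem ex (hp : p.Prime) (h : O.valuation (p : Qb) < 1) {x : Qb} (hx : x ≠ 0) :
    ∃ q, Rl O p x q := by
  classical
  obtain ⟨f, hf, e⟩ : IsAlgebraic ℤ x :=
    (IsFractionRing.isAlgebraic_iff ℤ ℚ Qb).2 ((AlgebraicClosure.isAlgebraic ℚ).isAlgebraic x)
  rw [aeval_def, eval₂_eq_sum, Polynomial.sum] at e
  obtain ⟨j, hj, hm⟩ := Finset.exists_max_image f.support
    (fun i => O.valuation (algebraMap ℤ Qb (f.coeff i) * x ^ i)) (support_nonempty.2 hf)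
  have val : ∀ i ∈ f.support, ∃ a : ℕ, O.valuation (algebraMap ℤ Qb (f.coeff i) * x ^ i) =
      O.valuation (p : Qb) ^ a * O.valuation x ^ i := fun i hi => by
    obtain ⟨a, ha⟩ := int_val hp h (mem_support_iff.1 hi)
    exact ⟨a, by rw [map_mul, map_pow, eq_intCast, ha]⟩
  obtain ⟨b, hb⟩ := val j hj
  by_contra c
  have h1 := O.valuation.map_sum_eq_of_lt (f := fun i => algebraMap ℤ Qb (f.coeff i) * x ^ i) hj
    fun i hi => by
      obtain ⟨h1, h2⟩ := Finset.mem_sdiff.1 hi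
      refine lt_of_le_of_ne (hm i h1) fun h3 => c ?_
      obtain ⟨a, ha⟩ := val i h1
      rw [ha, hb] at h3
      rcases lt_or_gt_of_ne (Finset.notMem_singleton.1 h2) with h4 | h4
      · exact two hp hx h4 h3
      · exact two hp hx h4 h3.symm
  rw [e, map_zero, hb] at h1
  exact mul_ne_zero (pow_ne_zero b (p_pos hp).ne') (pow_ne_zero j ((_root_.map_ne_zero _).2 hx)) h1.symm

theorem Rl.le (hp : p.Prime) (h : O.valuation (p : Qb) < 1) {x y : Qb} {q q' : ℝ}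
    (hx : Rl O p x q) (hy : Rl O p y q') : O.valuation x ≤ O.valuation y ↔ q' ≤ q := by
  obtain ⟨n, m, hn, e, rfl⟩ := hx
  obtain ⟨n', m', hn', e', rfl⟩ := hy
  rw [← pow_le_pow_iff_left₀ zero_le' zero_le' (mul_pos hn hn').ne', pow_mul, e, mul_comm n,
    pow_mul, e', ← zpow_natCast, ← zpow_natCast, ← zpow_mul, ← zpow_mul,
    zpow_le_zpow_iff_right_of_lt_one₀ (p_pos hp) h,
    div_le_div_iff₀ (Nat.cast_pos.2 hn') (Nat.cast_pos.2 hn)]
  exact_mod_cast Iff.rfl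

theorem Rl.mul (hp : p.Prime) {x y : Qb} {q q' : ℝ} (hx : Rl O p x q) (hy : Rl O p y q') :
    Rl O p (x * y) (q + q') := by
  obtain ⟨n, m, hn, e, rfl⟩ := hx
  obtain ⟨n', m', hn', e', rfl⟩ := hy
  refine ⟨n * n', m * n' + m' * n, mul_pos hn hn', ?_, ?_⟩
  · rw [map_mul, mul_pow, pow_mul, e, mul_comm n, pow_mul, e', zpow_add₀ (p_pos hp).ne',
      zpow_mul, zpow_mul, zpow_natCast, zpow_natCast]
  · have a1 : (n : ℝ) ≠ 0 := Nat.cast_ne_zero.2 hn.ne'
    have a2 : (n' : ℝ) ≠ 0 := Nat.cast_ne_zero.2 hn'.ne'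
    push_cast
    field_simp

theorem aut_le {σ : Qb ≃+* Qb} (hσ : ∀ x, σ x ∈ O ↔ x ∈ O) {x y : Qb} (hy : y ≠ 0) :
    O.valuation (σ x) ≤ O.valuation (σ y) ↔ O.valuation x ≤ O.valuation y := by
  have k : ∀ a b : Qb, b ≠ 0 → (O.valuation a ≤ O.valuation b ↔ a / b ∈ O) := fun a b hb => by
    rw [← O.valuation_le_one_iff, map_div₀,
      div_le_one₀ (zero_lt_iff.2 ((_root_.map_ne_zero _).2 hb))]
  rw [k _ _ hy, k _ _ ((_root_.map_ne_zero σ).2 hy), ← map_div₀, hσ]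

theorem Rl.aut (hp : p.Prime) {σ : Qb ≃+* Qb} (hσ : ∀ x, σ x ∈ O ↔ x ∈ O) {x : Qb} (h0 : x ≠ 0)
    {q : ℝ} (hx : Rl O p x q) : Rl O p (σ x) q := by
  obtain ⟨n, m, hn, e, rfl⟩ := hx
  refine ⟨n, m, hn, ?_, rfl⟩
  have h1 : (p : Qb) ^ m ≠ 0 := zpow_ne_zero m (Nat.cast_ne_zero.2 hp.ne_zero)
  rw [← map_pow, ← map_zpow₀] at e
  have a1 := (aut_le hσ h1).2 e.le
  have a2 := (aut_le hσ (pow_ne_zero n h0)).2 e.ge
  have a3 := le_antisymm a1 a2
  rwa [map_pow, map_zpow₀, map_natCast, map_pow, map_zpow₀] at a3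

end Norm

open Norm in
theorem norm : NORM := by
  classical
  intro O p hp h
  choose! e he using fun x (hx : x ≠ 0) => ex hp h hx
  obtain ⟨a, ha⟩ : ∃ a : Qb → ℝ, ∀ x, a x = if x = 0 then 0 else Real.exp (-e x) := ⟨_, fun _ => rfl⟩
  have a0 : a 0 = 0 := by rw [ha, if_pos rfl]
  have a1 : ∀ x q, x ≠ 0 → Rl O p x q → a x = Real.exp (-q) := fun x q hx hq => by
    rw [ha, if_neg hx, le_antisymm (((he x hx).le hp h hq).1 le_rfl) ((hq.le hp h (he x hx)).1 le_rfl)]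
  have pos : ∀ x, x ≠ 0 → 0 < a x := fun x hx => by rw [a1 x _ hx (he x hx)]; exact Real.exp_pos _
  have nn : ∀ x, 0 ≤ a x := fun x => by
    by_cases hx : x = 0
    · rw [hx, a0]
    · exact (pos x hx).le
  have le : ∀ x y, a x ≤ a y ↔ O.valuation x ≤ O.valuation y := fun x y => by
    by_cases hx : x = 0
    · rw [hx, a0, map_zero]
      exact iff_of_true (nn y) zero_le'
    · by_cases hy : y = 0
      · rw [hy, a0, map_zero]
        exact iff_of_false (not_le.2 (pos x hx))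
          (not_le.2 (zero_lt_iff.2 ((_root_.map_ne_zero _).2 hx)))
      · rw [a1 x _ hx (he x hx), a1 y _ hy (he y hy), Real.exp_le_exp, neg_le_neg_iff,
          (he x hx).le hp h (he y hy)]
  have na : ∀ x y, a (x + y) ≤ a x ⊔ a y := fun x y => by
    rw [le_sup_iff, le, le]
    exact le_max_iff.1 (O.valuation.map_add x y)
  have one : a 1 = 1 := by
    rw [a1 1 0 one_ne_zero ⟨1, 0, one_pos, by simp, by simp⟩, neg_zero, Real.exp_zero]
  refine ⟨⟨⟨a, fun x y => ?_⟩, nn, fun x => ⟨fun h1 => ?_, fun h1 => ?_⟩, fun x y =>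
    (na x y).trans (sup_le (le_add_of_nonneg_right (nn y)) (le_add_of_nonneg_left (nn x)))⟩,
    na, fun x => ?_, ⟨(p : Qb)⁻¹, ?_⟩, fun σ hσ x => ?_⟩
  · by_cases hx : x = 0
    · rw [hx, zero_mul, a0, zero_mul]
    · by_cases hy : y = 0
      · rw [hy, mul_zero, a0, mul_zero]
      · rw [a1 _ _ (mul_ne_zero hx hy) ((he x hx).mul hp (he y hy)), a1 x _ hx (he x hx),
          a1 y _ hy (he y hy), neg_add, Real.exp_add]
  · by_contra hx
    exact (pos x hx).ne' h1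
  · rw [h1]; exact a0
  · show a x ≤ 1 ↔ _
    rw [← one, le, map_one, O.valuation_le_one_iff]
  · show 1 < a _
    rw [← one, ← not_le, le, map_one, map_inv₀, not_le]
    exact (one_lt_inv₀ (p_pos hp)).2 h
  · show a (σ x) = a x
    by_cases hx : x = 0
    · rw [hx, map_zero]
    · rw [a1 _ _ ((_root_.map_ne_zero σ).2 hx) ((he x hx).aut hp hσ hx), a1 x _ hx (he x hx)]

end Vale.Agent.P027M.G
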