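import Vale.Agent.P027M.G.Mod0
import Vale.Agent.P027M.G.Norm

/-!
# P027, route M, block G, row AVE
-/

noncomputable section

namespace Vale.Agent.P027M.G

open Vale.Agent.P022

theorem oext : OEXT := by
  intro O
  obtain ⟨B, hB, hl⟩ := IsLocalRing.exists_factor_valuationRing
    ((M.io : Qb →+* ℂ).comp O.subtype)
  refine ⟨B, fun c => ⟨fun h => ?_, fun h => hB ⟨c, h⟩⟩⟩
  by_contra hc
  have h0 : c ≠ 0 := by rintro rfl; exact hc (zero_mem O)
  have h1 : c⁻¹ ∈ O := (O.mem_or_inv_mem c).resolve_left hc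
  have h2 : IsUnit ((((M.io : Qb →+* ℂ).comp O.subtype).codRestrict B.toSubring hB) ⟨c⁻¹, h1⟩) := by
    refine IsUnit.of_mul_eq_one ⟨M.io c, h⟩ (Subtype.ext ?_)
    change M.io c⁻¹ * M.io c = 1
    rw [← map_mul, inv_mul_cancel₀ h0, map_one]
  obtain ⟨y, hy⟩ := (hl.map_nonunit _ h2).exists_right_inv
  have h3 : c⁻¹ * (y : Qb) = 1 := congrArg Subtype.val hy
  rw [inv_mul_eq_one₀ h0] at h3
  exact hc (h3 ▸ y.2)

theorem ave : AVE := by
  intro O p hp h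
  obtain ⟨a, h1, h2, h3, h4⟩ := norm O p hp h
  obtain ⟨O', hO⟩ := oext O
  exact ⟨⟨a, h1, h3, fun σ hσ => h4 σ fun x => by rw [← h2, ← h2, hσ]⟩, O',
    fun c => (hO c).trans (h2 c).symm, h2⟩

end Vale.Agent.P027M.G
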