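import Vale.Agent.P027M.G.Defs

/-! # P027, route M, block G: an invariant integral element whose reduction is primitive -/

set_option linter.all false

noncomputable section

namespace Vale.Agent.P027M.G

open Polynomial IntermediateField Module P025H373 P025H746 Vale.Agent.P019P P025H492 P025H816
open scoped Classical

namespace Chart

section ff

variable {k F : Type} [Field k] [Field F] [Algebra k F] [CFF k F]

theorem abs_le (z : F) (P : Plk k F) :
    -((∑ Q ∈ (dv k z).support, (ord Q z).natAbs : ℕ) : ℤ) ≤ ord P z := by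
  by_cases h : P ∈ (dv k z).support
  · have := Finset.single_le_sum (f := fun Q => (ord Q z).natAbs) (fun _ _ => Nat.zero_le _) h
    omega
  · rw [Finsupp.notMem_support_iff, dv_apply] at h
    omega

theorem mem_LL_of {t z : F} (h : ∀ P : Plk k F, 0 ≤ ord P t → 0 ≤ ord P z) :
    ∃ n₀ : ℕ, ∀ n : ℕ, n₀ ≤ n → z ∈ LL k (n • pol k t) := by
  refine ⟨∑ Q ∈ (dv k z).support, (ord Q z).natAbs, fun n hn => Or.inr fun P => ?_⟩
  rw [Finsupp.smul_apply, pol_apply, nsmul_eq_mul]
  rcases le_or_gt 0 (ord P t) with c | c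
  · rw [max_eq_left (by omega), mul_zero, neg_zero]
    exact h P c
  · have := abs_le z P
    rw [max_eq_right (by omega)]
    have h1 : (n : ℤ) * 1 ≤ n * -ord P t := mul_le_mul_of_nonneg_left (by omega) (by omega)
    omega

theorem clear {t : F} (ht : ∀ a : k, t ≠ algebraMap k F a) (y : F) :
    ∃ u : k⟮t⟯, u ≠ 0 ∧ ∀ P : Plk k F, 0 ≤ ord P t → 0 ≤ ord P (algebraMap k⟮t⟯ F u * y) := by
  by_cases y0 : y = 0
  · exact ⟨1, one_ne_zero, fun P _ => by rw [y0, mul_zero, ord_zero]⟩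
  have f0 : ∀ c : k, t - algebraMap k F c ≠ 0 := fun c => sub_ne_zero.2 (ht c)
  have u0 : (∏ Q ∈ (dv k y).support, (t - algebraMap k F (vl Q t))) ≠ 0 :=
    Finset.prod_ne_zero_iff.2 fun Q _ => f0 _
  refine ⟨⟨(∏ Q ∈ (dv k y).support, (t - algebraMap k F (vl Q t))) ^
    ∑ Q ∈ (dv k y).support, (ord Q y).natAbs, pow_mem (prod_mem fun Q _ =>
      sub_mem (mem_adjoin_simple_self k t) (IntermediateField.algebraMap_mem _ _)) _⟩,
    fun e => pow_ne_zero _ u0 (congrArg Subtype.val e), fun P hP => ?_⟩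
  show 0 ≤ ord P (_ ^ _ * y)
  rw [ord_mul P (pow_ne_zero _ u0) y0, ord_pow, ord_prod P _ _ fun Q _ => f0 _]
  have g0 : ∀ Q : Plk k F, 0 ≤ ord P (t - algebraMap k F (vl Q t)) := fun Q =>
    ((mem_iff_ord P _).1 (sub_mem ((mem_iff_ord P t).2 (Or.inr hP)) (P.2.1 _))).resolve_left (f0 _)
  by_cases h : P ∈ (dv k y).support
  · have h1 := Finset.single_le_sum (f := fun Q : Plk k F => ord P (t - algebraMap k F (vl Q t)))
      (fun Q _ => g0 Q) h
    have h2 := (mem_Mge.1 (sub_vl_mem hP)).resolve_left (f0 _)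
    have h3 := abs_le y P
    have h4 := mul_le_mul_of_nonneg_left (h2.trans h1)
      (Nat.cast_nonneg (α := ℤ) (∑ Q ∈ (dv k y).support, (ord Q y).natAbs))
    omega
  · rw [Finsupp.notMem_support_iff, dv_apply] at h
    rw [h, add_zero]
    exact mul_nonneg (Nat.cast_nonneg _) (Finset.sum_nonneg fun Q _ => g0 Q)

theorem reg_of {t z : F} {n : ℕ} (h : z ∈ LL k (n • pol k t)) : Reg k t z := by
  intro P hP
  rw [mem_iff_ord]
  refine (mem_LL.1 h).imp id fun c => ?_
  have c1 := c P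
  have c2 : 0 ≤ ord P t := by
    rcases (mem_iff_ord P t).1 hP with e | e
    · rw [e, ord_zero]
    · exact e
  rwa [Finsupp.smul_apply, pol_apply, max_eq_left (by omega), smul_zero, neg_zero] at c1

end ff

theorem reg_map {C K : Type} [Field C] [Field K] [Algebra C K] {T x : K} (σ : RingAut K)
    (s₀ : C ≃+* C) (hs : ∀ c, σ (algebraMap C K c) = algebraMap C K (s₀ c)) (hT : σ T = T)
    (h : Reg C T x) : Reg C T (σ x) := by
  intro P hP
  refine h ⟨P.1.comap (σ : K →+* K), fun c => ?_, fun e => P.2.2 ?_⟩ ?_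
  · show σ _ ∈ P.1
    rw [hs]
    exact P.2.1 _
  · refine eq_top_iff.2 fun z _ => ?_
    obtain ⟨z, rfl⟩ := σ.surjective z
    have : z ∈ P.1.comap (σ : K →+* K) := by
      rw [show P.1.comap (σ : K →+* K) = ⊤ from e]
      exact ValuationSubring.mem_top _
    exact this
  · show σ T ∈ P.1
    rwa [hT]

theorem adj_mul {F E : Type} [Field F] [Field E] [Algebra F E] {u : F} (hu : u ≠ 0) (z : E) :
    F⟮algebraMap F E u * z⟯ = F⟮z⟯ := by
  refine le_antisymm (adjoin_simple_le_iff.2 (mul_mem (IntermediateField.algebraMap_mem _ _)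
    (mem_adjoin_simple_self F z))) (adjoin_simple_le_iff.2 ?_)
  have := mul_mem (IntermediateField.algebraMap_mem F⟮algebraMap F E u * z⟯ u⁻¹)
    (mem_adjoin_simple_self F (algebraMap F E u * z))
  rwa [← mul_assoc, ← map_mul, inv_mul_cancel₀ hu, map_one, one_mul] at this

theorem exists_exp (F : Type) [Field F] (q : ℕ) [h : ExpChar F q] {N : ℕ} (hN : N ≠ 0) :
    ∃ e : ℕ, ((N.choose (q ^ e) : ℕ) : F) ≠ 0 := by
  cases h with
  | zero => exact ⟨0, by rwa [pow_zero, Nat.choose_one_right, Nat.cast_ne_zero]⟩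
  | prime hp =>
    haveI := Fact.mk hp
    obtain ⟨e, m, hm, rfl⟩ := Nat.exists_eq_pow_mul_and_not_dvd hN q hp.ne_one
    refine ⟨e, fun c => hm ?_⟩
    have := Choose.choose_pow_mul_pow_mul_modEq_choose_nat (p := q) (k := e) (a := m) (b := 1)
    rw [mul_one, Nat.choose_one_right] at this
    exact (this.dvd_iff dvd_rfl).1 ((CharP.cast_eq_zero_iff F q _).1 c)

variable {K : Type} [Field K]

/-- the polynomial of a finite set, over a valuation ring -/
def lf (A : ValuationSubring K) (s : Finset K) (h : ∀ z ∈ s, z ∈ A) : A[X] :=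
  ∏ z : s, (X + Polynomial.C ⟨z, h z z.2⟩)

theorem lf_coeff (A : ValuationSubring K) (s : Finset K) (h : ∀ z ∈ s, z ∈ A) (i : ℕ) :
    ((lf A s h).coeff i : K) = (∏ z ∈ s, (X + Polynomial.C z)).coeff i := by
  have : (lf A s h).map A.subtype = ∏ z ∈ s, (X + Polynomial.C z) := by
    rw [lf, Polynomial.map_prod, ← Finset.prod_coe_sort s]
    exact Finset.prod_congr rfl fun z _ => by simp
  rw [← this, coeff_map]
  rfl

end Chart

open Chart in
theorem chart (hS : SURJ) : CHART := by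
  intro C K _ _ _ _ _ _ T w Γ _ a hG hc hT hw hf
  have nc : ∀ c : C, T ≠ algebraMap C K c := fun c e =>
    hG.og.transc (e ▸ isAlgebraic_algebraMap c)
  haveI := (finite_of_notMem nc).2
  haveI := hG.og.cff
  haveI := hG.og.finite
  haveI := hG.sep
  obtain ⟨y₀, hy₀⟩ := Field.exists_primitive_element (kC C)⟮w.red T⟯ (kap w)
  obtain ⟨u, u0, hu⟩ := clear hG.og.red_ne y₀
  obtain ⟨n₀, h₀⟩ := mem_LL_of hu
  obtain ⟨n₁, h₁⟩ := hS C K T w hG
  obtain ⟨x, xL, x1, xr⟩ := h₁ (max n₀ n₁) (le_max_right _ _) _ (h₀ _ (le_max_left _ _))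
  have hy : (kC C)⟮w.red T⟯⟮w.red x⟯ = ⊤ := by rw [xr, adj_mul u0, hy₀]
  set s := (hf x).toFinset with hs
  have ms : ∀ z, z ∈ s ↔ ∃ g, a g x = z := fun z => (hf x).mem_toFinset
  have N0 : s.card ≠ 0 := Finset.card_ne_zero.2 ⟨_, (ms _).2 ⟨1, rfl⟩⟩
  obtain ⟨q, hq⟩ := ExpChar.exists (kC C)⟮w.red T⟯
  obtain ⟨e, he⟩ := exists_exp (kC C)⟮w.red T⟯ q N0
  have le : q ^ e ≤ s.card := by
    by_contra c
    rw [Nat.choose_eq_zero_of_lt (not_le.1 c), Nat.cast_zero] at he
    exact he rfl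
  have w1 : ∀ z ∈ s, z ∈ w.ring := by
    intro z hz
    obtain ⟨g, rfl⟩ := (ms z).1 hz
    have := NV.add_le (hw g x x1).le x1
    rwa [sub_add_cancel] at this
  have w2 : ∀ z ∈ s, w.red z = w.red x := by
    intro z hz
    have h1 := w1 z hz
    obtain ⟨g, rfl⟩ := (ms z).1 hz
    rw [← sub_eq_zero, ← NV.red_sub h1 x1]
    exact NV.red_of_lt (hw g x x1)
  have w3 := lf_coeff w.ring s w1 (s.card - q ^ e)
  refine ⟨(∏ z ∈ s, (X + Polynomial.C z)).coeff (s.card - q ^ e), fun g => ?_, fun P hP => ?_,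
    by rw [← w3]; exact ((lf w.ring s w1).coeff _).2, ?_⟩
  · have : (∏ z ∈ s, (X + Polynomial.C z)).map (a g : K →+* K) =
        ∏ z ∈ s, (X + Polynomial.C z) := by
      rw [Polynomial.map_prod]
      refine Finset.prod_equiv (a g).toEquiv (fun z => ?_) fun z _ => by simp
      rw [ms, ms]
      constructor
      · rintro ⟨g', rfl⟩
        exact ⟨g * g', by rw [map_mul]; rfl⟩
      · rintro ⟨g', e'⟩
        refine ⟨g⁻¹ * g', (a g).injective ?_⟩
        rw [← RingAut.mul_apply, ← map_mul, mul_inv_cancel_left]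
        exact e'
    conv_rhs => rw [← this, coeff_map]
    rfl
  · have r1 : ∀ z ∈ s, z ∈ P.1 := by
      intro z hz
      obtain ⟨g, rfl⟩ := (ms z).1 hz
      obtain ⟨s₀, h⟩ := hc g
      exact reg_map (a g) s₀ h (hT g) (reg_of xL) P hP
    exact lf_coeff P.1 s r1 _ ▸ Subtype.prop _
  · have m : (lf w.ring s w1).map (IsLocalRing.residue w.ring) =
        (X + Polynomial.C (w.red x)) ^ s.card := by
      rw [lf, Polynomial.map_prod, ← Fintype.card_coe s, ← Finset.card_univ, ← Finset.prod_const]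
      refine Finset.prod_congr rfl fun z _ => ?_
      rw [Polynomial.map_add, map_X, map_C, ← w2 z z.2, NV.red_of (w1 z z.2)]
    rw [← w3, NV.red_of ((lf w.ring s w1).coeff _).2, Subtype.coe_eta, ← coeff_map, m, coeff_X_add_C_pow,
      Nat.sub_sub_self le, Nat.choose_symm le, mul_comm,
      ← map_natCast (algebraMap (kC C)⟮w.red T⟯ (kap w)), adj_mul he,
      ← adjoin_simple_eq_adjoin_pow_expChar_pow_of_isSeparable' _ _ _ q e, hy]

end Vale.Agent.P027M.G
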