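import Vale.Agent.P027M.G.Spec

/-!
# P027, route M, block G: the chart of a curve with good reduction
-/

set_option linter.all false

noncomputable section

namespace Vale.Agent.P027M.G

open Polynomial IntermediateField Module P025H373 P025H746 Vale.Agent.P019P P025H492 P025H816
open P025H458

namespace Chb

theorem ev_map {R F G : Type*} [CommRing R] [CommRing F] [CommRing G] (φ : R →+* F) (x θ : F)
    (g : F →+* G) (A : R[X][X]) : g (D.ev φ x θ A) = D.ev (g.comp φ) (g x) (g θ) A := by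
  have e : g.comp (eval₂RingHom φ x) = eval₂RingHom (g.comp φ) (g x) :=
    Polynomial.ringHom_ext (fun a => by simp) (by simp)
  rw [D.ev, D.ev, coe_eval₂RingHom, coe_eval₂RingHom, hom_eval₂, e]

/-- the minimal polynomial over `C[T]` -/
theorem exists_min {C K : Type} [NormedField C] [IsUltrametricDist C] [IsAlgClosed C] [Field K]
    [Algebra C K] {T : K} [FiniteDimensional C⟮T⟯ K] (hT : Transcendental C T) {x : K}
    (h1 : IsIntegral (Algebra.adjoin C {T}) x) (h2 : ∀ w : NV C K, w.OverG T → w x ≤ 1) :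
    ∃ p : C[X][X], p.Monic ∧ (∀ i, gp (p.coeff i) ≤ 1) ∧ p.natDegree ≤ finrank C⟮T⟯ K ∧
      Polynomial.eval₂ (Polynomial.aeval T : C[X] →ₐ[C] K).toRingHom x p = 0 := by
  let _ := algT T hT
  have := algT_tower T hT
  have := algT_algebraic T hT
  let _ : Algebra C[X] K := (Polynomial.aeval T : C[X] →ₐ[C] K).toRingHom.toAlgebra
  have : IsScalarTower C[X] (RatFunc C) K :=
    IsScalarTower.of_algebraMap_eq fun P => (algT_poly T hT P).symm
  have h3 : IsIntegral C[X] x := by
    refine IsIntegral.map_of_comp_eq (T := C[X])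
      ((Polynomial.algEquivOfTranscendental C T hT).symm : Algebra.adjoin C {T} →+* C[X])
      (RingHom.id K) ?_ h1
    ext y
    obtain ⟨z, rfl⟩ := (Polynomial.algEquivOfTranscendental C T hT).surjective y
    simp only [RingHom.comp_apply, RingHom.coe_coe, AlgEquiv.symm_apply_apply, RingHom.id_apply]
    change aeval T z = (((Polynomial.algEquivOfTranscendental C T hT) z : Algebra.adjoin C {T}) : K)
    rw [Polynomial.algEquivOfTranscendental_apply]
    have := Polynomial.aeval_algebraMap_apply K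
      (⟨T, Algebra.self_mem_adjoin_singleton C T⟩ : Algebra.adjoin C {T}) z
    exact this
  have hX : T = algebraMap (RatFunc C) K RatFunc.X := (ratAlg_X T hT).symm
  have := (finite_rat hX).2 inferInstance
  refine ⟨minpoly C[X] x, minpoly.monic h3, fun i => ?_, ?_, minpoly.aeval C[X] x⟩
  · have h4 := minpoly_coeff_le (K := K) (gauss C) gauss_na gauss_const gauss_val x (by
      intro w hw hwg
      refine h2 ⟨w, hw, fun c => ?_⟩ fun P => ?_
      · rw [IsScalarTower.algebraMap_apply C (RatFunc C) K, hwg, gauss_const]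
      · have h := hwg (algebraMap C[X] (RatFunc C) P)
        rw [algT_poly T hT P, gauss_poly] at h
        exact h) i
    rw [minpoly.isIntegrallyClosed_eq_field_fractions' (RatFunc C) h3, Polynomial.coeff_map,
      gauss_poly] at h4
    exact h4
  · have h5 := minpoly.natDegree_le (A := RatFunc C) x
    rw [minpoly.isIntegrallyClosed_eq_field_fractions' (RatFunc C) h3,
      (minpoly.monic h3).natDegree_map, finrank_rat hX] at h5
    exact h5

/-- a monic equation of small degree for a primitive element is the minimal polynomial -/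
theorem minp {κ G : Type} [Field κ] [Field G] [Algebra κ G] {x y : G} (hx : Transcendental κ x)
    [FiniteDimensional κ⟮x⟯ G] [Algebra.IsSeparable κ⟮x⟯ G] (hy : κ⟮x⟯⟮y⟯ = ⊤) {Ψ : κ[X][X]}
    (hm : Ψ.Monic) (hd : Ψ.natDegree ≤ finrank κ⟮x⟯ G) (h0 : D.ev (algebraMap κ G) x y Ψ = 0) :
    Ψ.natDegree = finrank κ⟮x⟯ G ∧ Irreducible (Ψ.map (algebraMap κ[X] (RatFunc κ))) ∧
      (Ψ.map (algebraMap κ[X] (RatFunc κ))).Separable := by
  obtain ⟨e, e1⟩ : ∃ e : RatFunc κ →+* κ⟮x⟯, ((algebraMap κ⟮x⟯ G).comp e).comp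
      (algebraMap κ[X] (RatFunc κ)) = eval₂RingHom (algebraMap κ G) x := by
    refine ⟨(RatFunc.algEquivOfTranscendental x hx : RatFunc κ →+* κ⟮x⟯), RingHom.ext fun P => ?_⟩
    change algebraMap κ⟮x⟯ G (RatFunc.algEquivOfTranscendental x hx
      (algebraMap κ[X] (RatFunc κ) P)) = aeval x P
    rw [RatFunc.algEquivOfTranscendental_algebraMap, ← Polynomial.aeval_algebraMap_apply]
    rfl
  have hi : IsIntegral κ⟮x⟯ y := Algebra.IsIntegral.isIntegral y
  have m1 := hm.map (algebraMap κ[X] (RatFunc κ))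
  have m2 := m1.map e
  have z : aeval y ((Ψ.map (algebraMap κ[X] (RatFunc κ))).map e) = 0 := by
    rw [aeval_def, eval₂_map, eval₂_map, e1]
    exact h0
  have d1 : (minpoly κ⟮x⟯ y).natDegree = finrank κ⟮x⟯ G := by
    rw [← adjoin.finrank hi, hy, finrank_top']
  have d2 : ((Ψ.map (algebraMap κ[X] (RatFunc κ))).map e).natDegree = Ψ.natDegree := by
    rw [m1.natDegree_map, hm.natDegree_map]
  have q := Polynomial.eq_of_monic_of_dvd_of_natDegree_le (minpoly.monic hi) m2
    (minpoly.dvd _ _ z) (by rw [d1, d2]; exact hd)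
  refine ⟨by rw [← d2, q, d1], m1.irreducible_of_irreducible_map e _ ?_,
    (separable_map e).1 ?_⟩
  · rw [q]
    exact minpoly.irreducible hi
  · rw [q]
    exact Algebra.IsSeparable.isSeparable κ⟮x⟯ y

end Chb

open Chb in
theorem chb (hU : UNIQ) (hS : D.SEPB) (hM : D.MOVG) : CHB := by
  intro C K _ _ _ _ _ _ T θ w O r hO hr hG hR hθ hgen
  have hT := hG.og.transc
  have nc : ∀ a : C, T ≠ algebraMap C K a := fun a h => hT (h ▸ isAlgebraic_algebraMap a)
  have : FiniteDimensional C⟮T⟯ K := (finite_of_notMem nc).2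
  have := hG.og.finite
  have := hG.og.cff
  have := hG.sep
  obtain ⟨p, pm, pc, pd, p0⟩ := exists_min hT (isIntegral_adjoin_of_places hR)
    fun w' hw' => hU C K T w w' hG hw' ▸ hθ
  have pl : p ∈ lifts (mapRingHom O.subtype) := by
    rw [lifts_iff_coeff_lifts]
    intro n
    have : p.coeff n ∈ lifts O.subtype := by
      rw [lifts_iff_coeff_lifts]
      exact fun i => ⟨⟨_, (hO _).2 (gp_le_iff.1 (pc n) i)⟩, rfl⟩
    exact (mem_lifts _).1 this
  obtain ⟨Φ, rfl, hd, hm⟩ := lifts_and_natDegree_eq_and_monic pl pm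
  have root : D.ev (D.io O K) T θ Φ = 0 := by
    have e : (Polynomial.aeval T : C[X] →ₐ[C] K).toRingHom.comp (mapRingHom O.subtype) =
        eval₂RingHom (D.io O K) T := Polynomial.ringHom_ext (fun a => by simp [D.io]) (by simp)
    rw [eval₂_map, e] at p0
    exact p0
  have hT1 : w T ≤ 1 := hG.og.apply_T.le
  have rb : D.ev (D.ib r (kap w)) (w.red T) (w.red θ) Φ = 0 := by
    let ι : O →+* w.ring := (D.io O K).codRestrict w.ring fun c => by
      rw [NV.mem_ring]
      exact (w.ext' c).trans_le ((hO _).1 c.2)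
    have e1 : D.ev ι ⟨T, hT1⟩ ⟨θ, hθ⟩ Φ = 0 :=
      Subtype.ext ((ev_map ι ⟨T, hT1⟩ ⟨θ, hθ⟩ w.ring.subtype Φ).trans root)
    have e2 := ev_map ι ⟨T, hT1⟩ ⟨θ, hθ⟩ (IsLocalRing.residue w.ring) Φ
    have e3 : (IsLocalRing.residue w.ring).comp ι = D.ib r (kap w) := RingHom.ext fun c => by
      have h1 := (hO _).1 c.2
      have h2 := NV.red_algebraMap (w := w) h1
      rw [NV.red_of ((w.ext' c).trans_le h1), ← hr] at h2
      exact h2
    rw [e1, map_zero, e3, ← NV.red_of hT1, ← NV.red_of hθ] at e2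
    exact e2.symm
  have rb' : D.ev (algebraMap (kC C) (kap w)) (w.red T) (w.red θ) (Φ.map (mapRingHom r)) = 0 := by
    have e : (eval₂RingHom (algebraMap (kC C) (kap w)) (w.red T)).comp (mapRingHom r) =
        eval₂RingHom (D.ib r (kap w)) (w.red T) :=
      Polynomial.ringHom_ext (fun a => by simp [D.ib]) (by simp)
    rw [D.ev, coe_eval₂RingHom, eval₂_map, e]
    exact rb
  have hm' := hm.map (mapRingHom r)
  obtain ⟨k1, k2, k3⟩ := minp hG.og.transc_red hgen hm'
    (by rw [hm.natDegree_map, hG.deg, hd]; exact pd) rb'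
  rw [hm.natDegree_map] at k1
  obtain ⟨B, hB⟩ := hS (kC C) _ hm' k3
  rw [Polynomial.map_map] at k2
  have sep : ∀ s, s ∉ B → (Φ.map (eval₂RingHom r s)).Separable := fun s hs => by
    have e : (evalRingHom s).comp (mapRingHom r) = eval₂RingHom r s :=
      Polynomial.ringHom_ext (fun a => by simp) (by simp)
    have := hB s hs
    rwa [Polynomial.map_map, e] at this
  have surj : Function.Surjective r := fun a => by
    obtain ⟨c, h1, h2⟩ := cred_surj a
    exact ⟨⟨c, (hO c).2 h1⟩, (hr _).trans h2⟩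
  let ch : D.Chart r K := ⟨T, θ, Φ, B, nc, hm, root, k1.trans hG.deg, k2, sep⟩
  exact ⟨ch, rfl, rfl, hM C (kC C) K (kap w) O r surj ch
    ⟨w.red T, w.red θ, hG.og.red_ne, rb, k1⟩ hG.gen⟩

end Vale.Agent.P027M.G
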