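import Vale.Agent.P027M.G.Mod0
import Vale.Agent.P027M.M.Plc

/-!
# P027, route M, block G, row CUSPM: the integral expansions at the three cusps
-/

set_option linter.all false

noncomputable section

namespace Vale.Agent.P027M.G

open Polynomial IntermediateField Module P025H373 P025H746 Vale.Agent.P019P P025H492 P025H816
open Vale.Agent.P022 Vale.Agent.P022.H542.L3 Vale.Agent.P022.H218.L3 Vale.Agent.P022.H236.L3
open Vale.Agent.P027M.M (io FF cv L G0 Gt GH Lv Mid Mdl NZ)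
open scoped MatrixGroups Matrix

namespace Cuspm

open M M.Plc

section ser

variable {N : ℕ} {O : ValuationSubring ℂ} (hO : ∀ a ∈ ZN N, a ∈ O)
include hO

theorem ul {k : ℤ} {s : LS} (h : M.Good N k s) : UL O s := by
  refine ⟨fun n => hO _ (h.int n), ?_⟩
  have h0 : s.coeff k ≠ 0 := by
    rw [← h.ord]
    exact HahnSeries.coeff_order_eq_zero.not.2 h.ne
  have a := (O.valuation_le_one_iff _).2 (hO _ (h.int k))
  have b := (O.valuation_le_one_iff _).2 (hO _ h.unit)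
  rw [map_inv₀, inv_le_one₀ ((Valuation.pos_iff _).2 h0)] at b
  rw [h.ord]
  exact le_antisymm a b

omit hO in
theorem ul_one : UL O 1 := by
  refine ⟨fun n => ?_, by simp⟩
  rw [HahnSeries.coeff_one]
  split_ifs
  · exact O.one_mem
  · exact O.zero_mem

omit hO in
theorem prm {s : LS} (h : UL O s) : Prm O s := ⟨h.1, _, h.2⟩

theorem qu {k : ℤ} {s : LS} (h : M.Good N k s) : QU O s := ⟨s, 1, ul hO h, ul_one, mul_one s⟩

theorem qp {k : ℤ} {s : LS} (h : M.Good N k s) : QP O s :=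
  ⟨s, 1, prm (ul hO h), prm ul_one, mul_one s⟩

end ser

theorem good_add {N : ℕ} {s : LS} {c : ℂ} (c0 : c ≠ 0) (h1 : c ∈ ZN N) (h2 : c⁻¹ ∈ ZN N)
    (hs : ∀ n, s.coeff n ∈ ZN N) (hk : ∀ n ≤ 0, s.coeff n = 0) :
    M.Good N 0 (HahnSeries.C c + s) := by
  have e0 : (HahnSeries.C c + s : LS).coeff 0 = c := by
    rw [HahnSeries.coeff_add, hk 0 le_rfl, add_zero, HahnSeries.C_apply,
      HahnSeries.coeff_single_same]
  have ne : (HahnSeries.C c + s : LS) ≠ 0 := fun e => c0 (by rw [← e0, e]; rfl)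
  refine ⟨ne, fun n => ?_,
    le_antisymm (HahnSeries.order_le_of_coeff_ne_zero (by rw [e0]; exact c0)) ?_,
    by rw [e0]; exact h2⟩
  · rw [HahnSeries.coeff_add, HahnSeries.C_apply, HahnSeries.coeff_single]
    refine add_mem ?_ (hs n)
    split_ifs
    · exact h1
    · exact zero_mem _
  · by_contra hlt
    rw [not_le] at hlt
    apply HahnSeries.coeff_order_eq_zero.not.2 ne
    rw [HahnSeries.coeff_add, hk _ hlt.le, add_zero]
    exact HahnSeries.coeff_single_of_ne hlt.ne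

theorem two_mem {N : ℕ} (h : Lv N) : (2 : ℂ) ∈ ZN N ∧ (2 : ℂ)⁻¹ ∈ ZN N := by
  refine ⟨ofNat_mem _ 2, ?_⟩
  obtain ⟨k, hk⟩ := h.four
  have k0 : (k : ℂ) ≠ 0 := by
    have := h.pos
    exact_mod_cast (show k ≠ 0 by omega)
  have e : (2 : ℂ)⁻¹ = ((2 * k : ℕ) : ℂ) * (N : ℂ)⁻¹ := by
    rw [hk]
    push_cast
    field_simp
    norm_num
  rw [e]
  exact mul_mem (natCast_mem _ _) (Algebra.subset_adjoin (by simp))

/-- the local parameter at the cusps with finite value -/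
theorem good_loc (hG : GOOD) {N : ℕ} (h : Lv N) {s : LS} (hs : M.Good N N s) {c : ℂ} (c0 : c ≠ 0)
    (h1 : c ∈ ZN N) (h2 : c⁻¹ ∈ ZN N) :
    M.Good N N ((HahnSeries.C c + s)⁻¹ - HahnSeries.C c⁻¹) := by
  obtain ⟨mul, inv, neg, -⟩ := hG N h.pos
  have N0 := h.pos
  have a : M.Good N 0 (HahnSeries.C c + s) := good_add c0 h1 h2 hs.int fun n hn =>
    HahnSeries.coeff_eq_zero_of_lt_order (by rw [hs.ord]; omega)
  have b : M.Good N 0 (HahnSeries.C c + 0) :=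
    good_add c0 h1 h2 (fun n => zero_mem _) fun n _ => rfl
  rw [add_zero] at b
  have d := mul _ _ _ _ (mul _ _ _ _ (neg _ _ hs) (inv _ _ a)) (inv _ _ b)
  rw [neg_zero, add_zero, add_zero] at d
  have a0 := a.ne
  have b0 := b.ne
  convert d using 1
  rw [map_inv₀]
  field_simp
  ring

theorem xs_int (hS : SER0) {N : ℕ} (h : 0 < N) {v : Fin 2 → ℤ} (hv : NZ N v) (n : ℤ) :
    (Xs N v).coeff n ∈ ZN N := by
  have a := (hS N h v v).2.2.2 hv n
  have N0 : (N : ℂ) ≠ 0 := by exact_mod_cast h.ne'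
  have e : (Xs N v).coeff n = ((N : ℂ)⁻¹) ^ 2 * ((N : ℂ) ^ 2 * (Xs N v).coeff n) := by
    field_simp
  rw [e]
  exact mul_mem (pow_mem (Algebra.subset_adjoin (by simp)) 2)
    (Algebra.adjoin_mono (by simp) a)

theorem ad_of (hS : SER0) {N : ℕ} (h : 0 < N) {v w : Fin 2 → ℤ} (hv : NZ N v) (hw : NZ N w)
    (ne : Xs N v ≠ Xs N w) : Ad N v w :=
  ⟨hv, hw, fun c => ne ((hS N h v w).1 c), fun c =>
    ne (((hS N h v (-w)).1 fun i => by simpa using c i).trans (hS N h w w).2.1)⟩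

/-- the expansion at the cusp `γ ∞` -/
theorem theta (X : Mdl) (hG : GRP) (hE : M.EXP) {N : ℕ} (h : Lv N) (γ : SL(2, ℤ)) :
    ∃ θ : L (Gt N) →+* LS, ∀ x : L (Gt N), ExM N (θ x) (act γ⁻¹ (cv (x : FF))) := by
  have N0 := h.pos
  obtain ⟨fi, nm, -, -, TN, -⟩ := hG N h
  have ex : ∀ x : L (Gt N), ∃ s, ExM N s (act γ⁻¹ (cv (x : FF))) := fun x => by
    obtain ⟨s, hs, -⟩ := hE.2.2.1 N (X.pg γ x) N0 (by
      rw [cv_pg, act_act]
      conv_rhs => rw [← x.2 _ (nm γ _ TN), act_act]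
      congr 2
      group)
    exact ⟨s, cv_pg X γ x ▸ hs⟩
  choose e he using ex
  have un : ∀ x s, ExM N s (act γ⁻¹ (cv ((x : L (Gt N)) : FF))) → e x = s :=
    fun x s hs => (he x).unique N0.ne' hs
  exact ⟨{ toFun := e
           map_one' := un _ _ (by simpa using ExM.const N 1)
           map_mul' := fun x y => un _ _ (by simpa using (he x).mul (he y))
           map_zero' := un _ _ (by simpa using ExM.const N 0)
           map_add' := fun x y => un _ _ (by simpa using (he x).add (he y)) }, he⟩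

end Cuspm

open Cuspm M.Plc in
theorem cuspm (X : Mdl) (hG : M.GRP) (hE : M.EXP) (h0 : M.SER0) (hS : M.SER) (hD : M.GOOD)
    (hT : GALT X) : CUSPM X := by
  intro A O N h hA hN γ s hs
  have N0 := h.lv.pos
  obtain ⟨θ, hθ⟩ := theta X hG hE h.lv γ
  obtain ⟨mul, inv, neg, hO, -⟩ := hD N N0
  replace hO := hO O hN
  have un : ∀ x s, ExM N s (act γ⁻¹ (cv ((x : L (Gt N)) : FF))) → θ x = s :=
    fun x s hs => (hθ x).unique N0.ne' hs
  have cs0 : ∀ c : Qb, θ (algebraMap Qb (L (Gt N)) c) = HahnSeries.C (io c) := fun c =>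
    un _ _ (by
      rw [show ((algebraMap Qb (L (Gt N)) c : L (Gt N)) : FF) = algebraMap Qb FF c from rfl,
        M.cv_alg, AlgEquiv.commutes]
      exact ExM.const N _)
  have cst : ∀ c : Qv A, θ (algebraMap (Qv A) (L (Gt N)) c) = HahnSeries.C (A.io c) := cs0
  have B := (ad41 h.lv).mul γ
  have b := hS N N0 _ _ B.l B.r B.s B.a
  have th : ∀ (x : L (Gt N)) v, NZ N v → (x : FF) = X.r N v → θ x =
      (M.Xs N (v ᵥ* (γ : M.M2)) - M.Xs N (M.p1 N ᵥ* (γ : M.M2))) /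
        (M.Xs N (M.p4 N ᵥ* (γ : M.M2)) - M.Xs N (M.p1 N ᵥ* (γ : M.M2))) := fun x v hv e =>
    un _ _ (e ▸ X.rex N h.lv v hv γ)
  have ts : ∀ (x y : L (Gt N)) v w, NZ N v → NZ N w → (x : FF) = X.r N v → (y : FF) = X.r N w →
      θ (x - y) = (M.Xs N (v ᵥ* (γ : M.M2)) - M.Xs N (w ᵥ* (γ : M.M2))) *
        (M.Xs N (M.p4 N ᵥ* (γ : M.M2)) - M.Xs N (M.p1 N ᵥ* (γ : M.M2)))⁻¹ :=
    fun x y v w hv hw e e' => by
      rw [map_sub, th x v hv e, th y w hw e', ← sub_div, sub_sub_sub_cancel_right, div_eq_mul_inv]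
  have loc : ∃ k : ℤ, 0 < k ∧
      M.Good N k (θ ((X.tL h.hi)⁻¹ - algebraMap (Qv A) (L (Gt N)) s)) := by
    rw [map_sub, map_inv₀, cst]
    obtain ⟨t1, t2⟩ := two_mem h.lv
    rcases hs with ⟨c, rfl⟩ | ⟨c, rfl⟩ | ⟨c, rfl⟩
    · obtain ⟨r, r1, r2⟩ := X.tex0 N h.lv γ c
      refine ⟨N, by exact_mod_cast N0, ?_⟩
      rw [un (X.tL h.hi) _ r2, map_inv₀ A.io, map_ofNat]
      have := good_loc hD h.lv r1 two_ne_zero t1 t2
      rwa [map_ofNat] at this
    · obtain ⟨r, r1, r2⟩ := X.tex2 N h.lv γ c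
      refine ⟨N, by exact_mod_cast N0, ?_⟩
      rw [un (X.tL h.hi) _ r2, map_neg A.io, map_inv₀ A.io, map_ofNat, neg_inv]
      have := good_loc hD h.lv r1 (neg_ne_zero.2 two_ne_zero) (neg_mem t1)
        (by rw [← neg_inv]; exact neg_mem t2)
      rwa [map_neg HahnSeries.C 2, map_ofNat] at this
    · obtain ⟨r, r1, r2⟩ := X.tex1 N h.lv γ c
      have n4 := four h.lv
      refine ⟨-(-((N / 4 : ℕ) : ℤ)), by omega, ?_⟩
      rw [un (X.tL h.hi) _ r2, map_zero, map_zero, sub_zero]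
      exact inv _ _ r1
  obtain ⟨k, k0, hk⟩ := loc
  refine ⟨θ, hθ, cst, ?_, ?_, qu hO hk, hk.ord.symm ▸ k0, ?_⟩
  · rintro r ⟨v, hv, e⟩
    refine ⟨_, _, fun n => ?_, prm (ul hO b), by rw [th r v hv e, div_mul_cancel₀ _ b.ne]⟩
    rw [HahnSeries.coeff_sub]
    exact hO _ (sub_mem (xs_int h0 N0 (nz_mul hv γ) n) (xs_int h0 N0 B.r n))
  · intro σ hσ
    obtain ⟨v, v', hv, hv', ne, x, e, e'⟩ := (hT A N h).2 σ hσ
    have e1 := ts (σ x) x v' v hv' hv e' e
    have C := ad_of h0 N0 (nz_mul hv' γ) (nz_mul hv γ) fun c => ne (by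
      rw [c, sub_self, zero_mul, map_eq_zero, sub_eq_zero] at e1
      rw [← e, ← e', e1])
    refine ⟨x, ⟨v, hv, e⟩, ?_⟩
    rw [e1]
    exact qp hO (mul _ _ _ _ (hS N N0 _ _ C.l C.r C.s C.a) (inv _ _ b))
  · have C := (ad1 h.lv).mul γ⁻¹
    have D := (ad2 h.lv).mul γ⁻¹
    have c := (C.mul γ)
    have d := (D.mul γ)
    have c1 := mul _ _ _ _ (hS N N0 _ _ c.l c.r c.s c.a) (inv _ _ b)
    have d1 := mul _ _ _ _ (hS N N0 _ _ d.l d.r d.s d.a) (inv _ _ b)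
    rw [← ts (rL h.lv X C.l) (rL h.lv X C.r) _ _ C.l C.r rfl rfl] at c1
    rw [← ts (rL h.lv X D.l) (rL h.lv X D.r) _ _ D.l D.r rfl rfl] at d1
    have g := mul _ _ _ _ c1 (inv _ _ d1)
    rw [← map_inv₀, ← map_mul] at g
    refine ⟨_, qu hO g, g.ord.trans ?_⟩
    simp only [vec_mul, inv_mul_cancel, Matrix.SpecialLinearGroup.coe_one, Matrix.vecMul_one,
      Matrix.cons_val_zero, dist_one h.lv, dist_zero.2 (dvd_zero (N : ℤ)), min_self]
    omega

end Vale.Agent.P027M.G
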