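import Vale.Agent.P027M.G.Defs

/-!
# P027, route M, block G: the valuation and the places defined by an integral expansion
-/

set_option linter.all false

noncomputable section

namespace Vale.Agent.P027M.G

open Polynomial IntermediateField Module P025H373 P025H746 Vale.Agent.P019P P025H492 P025H816
open Vale.Agent.P022 Vale.Agent.P022.H542.L3

namespace Exp

open Vale.Agent.P022.H619.L3 (intL red red_coeff red_eq_zero_iff notMem_of_mul nonunits_mul)
open IsLocalRing (ResidueField residue)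

variable {O : ValuationSubring ℂ}

/-- `t` is the reduction of `z` -/
def Rp (O : ValuationSubring ℂ) (z : LS) (t : LaurentSeries (ResidueField O)) : Prop :=
  ∃ x y : intL O, red O y ≠ 0 ∧ z * y = x ∧ t * red O y = red O x

theorem Rp.int (x : intL O) : Rp O x (red O x) :=
  ⟨x, 1, by rw [map_one]; exact one_ne_zero, by simp, by simp⟩

theorem Rp.zero : Rp O 0 0 := by simpa using Rp.int (0 : intL O)

theorem Rp.one : Rp O 1 1 := by simpa using Rp.int (1 : intL O)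

theorem Rp.add {z z' : LS} {t t' : LaurentSeries (ResidueField O)} (h : Rp O z t)
    (h' : Rp O z' t') : Rp O (z + z') (t + t') := by
  obtain ⟨x, y, h0, h1, h2⟩ := h
  obtain ⟨x', y', h0', h1', h2'⟩ := h'
  refine ⟨x * y' + x' * y, y * y', by rw [map_mul]; exact mul_ne_zero h0 h0', ?_, ?_⟩
  · push_cast
    rw [← h1, ← h1']
    ring
  · rw [map_add, map_mul, map_mul, map_mul, ← h2, ← h2']
    ring

theorem Rp.mul {z z' : LS} {t t' : LaurentSeries (ResidueField O)} (h : Rp O z t)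
    (h' : Rp O z' t') : Rp O (z * z') (t * t') := by
  obtain ⟨x, y, h0, h1, h2⟩ := h
  obtain ⟨x', y', h0', h1', h2'⟩ := h'
  refine ⟨x * x', y * y', by rw [map_mul]; exact mul_ne_zero h0 h0', ?_, ?_⟩
  · push_cast
    rw [← h1, ← h1']
    ring
  · rw [map_mul, map_mul, ← h2, ← h2']
    ring

theorem Rp.neg {z : LS} {t : LaurentSeries (ResidueField O)} (h : Rp O z t) : Rp O (-z) (-t) := by
  obtain ⟨x, y, h0, h1, h2⟩ := h
  refine ⟨-x, y, h0, ?_, ?_⟩
  · push_cast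
    rw [← h1]
    ring
  · rw [map_neg, ← h2]
    ring

theorem Rp.sub {z z' : LS} {t t' : LaurentSeries (ResidueField O)} (h : Rp O z t)
    (h' : Rp O z' t') : Rp O (z - z') (t - t') := by
  rw [sub_eq_add_neg, sub_eq_add_neg]
  exact h.add h'.neg

theorem Rp.pow {z : LS} {t : LaurentSeries (ResidueField O)} (h : Rp O z t) (n : ℕ) :
    Rp O (z ^ n) (t ^ n) := by
  induction n with
  | zero => rw [pow_zero, pow_zero]; exact Rp.one
  | succ n ih => rw [pow_succ, pow_succ]; exact ih.mul h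

theorem ne_of_red {x : intL O} (h : red O x ≠ 0) : (x : LS) ≠ 0 := fun e =>
  h (by rw [show x = 0 from Subtype.ext e, map_zero])

theorem Rp.ne {z : LS} {t : LaurentSeries (ResidueField O)} (h : Rp O z t) (ht : t ≠ 0) :
    z ≠ 0 := by
  obtain ⟨x, y, h0, h1, h2⟩ := h
  have hx : red O x ≠ 0 := h2 ▸ mul_ne_zero ht h0
  exact left_ne_zero_of_mul (h1 ▸ ne_of_red hx)

theorem Rp.inv {z : LS} {t : LaurentSeries (ResidueField O)} (h : Rp O z t) (ht : t ≠ 0) :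
    Rp O z⁻¹ t⁻¹ := by
  have hz := h.ne ht
  obtain ⟨x, y, h0, h1, h2⟩ := h
  refine ⟨y, x, h2 ▸ mul_ne_zero ht h0, ?_, ?_⟩
  · rw [← h1, inv_mul_cancel_left₀ hz]
  · rw [← h2, inv_mul_cancel_left₀ ht]

theorem res_ne {a : ℂ} (ha : a ∈ O) : residue O ⟨a, ha⟩ ≠ 0 ↔ O.valuation a = 1 := by
  rw [IsLocalRing.residue_ne_zero_iff_isUnit, O.valuation_eq_one_iff]

theorem prm_iff (y : intL O) : red O y ≠ 0 ↔ ∃ n, O.valuation ((y : LS).coeff n) = 1 := by
  constructor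
  · intro h
    by_contra hn
    refine h (HahnSeries.ext (funext fun n => ?_))
    by_contra e
    exact hn ⟨n, (res_ne (y.2 n)).1 e⟩
  · rintro ⟨n, hn⟩ h
    have := (res_ne (y.2 n)).2 hn
    rw [← red_coeff, h] at this
    exact this rfl

theorem of_QI {z : LS} (h : QI O z) : ∃ t, Rp O z t := by
  obtain ⟨x, y, hx, hy, e⟩ := h
  have h0 := (prm_iff ⟨y, hy.1⟩).2 hy.2
  exact ⟨_, ⟨x, hx⟩, ⟨y, hy.1⟩, h0, e, div_mul_cancel₀ _ h0⟩

theorem of_QP {z : LS} (h : QP O z) : ∃ t, t ≠ 0 ∧ Rp O z t := by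
  obtain ⟨x, y, hx, hy, e⟩ := h
  have h0 := (prm_iff ⟨y, hy.1⟩).2 hy.2
  exact ⟨_, div_ne_zero ((prm_iff ⟨x, hx.1⟩).2 hx.2) h0, ⟨x, hx.1⟩, ⟨y, hy.1⟩, h0, e,
    div_mul_cancel₀ _ h0⟩

theorem ul_order (x : intL O) (h : O.valuation ((x : LS).coeff (x : LS).order) = 1) :
    red O x ≠ 0 ∧ (red O x).order = (x : LS).order := by
  have h0 := (prm_iff x).2 ⟨_, h⟩
  refine ⟨h0, le_antisymm (HahnSeries.order_le_of_coeff_ne_zero ?_)
    (HahnSeries.order_le_of_coeff_ne_zero fun e => ?_)⟩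
  · rw [red_coeff]
    exact (res_ne _).2 h
  · have h1 := HahnSeries.coeff_order_eq_zero.not.2 h0
    have h2 := (res_ne (x.2 _)).1 h1
    rw [e, map_zero] at h2
    exact zero_ne_one h2

theorem of_QU {z : LS} (h : QU O z) : ∃ t, t ≠ 0 ∧ Rp O z t ∧ t.order = z.order := by
  obtain ⟨x, y, hx, hy, e⟩ := h
  obtain ⟨a1, a2⟩ := ul_order ⟨x, hx.1⟩ hx.2
  obtain ⟨b1, b2⟩ := ul_order ⟨y, hy.1⟩ hy.2
  have h0 := div_ne_zero a1 b1
  have h1 : Rp O z _ := ⟨⟨x, hx.1⟩, ⟨y, hy.1⟩, b1, e, div_mul_cancel₀ _ b1⟩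
  refine ⟨_, h0, h1, ?_⟩
  have h2 := HahnSeries.order_mul h0 b1
  have h3 := HahnSeries.order_mul (h1.ne h0) (ne_of_red b1)
  rw [div_mul_cancel₀ _ b1, a2, b2] at h2
  change (z * y).order = z.order + y.order at h3
  change x.order = _ + y.order at h2
  rw [e] at h3
  omega

theorem Rp.const (a : O) : Rp O (HahnSeries.C (a : ℂ)) (HahnSeries.C (residue O a)) := by
  have h : ∀ n, (HahnSeries.C (a : ℂ) : LS).coeff n ∈ O := by
    intro n
    rw [HahnSeries.C_apply, HahnSeries.coeff_single]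
    split_ifs
    · exact a.2
    · exact zero_mem _
  have e : red O ⟨_, h⟩ = HahnSeries.C (residue O a) := by
    ext m
    rw [red_coeff]
    by_cases hm : m = 0
    · refine (congrArg (residue O) (Subtype.ext ?_ : _ = (a : O))).trans ?_
      · change (HahnSeries.C ((a : O) : ℂ) : LS).coeff m = ((a : O) : ℂ)
        rw [HahnSeries.C_apply, HahnSeries.coeff_single, if_pos hm]
      · rw [HahnSeries.C_apply, HahnSeries.coeff_single, if_pos hm]
    · refine (congrArg (residue O) (Subtype.ext ?_ : _ = (0 : O))).trans ?_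
      · change (HahnSeries.C ((a : O) : ℂ) : LS).coeff m = 0
        rw [HahnSeries.C_apply, HahnSeries.coeff_single, if_neg hm]
      · rw [HahnSeries.C_apply, HahnSeries.coeff_single, if_neg hm, map_zero]
  exact e ▸ Rp.int ⟨_, h⟩

variable {W : ValuationSubring LS}

theorem inv_mem' (hW : Wok O W) {y : intL O} (h : red O y ≠ 0) : (y : LS)⁻¹ ∈ W := by
  obtain ⟨n, hn⟩ := (prm_iff y).1 h
  refine hW.inv _ y.2 ⟨n, ?_, fun e => ?_⟩
  · rw [← O.valuation_le_one_iff, map_inv₀, hn, inv_one]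
  · rw [e, map_zero] at hn
    exact zero_ne_one hn

theorem Rp.mem (hW : Wok O W) {z : LS} {t : LaurentSeries (ResidueField O)} (h : Rp O z t) :
    z ∈ W := by
  obtain ⟨x, y, h0, h1, -⟩ := h
  rw [(eq_mul_inv_iff_mul_eq₀ (ne_of_red h0)).2 h1]
  exact mul_mem (hW.mem _ x.2) (inv_mem' hW h0)

theorem Rp.lt_iff (hW : Wok O W) {z : LS} {t : LaurentSeries (ResidueField O)} (h : Rp O z t) :
    W.valuation z < 1 ↔ t = 0 := by
  constructor
  · intro h1
    by_contra ht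
    exact notMem_of_mul ((h.inv ht).mem hW) (mul_inv_cancel₀ (h.ne ht)) h1
  · rintro rfl
    obtain ⟨x, y, h0, h1, h2⟩ := h
    rw [zero_mul, eq_comm, red_eq_zero_iff] at h2
    rw [(eq_mul_inv_iff_mul_eq₀ (ne_of_red h0)).2 h1, mul_comm]
    exact nonunits_mul W (inv_mem' hW h0) (hW.max _ h2)

variable {C K : Type} [NontriviallyNormedField C] [IsUltrametricDist C] [Field K] [Algebra C K]
  {ι : C →+* ℂ} {θ : K →+* LS} {T : K}

/-- the integers of `C` in `O` -/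
def io (hι : ∀ c, ι c ∈ O ↔ ‖c‖ ≤ 1) : OC C →+* O :=
  (ι.comp (OC C).subtype).codRestrict O.toSubring fun a => (hι _).2 a.2

theorem rp_cst (hι : ∀ c, ι c ∈ O ↔ ‖c‖ ≤ 1)
    (hc : ∀ c, θ (algebraMap C K c) = HahnSeries.C (ι c)) (a : OC C) :
    Rp O (θ (algebraMap C K a)) (HahnSeries.C (residue O (io hι a))) := by
  rw [hc]
  exact Rp.const (io hι a)

theorem rp_poly (hι : ∀ c, ι c ∈ O ↔ ‖c‖ ≤ 1)
    (hc : ∀ c, θ (algebraMap C K c) = HahnSeries.C (ι c)) {t : LaurentSeries (ResidueField O)}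
    (ht : Rp O (θ T) t) {n : ℤ} (hn : n ≠ 0) (hn' : t.coeff n ≠ 0) (P : C[X]) (hP : gp P ≤ 1) :
    ∃ u, Rp O (θ (aeval T P)) u ∧ ((∃ i, ‖P.coeff i‖ = 1) → u ≠ 0) := by
  have h1 : P ∈ lifts (OC C).subtype :=
    (lifts_iff_coeff_lifts P).2 fun i => ⟨⟨P.coeff i, gp_le_iff.1 hP i⟩, rfl⟩
  obtain ⟨P₀, rfl⟩ := (mem_lifts P).1 h1
  refine ⟨aeval t (P₀.map ((residue O).comp (io hι))), ?_, fun ⟨i, hi⟩ => ?_⟩
  · clear hP h1
    induction P₀ using Polynomial.induction_on' with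
    | add p q hp hq =>
      rw [Polynomial.map_add, Polynomial.map_add, map_add, map_add, map_add]
      exact hp.add hq
    | monomial m a =>
      rw [Polynomial.map_monomial, Polynomial.map_monomial, aeval_monomial, aeval_monomial,
        map_mul, map_pow, H619.L3.algebraMap_eq]
      exact (rp_cst hι hc a).mul (ht.pow m)
  · refine H619.L3.aeval_ne_zero hn hn' fun e => ?_
    have h2 := congrArg (fun q => q.coeff i) e
    simp only [coeff_map, coeff_zero, RingHom.comp_apply] at h2 hi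
    exact ((isUnit_OC_iff.2 hi).map ((residue O).comp (io hι))).ne_zero h2

theorem scale {Q : C[X]} (hQ : Q ≠ 0) : ∃ c : C, c ≠ 0 ∧ (∀ P : C[X], gp P ≤ gp Q →
    gp (Polynomial.C c * P) ≤ 1) ∧ ∃ i, ‖(Polynomial.C c * Q).coeff i‖ = 1 := by
  obtain ⟨i, hi⟩ := exists_coeff_eq Q
  have h0 : 0 < gp Q := lt_of_le_of_ne (gp_nonneg Q) fun e => hQ (gp_eq_zero.1 e.symm)
  have h1 : Q.coeff i ≠ 0 := fun e => by rw [e, norm_zero] at hi; exact h0.ne hi
  refine ⟨(Q.coeff i)⁻¹, inv_ne_zero h1, fun P hP => ?_, i, ?_⟩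
  · rw [gp_mul, gp_C, norm_inv, hi]
    exact (inv_mul_le_one₀ h0).2 hP
  · rw [coeff_C_mul, inv_mul_cancel₀ h1, norm_one]

/-- the valuation -/
theorem ex_nv [IsAlgClosed C] [Algebra.IsAlgebraic C⟮T⟯ K] (hW : Wok O W) (hι : ∀ c, ι c ∈ O ↔ ‖c‖ ≤ 1)
    (hc : ∀ c, θ (algebraMap C K c) = HahnSeries.C (ι c)) {t : LaurentSeries (ResidueField O)}
    (ht : Rp O (θ T) t) {n : ℤ} (hn : n ≠ 0) (hn' : t.coeff n ≠ 0) :
    ∃ v : NV C K, v.OverG T ∧ (∀ x, v x ≤ 1 ↔ θ x ∈ W) ∧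
      ∀ x, v x < 1 ↔ W.valuation (θ x) < 1 := by
  have hT : Transcendental C T := by
    rintro ⟨P, hP, e⟩
    obtain ⟨c, -, h1, h2⟩ := scale hP
    obtain ⟨u, a, b⟩ := rp_poly hι hc ht hn hn' _ (h1 P le_rfl)
    rw [map_mul, e, mul_zero, map_zero] at a
    exact a.ne (b h2) rfl
  obtain ⟨v, h1, h2⟩ := P025H458.exists_NV hT (W.comap θ) (fun P Q hQ h => by
    obtain ⟨c, c0, h1, h2⟩ := scale hQ
    obtain ⟨u, a, -⟩ := rp_poly hι hc ht hn hn' _ (h1 P h)
    obtain ⟨u', a', b'⟩ := rp_poly hι hc ht hn hn' _ (h1 Q le_rfl)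
    have c1 : aeval T (Polynomial.C c) ≠ 0 := by
      rw [aeval_C]
      exact (_root_.map_ne_zero _).2 c0
    rw [ValuationSubring.mem_comap, ← mul_div_mul_left _ _ c1, ← map_mul, ← map_mul, map_div₀,
      div_eq_mul_inv]
    exact (a.mul (a'.inv (b' h2))).mem hW) (fun e => by
    obtain ⟨c, h⟩ := NormedField.exists_one_lt_norm C
    have c0 : c ≠ 0 := fun e => by rw [e, norm_zero] at h; exact absurd h (by norm_num)
    have h1 : ‖c⁻¹‖ < 1 := by rw [norm_inv]; exact inv_lt_one_of_one_lt₀ h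
    have h2 := rp_cst hι hc ⟨c⁻¹, h1.le⟩
    have h3 : residue O (io hι ⟨c⁻¹, h1.le⟩) = 0 := by
      by_contra h3
      have h4 : O.valuation (ι c⁻¹) = 1 := (res_ne _).1 h3
      rw [map_inv₀, map_inv₀, inv_eq_one] at h4
      exact absurd ((hι c).1 ((O.valuation_le_one_iff _).1 h4.le)) (not_le.2 h)
    have h4 : algebraMap C K c ∈ W.comap θ := e ▸ ValuationSubring.mem_top _
    refine notMem_of_mul (x := θ (algebraMap C K c⁻¹)) h4 ?_ ((h2.lt_iff hW).2 ?_)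
    · rw [← map_mul, ← map_mul, inv_mul_cancel₀ c0, map_one, map_one]
    · rw [h3, map_zero])
  have h3 : ∀ x, v x ≤ 1 ↔ θ x ∈ W := fun x => by
    rw [← NV.mem_ring, h2, ValuationSubring.mem_comap]
  refine ⟨v, h1, h3, fun x => ?_⟩
  rw [← ValuationSubring.mem_nonunits_iff, ValuationSubring.mem_nonunits_iff_or, ← map_inv₀, ← h3,
    map_eq_zero, map_inv₀]
  by_cases hx : x = 0
  · simp [hx]
  · have h4 : 0 < v x := v.av.pos hx
    rw [or_iff_right hx, not_le, one_lt_inv₀ h4]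

variable {v : NV C K}

/-- the residues of the elements with an integral expansion -/
def E (hW : Wok O W) (h1 : ∀ x, v x ≤ 1 ↔ θ x ∈ W) (h2 : ∀ x, v x < 1 ↔ W.valuation (θ x) < 1) :
    Subfield (kap v) where
  carrier := {a | ∃ x t, Rp O (θ x) t ∧ v.red x = a}
  mul_mem' := by
    rintro _ _ ⟨x, t, a, rfl⟩ ⟨y, u, b, rfl⟩
    exact ⟨x * y, t * u, by rw [map_mul]; exact a.mul b,
      NV.red_mul ((h1 _).2 (a.mem hW)) ((h1 _).2 (b.mem hW))⟩
  one_mem' := ⟨1, 1, by rw [map_one]; exact Rp.one, NV.red_one⟩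
  add_mem' := by
    rintro _ _ ⟨x, t, a, rfl⟩ ⟨y, u, b, rfl⟩
    exact ⟨x + y, t + u, by rw [map_add]; exact a.add b,
      NV.red_add ((h1 _).2 (a.mem hW)) ((h1 _).2 (b.mem hW))⟩
  zero_mem' := ⟨0, 0, by rw [map_zero]; exact Rp.zero, NV.red_zero⟩
  neg_mem' := by
    rintro _ ⟨x, t, a, rfl⟩
    exact ⟨-x, -t, by rw [map_neg]; exact a.neg, NV.red_neg ((h1 _).2 (a.mem hW))⟩
  inv_mem' := by
    rintro _ ⟨x, t, a, rfl⟩
    by_cases ht : t = 0
    · rw [NV.red_of_lt ((h2 _).2 ((a.lt_iff hW).2 ht)), inv_zero]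
      exact ⟨0, 0, by rw [map_zero]; exact Rp.zero, NV.red_zero⟩
    · refine ⟨x⁻¹, t⁻¹, by rw [map_inv₀]; exact a.inv ht, NV.red_inv ?_⟩
      exact le_antisymm ((h1 _).2 (a.mem hW)) (not_lt.1 fun h => ht ((a.lt_iff hW).1 ((h2 _).1 h)))

/-- the expansion of the residue field -/
theorem ex_rho (hW : Wok O W) (h1 : ∀ x, v x ≤ 1 ↔ θ x ∈ W)
    (h2 : ∀ x, v x < 1 ↔ W.valuation (θ x) < 1)
    (h : ∀ a : kap v, ∃ x t, Rp O (θ x) t ∧ v.red x = a) :
    ∃ ρ : kap v →+* LaurentSeries (ResidueField O), ∀ x t, Rp O (θ x) t → ρ (v.red x) = t := by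
  choose f g a1 a2 using h
  have le : ∀ {x t}, Rp O (θ x) t → v x ≤ 1 := fun a => (h1 _).2 (a.mem hW)
  have key : ∀ x t, Rp O (θ x) t → g (v.red x) = t := by
    intro x t a
    have b := (a1 (v.red x)).sub a
    rw [← map_sub] at b
    rw [← sub_eq_zero, ← b.lt_iff hW, ← h2, ← NV.red_eq_zero (le b), NV.red_sub (le (a1 _)) (le a),
      a2, sub_self]
  refine ⟨⟨⟨⟨g, ?_⟩, fun a b => ?_⟩, ?_, fun a b => ?_⟩, key⟩
  · have := key 1 1 (by rw [map_one]; exact Rp.one)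
    rwa [NV.red_one] at this
  · have := key (f a * f b) (g a * g b) (by rw [map_mul]; exact (a1 a).mul (a1 b))
    rwa [NV.red_mul (le (a1 a)) (le (a1 b)), a2, a2] at this
  · have := key 0 0 (by rw [map_zero]; exact Rp.zero)
    rwa [NV.red_zero] at this
  · have := key (f a + f b) (g a + g b) (by rw [map_add]; exact (a1 a).add (a1 b))
    rwa [NV.red_add (le (a1 a)) (le (a1 b)), a2, a2] at this

end Exp

open Exp in
theorem exp (hG : GA) (hP : PLC) : EXP := by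
  intro C K _ _ _ _ _ _ T _ ι O W R s θ hι hW hs H
  obtain ⟨t₀, t0, r0, o0⟩ := of_QU H.loc
  have rT := r0.add (rp_cst hι H.cst ⟨s, hs⟩)
  rw [← map_add, sub_add_cancel] at rT
  have pos : 0 < t₀.order := o0 ▸ H.pos
  obtain ⟨v, h0, h1, h2⟩ := ex_nv hW hι H.cst rT pos.ne' (by
    rw [HahnSeries.coeff_add, HahnSeries.C_apply, HahnSeries.coeff_single_of_ne pos.ne', add_zero]
    exact HahnSeries.coeff_order_eq_zero.not.2 t0)
  have hF : Faith v T R := by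
    refine ⟨fun r hr => ?_, fun σ hσ => ?_⟩
    · obtain ⟨t, a⟩ := of_QI (H.int r hr)
      exact (h1 _).2 (a.mem hW)
    · obtain ⟨r, hr, a⟩ := H.mv σ hσ
      obtain ⟨t, b, c⟩ := of_QP a
      exact ⟨r, hr, not_lt.1 fun h => b ((c.lt_iff hW).1 ((h2 _).1 h))⟩
  have : FiniteDimensional C⟮T⟯ K := (finite_of_notMem (x := T) fun a e =>
    h0.transc (by rw [e]; exact isAlgebraic_algebraMap a)).2
  obtain ⟨π, p1, p2⟩ := H.uni
  obtain ⟨Q, hQ⟩ := hP C K ℂ θ (fun c => by rw [H.cst, HahnSeries.order_C]) ⟨π, p2⟩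
  refine ⟨v, h0, h1, h2, hF, Q, by rw [hQ]; exact H.pos, ?_⟩
  intro _
  have cs : ∀ a : kC C, ∃ c : OC C, algebraMap (kC C) (kap v) a = v.red (algebraMap C K c) := by
    intro a
    obtain ⟨c, hc, rfl⟩ := cred_surj a
    exact ⟨⟨c, hc⟩, (NV.red_algebraMap hc).symm⟩
  have top := (hG C K T v R h0 hF).2.2.2.2 (E hW h1 h2) (fun a => by
      obtain ⟨c, e⟩ := cs a
      exact ⟨_, _, rp_cst hι H.cst c, e.symm⟩) ⟨T, _, rT, rfl⟩ (fun r hr => by
      obtain ⟨t, a⟩ := of_QI (H.int r hr)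
      exact ⟨r, t, a, rfl⟩)
  obtain ⟨ρ, hρ⟩ := ex_rho hW h1 h2 fun a => show a ∈ E hW h1 h2 from top ▸ Subfield.mem_top a
  obtain ⟨u, -, u1, u2⟩ := of_QU p1
  obtain ⟨Qb, hb⟩ := hP (kC C) (kap v) _ ρ (fun a => by
    obtain ⟨c, e⟩ := cs a
    rw [e, hρ _ _ (rp_cst hι H.cst c), HahnSeries.order_C]) ⟨v.red π, by rw [hρ _ _ u1, u2, p2]⟩
  refine ⟨Qb, ?_⟩
  rw [hQ, hb, ← NV.red_algebraMap hs, ← NV.red_sub h0.apply_T.le (by rw [v.ext']; exact hs),
    hρ _ _ r0, o0]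

end Vale.Agent.P027M.G
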