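import Vale.Agent.P027M.G.Sp1

/-!
# P027 route M, block G, SP file 2: the chart of `T`
-/

set_option linter.all false

noncomputable section

namespace Vale.Agent.P027M.Gs

open Polynomial IntermediateField P025H373 P025H746 Vale.Agent.P019P P025H492 P027M.K

section gen

variable {k F : Type*} [Field k] [Field F] [Algebra k F] [CFF k F]

variable (k) in
/-- `x` is regular wherever `T` is -/
def Reg (T x : F) : Prop := ∀ P : Plk k F, T ∈ P.1 → x ∈ P.1

theorem mem_iff_Mge {P : Plk k F} {x : F} : x ∈ P.1 ↔ x ∈ Mge P 0 := mem_iff_ord P x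

theorem val_mem {P : Plk k F} {x : F} {c : k} (h : Val P x c) : x ∈ P.1 := mem_iff_Mge.2 h.mem

theorem val_of_mem {P : Plk k F} {x : F} (h : x ∈ P.1) : ∃ c, Val P x c :=
  exists_val (mem_iff_Mge.1 h)

theorem ord_nn {P : Plk k F} {x : F} (h : x ∈ P.1) : 0 ≤ ord P x := ord_nonneg_of_mem P h

theorem mem_of_ord {P : Plk k F} {x : F} (h : 0 ≤ ord P x) : x ∈ P.1 :=
  (mem_iff_ord P x).2 (Or.inr h)

theorem val_aeval {P : Plk k F} {x : F} {a : k} (h : Val P x a) (p : k[X]) :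
    Val P (aeval x p) (p.eval a) := by
  rw [aeval_eq_sum_range, eval_eq_sum_range]
  refine Val.sum _ fun i _ => ?_
  rw [Algebra.smul_def]
  exact (Val.const P _).mul (h.pow i)

theorem val_prod {P : Plk k F} {ι : Type*} (s : Finset ι) {z : ι → F} {c : ι → k}
    (h : ∀ i ∈ s, Val P (z i) (c i)) : Val P (∏ i ∈ s, z i) (∏ i ∈ s, c i) := by
  classical
  induction s using Finset.induction_on with
  | empty => rw [Finset.prod_empty, Finset.prod_empty]; exact Val.one P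
  | insert a s ha ih =>
    rw [Finset.prod_insert ha, Finset.prod_insert ha]
    exact (h a (Finset.mem_insert_self _ _)).mul (ih fun i hi => h i (Finset.mem_insert_of_mem hi))

theorem val_zero_pos {P : Plk k F} {x : F} (h : Val P x 0) (hx : x ≠ 0) : 1 ≤ ord P x :=
  (mem_Mge.1 (Val.zero_iff.1 h)).resolve_left hx

theorem val_sub_self {P : Plk k F} {x : F} {c : k} (h : Val P x c) :
    Val P (x - algebraMap k F c) 0 := Val.zero_iff.2 h

theorem Reg.const (T : F) (c : k) : Reg k T (algebraMap k F c) := fun P _ => P.2.1 c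

theorem Reg.sub {T x y : F} (hx : Reg k T x) (hy : Reg k T y) : Reg k T (x - y) :=
  fun P hP => sub_mem (hx P hP) (hy P hP)

theorem Reg.mul {T x y : F} (hx : Reg k T x) (hy : Reg k T y) : Reg k T (x * y) :=
  fun P hP => mul_mem (hx P hP) (hy P hP)

theorem pol_eq_zero {P : Plk k F} {T : F} (h : T ∈ P.1) : pol k T P = 0 := by
  rw [pol_apply]
  have := ord_nn h
  omega

theorem pol_pos {P : Plk k F} {T : F} (h : T ∉ P.1) : 1 ≤ pol k T P := by
  rw [pol_apply]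
  have : ¬ 0 ≤ ord P T := fun h1 => h (mem_of_ord h1)
  omega

theorem reg_of_LL {T x : F} {n : ℕ} (hx : x ∈ LL k (n • pol k T)) : Reg k T x := by
  intro P hP
  have := mem_LL_iff.1 hx P
  rw [Finsupp.smul_apply, pol_eq_zero hP, smul_zero, neg_zero] at this
  exact mem_iff_Mge.2 this

theorem exists_bound (x : F) : ∃ n : ℕ, ∀ P : Plk k F, |ord P x| ≤ n := by
  obtain ⟨n, hn⟩ := ((dv k x).finite_range.image fun z : ℤ => z.natAbs).bddAbove
  refine ⟨n, fun P => ?_⟩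
  have := hn ⟨_, ⟨P, rfl⟩, rfl⟩
  rw [dv_apply] at this
  rw [← Int.natCast_natAbs]
  exact_mod_cast this

theorem Reg.LL {T x : F} (hx : Reg k T x) : ∃ n₀ : ℕ, ∀ n, n₀ ≤ n → x ∈ LL k (n • pol k T) := by
  obtain ⟨n₀, h⟩ := exists_bound (k := k) x
  refine ⟨n₀, fun n hn => Or.inr fun P => ?_⟩
  rw [Finsupp.smul_apply, nsmul_eq_mul]
  by_cases hP : T ∈ P.1
  · rw [pol_eq_zero hP, mul_zero, neg_zero]
    exact ord_nn (hx P hP)
  · have h1 := pol_pos hP
    have h2 := (abs_le.1 (h P)).1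
    have h3 : (n₀ : ℤ) ≤ n := by exact_mod_cast hn
    nlinarith

theorem dg_pol_pos {T : F} (hT : ∀ a : k, T ≠ algebraMap k F a) : 1 ≤ dg (pol k T) := by
  rw [dg_pol hT]
  haveI := (finite_of_notMem hT).2
  exact_mod_cast Module.finrank_pos (R := k⟮T⟯) (M := F)

theorem exists_exact' {T : F} (hT : ∀ a : k, T ≠ algebraMap k F a) (P Q : Plk k F) {n : ℕ}
    (hn : 2 * gen k F + 1 ≤ n) : ∃ z : F, z ≠ 0 ∧ z ∈ LL k (n • pol k T) ∧
      (T ∈ Q.1 → 1 ≤ ord Q z) ∧ (T ∈ P.1 → P = Q → ord P z = 1) ∧ (T ∈ P.1 → P ≠ Q → ord P z = 0) := by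
  classical
  have h1 := dg_pol_pos hT
  obtain ⟨z, h2, h3, h4⟩ := exists_exact (D := n • pol k T - Finsupp.single Q 1) P (by
    rw [map_sub, map_nsmul, dg_sgl, nsmul_eq_mul]
    have : (2 * gen k F + 1 : ℤ) ≤ n := by exact_mod_cast hn
    nlinarith)
  refine ⟨z, h2, Or.inr fun R => le_trans ?_ (h3 R), fun hQ => ?_, fun hP e => ?_, fun hP e => ?_⟩
  · rw [Finsupp.sub_apply, Finsupp.single_apply]
    split_ifs <;> omega
  · have := h3 Q
    rwa [Finsupp.sub_apply, Finsupp.smul_apply, pol_eq_zero hQ, Finsupp.single_eq_same, smul_zero,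
      zero_sub, neg_neg] at this
  · subst e
    rw [h4, Finsupp.sub_apply, Finsupp.smul_apply, pol_eq_zero hP, Finsupp.single_eq_same]
    simp
  · rw [h4, Finsupp.sub_apply, Finsupp.smul_apply, pol_eq_zero hP, Finsupp.single_eq_of_ne e]
    simp

end gen

variable {C K : Type*} [NontriviallyNormedField C] [IsUltrametricDist C] [IsAlgClosed C]
  [Field K] [Algebra C K] [CFF C K] {w : NV C K} {T : K}

theorem norm_sub_le' {a b : C} {r : ℝ} (ha : ‖a‖ ≤ r) (hb : ‖b‖ ≤ r) : ‖a - b‖ ≤ r := by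
  rw [sub_eq_add_neg]
  exact (IsUltrametricDist.norm_add_le_max _ _).trans (max_le ha (by rwa [norm_neg]))

theorem cred_sub {a b : C} (ha : ‖a‖ ≤ 1) (hb : ‖b‖ ≤ 1) : cred (a - b) = cred a - cred b := by
  have := cred_add (norm_sub_le' ha hb) hb
  rw [sub_add_cancel] at this
  rw [this, add_sub_cancel_right]

theorem norm_eq_one_of_cred {a : C} (ha : ‖a‖ ≤ 1) (h : cred a ≠ 0) : ‖a‖ = 1 := by
  by_contra h1
  exact h ((cred_eq_zero ha).2 (lt_of_le_of_ne ha h1))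

theorem w_const (c : C) : w (algebraMap C K c) = ‖c‖ := w.ext' c

theorem red_sub_const {x : K} (hx : w x ≤ 1) {c : C} (hc : ‖c‖ ≤ 1) :
    w (x - algebraMap C K c) ≤ 1 ∧
      w.red (x - algebraMap C K c) = w.red x - algebraMap (kC C) (kap w) (cred c) :=
  ⟨NV.sub_le hx (by rwa [w_const]), by
    rw [NV.red_sub hx (by rwa [w_const]), NV.red_algebraMap hc]⟩

/-- **VAL** -/
theorem Full.val_le (h : Full w T) {Q : Plk C K} {a : C} (ha : ‖a‖ ≤ 1) (hQ : Val Q T a) {x : K}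
    (hx : Reg C T x) {c : C} (hc : Val Q x c) : ‖c‖ ≤ w x := by
  haveI := h.fin
  have key : ∀ (x : K) (c : C), Reg C T x → w x ≤ 1 → Val Q x c → ‖c‖ ≤ 1 := by
    intro x c hx h1 hc
    obtain ⟨p, hp1, hp2, hp3⟩ := P025H458.exists_monic h.og.transc
      (P025H458.isIntegral_adjoin_of_places hx) fun v hv => by rwa [h.uniq hv]
    refine P025H458.mem_of_monic (OC C) (hp1.map (evalRingHom a)) (fun i => ?_) ?_
    · rw [coeff_map, coe_evalRingHom, eval_eq_sum_range]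
      exact sum_mem fun j _ => mul_mem (gp_le_iff.1 (hp2 i) j) (pow_mem (mem_OC.2 ha) j)
    · have h2 : Val Q (∑ i ∈ Finset.range (p.natDegree + 1), aeval T (p.coeff i) * x ^ i)
          (∑ i ∈ Finset.range (p.natDegree + 1), (p.coeff i).eval a * c ^ i) :=
        Val.sum _ fun i _ => (val_aeval hQ _).mul (hc.pow i)
      rw [eval₂_eq_sum_range] at hp3
      have h3 : ∑ i ∈ Finset.range (p.natDegree + 1), aeval T (p.coeff i) * x ^ i = 0 := hp3
      rw [h3] at h2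
      rw [eval_map, eval₂_eq_sum_range]
      exact h2.unique (Val.zero_iff.2 (zero_mem _))
  by_cases hx0 : x = 0
  · subst hx0
    rw [hc.unique (Val.zero_iff.2 (zero_mem _)), norm_zero, map_zero]
  obtain ⟨b, hb0, hb⟩ := h.scale hx0
  have h1 := key (b • x) (b * c) (by rw [Algebra.smul_def]; exact (Reg.const T b).mul hx) hb.le
    (by rw [Algebra.smul_def]; exact (Val.const Q b).mul hc)
  rw [w_smul] at hb
  rw [norm_mul, ← hb] at h1
  exact le_of_mul_le_mul_left h1 (norm_pos_iff.2 hb0)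

variable [CFF (kC C) (kap w)]

theorem Full.reg (h : Full w T) {x : K} (hx : Reg C T x) (h1 : w x ≤ 1) :
    Reg (kC C) (w.red T) (w.red x) :=
  haveI := h.fin
  fun P hP => P025H458.red_mem h.og.transc hx (fun v hv => by rwa [h.uniq hv]) h.og P hP

theorem Full.redS_le (h : Full w T) (n : ℕ) :
    redS w (LL C (n • pol C T)) ≤ LL (kC C) (n • pol (kC C) (w.red T)) := by
  rintro _ ⟨x, h1, h2, rfl⟩
  exact P025H458.hred h.nc h.og n h1 fun v hv => by rwa [h.uniq hv]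

theorem Full.gen_le (h : Full w T) : gen (kC C) (kap w) ≤ gen C K := by
  obtain ⟨r, hr⟩ := exists_l_pol_eq h.nc
  obtain ⟨r', hr'⟩ := exists_l_pol_eq h.og.red_ne
  have h1 := (h.dim _ _ (h.redS_le (max r r'))).trans (Submodule.finrank_mono (h.redS_le _))
  have h2 := hr _ (le_max_left r r')
  have h3 := hr' _ (le_max_right r r')
  rw [h.deg_eq] at h3
  omega

/-- good reduction -/
structure Gd (w : NV C K) [CFF (kC C) (kap w)] (T : K) : Prop extends Full w T where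
  gn : gen C K ≤ gen (kC C) (kap w)

theorem Gd.inv (h : Gd w T) : Gd w T⁻¹ := ⟨h.toFull.inv, h.gn⟩

theorem Gd.gen_eq (h : Gd w T) : gen (kC C) (kap w) = gen C K := le_antisymm h.toFull.gen_le h.gn

/-- **SURJ** -/
theorem Gd.surj (h : Gd w T) : ∃ n₀ : ℕ, ∀ n, n₀ ≤ n →
    ∀ y ∈ LL (kC C) (n • pol (kC C) (w.red T)), ∃ x ∈ LL C (n • pol C T), w x ≤ 1 ∧ w.red x = y := by
  obtain ⟨r, hr⟩ := exists_l_pol_eq h.toFull.nc
  obtain ⟨r', hr'⟩ := exists_l_pol_eq h.og.red_ne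
  refine ⟨max r r', fun n hn y hy => ?_⟩
  have h2 := hr n ((le_max_left r r').trans hn)
  have h3 := hr' n ((le_max_right r r').trans hn)
  rw [h.toFull.deg_eq] at h3
  have h4 := h.gn
  rwa [← h.toFull.red_eq _ _ (h.toFull.redS_le n) (by omega)] at hy

theorem Gd.lift (h : Gd w T) {y : kap w} (hy : Reg (kC C) (w.red T) y) :
    ∃ x, Reg C T x ∧ w x ≤ 1 ∧ w.red x = y := by
  obtain ⟨n₀, h1⟩ := h.surj
  obtain ⟨n₁, h2⟩ := hy.LL
  obtain ⟨x, h3, h4⟩ := h1 _ (le_max_left n₀ n₁) y (h2 _ (le_max_right _ _))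
  exact ⟨x, reg_of_LL h3, h4⟩

/-- `Q` specialises to `P` in the chart of `T` -/
def Rel (w : NV C K) [CFF (kC C) (kap w)] (T : K) (Q : Plk C K) (P : Plk (kC C) (kap w)) : Prop :=
  (∃ a : C, ‖a‖ ≤ 1 ∧ Val Q T a) ∧ w.red T ∈ P.1 ∧
    ∀ x c, Reg C T x → w x ≤ 1 → Val Q x c → Val P (w.red x) (cred c)

theorem Gd.exists_rel (h : Gd w T) {Q : Plk C K} {a : C} (ha : ‖a‖ ≤ 1) (hQ : Val Q T a) :
    ∃ P, Rel w T Q P := by
  classical
  by_contra hcon
  set S := (fib_finite h.og.red_ne (cred a)).toFinset with hS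
  have hT1 := h.toFull.wT.le
  have hSm : ∀ P, P ∈ S ↔ 0 < ord P (w.red T - algebraMap _ _ (cred a)) := fun P => by
    rw [hS, Set.Finite.mem_toFinset]; rfl
  have key : ∀ P ∈ S, ∃ y u, Reg C T y ∧ w y ≤ 1 ∧ Val Q y u ∧ ‖u‖ = 1 ∧ Val P (w.red y) 0 := by
    intro P hP
    have hP1 : w.red T ∈ P.1 := val_mem (mem_Mge_one_of_pos ((hSm P).1 hP))
    have h1 : ¬ ∀ x c, Reg C T x → w x ≤ 1 → Val Q x c → Val P (w.red x) (cred c) :=
      fun h1 => hcon ⟨P, ⟨a, ha, hQ⟩, hP1, h1⟩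
    push Not at h1
    obtain ⟨x, c, h2, h3, h4, h5⟩ := h1
    obtain ⟨b, hb⟩ := val_of_mem (h.toFull.reg h2 h3 P hP1)
    obtain ⟨b', hb', rfl⟩ := cred_surj b
    have hc := (h.toFull.val_le ha hQ h2 h4).trans h3
    refine ⟨x - algebraMap C K b', c - b', h2.sub (Reg.const T _), (red_sub_const h3 hb').1,
      h4.sub (Val.const Q _), norm_eq_one_of_cred (norm_sub_le' hc hb') ?_, ?_⟩
    · rw [cred_sub hc hb', sub_ne_zero]
      exact fun e => h5 (e ▸ hb)
    · rw [(red_sub_const h3 hb').2]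
      exact val_sub_self hb
  choose! y u hy1 hy2 hy3 hy4 hy5 using key
  obtain ⟨N, hN⟩ := exists_bound (k := kC C) (w.red T - algebraMap _ (kap w) (cred a))
  have hne : w.red T - algebraMap _ (kap w) (cred a) ≠ 0 := sub_ne_zero.2 (h.og.red_ne _)
  set z := (∏ P ∈ S, y P) ^ N with hz
  have hz1 : Reg C T z := fun R hR => pow_mem (prod_mem fun P hP => hy1 P hP R hR) N
  have hz2 : w z ≤ 1 := NV.pow_le_one' (red_prod S hy2).1 N
  have hz3 : Val Q z ((∏ P ∈ S, u P) ^ N) := (val_prod S hy3).pow N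
  have hz4 : w.red z = (∏ P ∈ S, w.red (y P)) ^ N := by
    rw [hz, NV.red_pow (red_prod S hy2).1, (red_prod S hy2).2]
  have hreg : Reg (kC C) (w.red T) (w.red z * (w.red T - algebraMap _ (kap w) (cred a))⁻¹) := by
    intro P hP
    by_cases h0 : w.red z = 0
    · rw [h0, zero_mul]; exact zero_mem _
    refine mem_of_ord ?_
    rw [ord_mul P h0 (inv_ne_zero hne), ord_inv]
    by_cases hPS : P ∈ S
    · have h1 : ∏ P ∈ S, w.red (y P) ∈ Mge P 1 := by
        rw [← Finset.mul_prod_erase S _ hPS]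
        have := mul_mem_Mge (Val.zero_iff.1 (hy5 P hPS)) (mem_iff_Mge.1 (prod_mem fun R hR =>
          h.toFull.reg (hy1 R (Finset.mem_of_mem_erase hR)) (hy2 R (Finset.mem_of_mem_erase hR)) P hP :
            ∏ R ∈ S.erase P, w.red (y R) ∈ P.1))
        rwa [add_zero] at this
      have h2 := (abs_le.1 (hN P)).2
      have h4 := (hSm P).1 hPS
      have h3 : ∏ P ∈ S, w.red (y P) ≠ 0 := by
        intro e
        rw [hz4, e, zero_pow (by rintro rfl; simp at h2; omega)] at h0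
        exact h0 rfl
      have h5 := (mem_Mge.1 h1).resolve_left h3
      rw [hz4, ord_pow]
      have : (0 : ℤ) ≤ N := Int.natCast_nonneg N
      nlinarith
    · have h1 := ord_nn (h.toFull.reg hz1 hz2 P hP)
      have h2 := mt (hSm P).2 hPS
      omega
  obtain ⟨x, hx1, hx2, hx3⟩ := h.lift hreg
  obtain ⟨c, hc⟩ := val_of_mem (hx1 Q (val_mem hQ))
  have hTa := red_sub_const hT1 ha
  have h1 : w (z - (T - algebraMap C K a) * x) < 1 := by
    rw [← NV.red_eq_zero (NV.sub_le hz2 (NV.mul_le_one hTa.1 hx2)),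
      NV.red_sub hz2 (NV.mul_le_one hTa.1 hx2), NV.red_mul hTa.1 hx2, hTa.2, hx3, mul_comm,
      inv_mul_cancel_right₀ hne, sub_self]
  have h2 := h.toFull.val_le ha hQ (hz1.sub ((Reg.sub (fun _ h => h) (Reg.const T a)).mul hx1))
    (hz3.sub ((val_sub_self hQ).mul hc))
  rw [zero_mul, sub_zero, norm_pow, norm_prod, Finset.prod_eq_one hy4, one_pow] at h2
  linarith

/-- separation of two points of the chart -/
theorem Gd.sep (h : Gd w T) {P P' : Plk (kC C) (kap w)} (hP : w.red T ∈ P.1) (hP' : w.red T ∈ P'.1)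
    (hne : P ≠ P') : ∃ x b, Reg C T x ∧ w x ≤ 1 ∧ b ≠ 0 ∧ Val P (w.red x) b ∧ Val P' (w.red x) 0 := by
  obtain ⟨z, h1, h2, h3, -, h4⟩ := exists_exact' h.og.red_ne P P' le_rfl
  obtain ⟨x, h5, h6, rfl⟩ := h.lift (reg_of_LL h2)
  obtain ⟨b, hb⟩ := val_of_mem (mem_of_ord (h4 hP hne).ge)
  exact ⟨x, b, h5, h6, hb.ne_zero h1 (h4 hP hne), hb, Val.zero_iff.2 (Or.inr (h3 hP'))⟩

theorem Gd.rel_unique (h : Gd w T) {Q : Plk C K} {P P' : Plk (kC C) (kap w)} (h1 : Rel w T Q P)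
    (h2 : Rel w T Q P') : P = P' := by
  by_contra hne
  obtain ⟨x, b, h3, h4, h5, h6, h7⟩ := h.sep h1.2.1 h2.2.1 hne
  obtain ⟨a, -, ha⟩ := h1.1
  obtain ⟨c, hc⟩ := val_of_mem (h3 Q (val_mem ha))
  exact h5 ((h6.unique (h1.2.2 x c h3 h4 hc)).trans ((h2.2.2 x c h3 h4 hc).unique h7))

end Vale.Agent.P027M.Gs
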