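import Vale.Agent.P027M.G.Defs
import Vale.Agent.P027M.G.Sp2

/-!
# P027 route M, block G: `UNIQ`, `SURJ`, `SP`
-/

set_option linter.all false

noncomputable section

namespace Vale.Agent.P027M.G

open Polynomial IntermediateField P025H373 P025H746 Vale.Agent.P019P P025H492 P027M.K

section

variable {C K : Type} [NontriviallyNormedField C] [IsUltrametricDist C] [IsAlgClosed C]
  [Field K] [Algebra C K] [CFF C K] {w : NV C K} {T : K}

theorem Good.full (h : Good w T) : Gs.Full w T := ⟨h.og, h.deg.ge⟩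

theorem Good.cff (h : Good w T) : CFF (kC C) (kap w) := h.full.cff

theorem Good.gd [CFF (kC C) (kap w)] (h : Good w T) : Gs.Gd w T := ⟨h.full, h.gen⟩

theorem sp_iff_rel [CFF (kC C) (kap w)] (h : Good w T) {Q : Plk C K} (hQ : T ∈ Q.1)
    (h1 : ‖vl Q T‖ ≤ 1) {P : Plk (kC C) (kap w)} : Sp w T Q P ↔ Gs.Rel w T Q P := by
  constructor
  · rintro ⟨h2, h3⟩
    refine ⟨⟨_, h1, val_vl (Gs.ord_nn hQ)⟩, h2, fun x c hx h4 h5 => ?_⟩
    rw [← vl_eq h5, h3 x hx h4]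
    exact val_vl (Gs.ord_nn (h.full.reg hx h4 P h2))
  · rintro ⟨-, h2, h3⟩
    exact ⟨h2, fun x hx h4 => (vl_eq (h3 x _ hx h4 (val_vl (Gs.ord_nn (hx Q hQ))))).symm⟩

end

theorem uniq : UNIQ := fun _ _ _ _ _ _ _ _ _ _ _ h h' => h.full.uniq h'

theorem surj : SURJ := fun _ _ _ _ _ _ _ _ _ _ _ h => h.gd.surj

theorem sp : SP := by
  intro C K _ _ _ _ _ _ T w _ h Q hQ h1
  obtain ⟨P, hP⟩ := h.gd.exists_rel h1 (val_vl (Gs.ord_nn hQ))
  exact ⟨P, (sp_iff_rel h hQ h1).2 hP, fun P' hP' =>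
    h.gd.rel_unique ((sp_iff_rel h hQ h1).1 hP') hP⟩

end Vale.Agent.P027M.G
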