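import Vale.Agent.P027M.G.Spec
import Vale.Agent.P027M.G.Sp

/-!
# P027, route M, block G: bridge to block I, change of the parameter
-/

set_option linter.all false

noncomputable section

namespace Vale.Agent.P027M.G

open Polynomial IntermediateField Module P025H373 P025H746 Vale.Agent.P019P P025H492 P025H816

variable {C K : Type} [NontriviallyNormedField C] [IsUltrametricDist C] [Field K] [Algebra C K]
  {w : NV C K} {T T' : K}

theorem nv_eq {v w : NV C K} (h : ∀ x, v x ≤ 1 ↔ w x ≤ 1) : v = w := by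
  refine NV.ext (P025H458.eq_of_isEquiv v.av w.av v.ext' w.ext' fun x y => ?_)
  by_cases hy : y = 0
  · subst hy
    simp only [map_zero, AbsoluteValue.nonpos_iff]
  · have := h (x / y)
    rwa [map_div₀, map_div₀, div_le_one (v.av.pos hy), div_le_one (w.av.pos hy)] at this

theorem overG_of_transc (h1 : w T ≤ 1) (h2 : Transcendental (kC C) (w.red T)) : w.OverG T := by
  have key : ∀ P : C[X], gp P = 1 → w (aeval T P) = 1 := by
    intro P hP
    refine le_antisymm (NV.aeval_le h1 hP.le) (not_lt.1 fun hlt => ?_)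
    have h3 := NV.red_of_lt hlt
    rw [NV.red_aeval h1 hP.le] at h3
    have h4 := (pred_eq_zero hP.le).1 (transcendental_iff.1 h2 _ h3)
    exact absurd hP h4.ne
  intro P
  by_cases h0 : P = 0
  · subst h0
    rw [map_zero, map_zero]
    exact (gp_eq_zero.2 rfl).symm
  obtain ⟨i, hi⟩ := exists_coeff_eq P
  replace hi := hi.symm
  have hc : P.coeff i ≠ 0 := fun e => h0 (gp_eq_zero.1 (by rw [hi, e, norm_zero]))
  have h3 : P = Polynomial.C (P.coeff i) * (Polynomial.C (P.coeff i)⁻¹ * P) := by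
    rw [← mul_assoc, ← C_mul, mul_inv_cancel₀ hc, C_1, one_mul]
  have h4 : gp (Polynomial.C (P.coeff i)⁻¹ * P) = 1 := by
    rw [gp_mul, gp_C, hi, norm_inv, inv_mul_cancel₀ (norm_ne_zero_iff.2 hc)]
  conv_lhs => rw [h3]
  rw [map_mul, map_mul, key _ h4, aeval_C, w.ext', mul_one, hi]

theorem adjoin_inv' {k F : Type} [Field k] [Field F] [Algebra k F] (x : F) : k⟮x⁻¹⟯ = k⟮x⟯ := by
  refine le_antisymm (adjoin_simple_le_iff.2 (inv_mem (mem_adjoin_simple_self k x)))
    (adjoin_simple_le_iff.2 ?_)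
  have := inv_mem (mem_adjoin_simple_self k x⁻¹)
  rwa [inv_inv] at this

theorem adjoin_sub' {k F : Type} [Field k] [Field F] [Algebra k F] (x : F) (a : k) :
    k⟮x - algebraMap k F a⟯ = k⟮x⟯ := by
  refine le_antisymm (adjoin_simple_le_iff.2
    (sub_mem (mem_adjoin_simple_self k x) (IntermediateField.algebraMap_mem _ a)))
    (adjoin_simple_le_iff.2 ?_)
  have := add_mem (mem_adjoin_simple_self k (x - algebraMap k F a))
    (IntermediateField.algebraMap_mem _ a)
  rwa [sub_add_cancel] at this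

variable [IsAlgClosed C] [CFF C K]

/-- another generator of the same line -/
theorem Good.chg (h : Good w T) (h1 : w.OverG T') (e : C⟮T'⟯ = C⟮T⟯)
    (e' : (kC C)⟮w.red T'⟯ = (kC C)⟮w.red T⟯) : Good w T' :=
  ⟨h1, by rw [e, e']; exact h.deg, by rw [e']; exact h.sep, h.gen⟩

theorem Good.inv (h : Good w T) : Good w T⁻¹ :=
  h.chg h.og.inv (adjoin_inv' T) (by rw [NV.red_inv h.og.apply_T]; exact adjoin_inv' _)

theorem Good.shift (h : Good w T) {a : C} (ha : ‖a‖ ≤ 1) : Good w (T - algebraMap C K a) := by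
  have h1 := Gs.red_sub_const h.og.apply_T.le ha
  refine h.chg (overG_of_transc h1.1 ?_) (adjoin_sub' T a) (by rw [h1.2]; exact adjoin_sub' _ _)
  rw [h1.2]
  intro h2
  apply h.og.transc_red
  have := h2.add (isAlgebraic_algebraMap (cred a))
  rwa [sub_add_cancel] at this

/-- any function whose reduction is separating of the same degree -/
theorem Good.par (h : Good w T) (h1 : w T' ≤ 1) (h2 : Transcendental (kC C) (w.red T'))
    (h3 : finrank C⟮T'⟯ K ≤ finrank (kC C)⟮w.red T'⟯ (kap w))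
    (h4 : Algebra.IsSeparable (kC C)⟮w.red T'⟯ (kap w)) : Good w T' :=
  ⟨overG_of_transc h1 h2, (Gs.Full.mk (overG_of_transc h1 h2) h3).deg_eq, h4, h.gen⟩

theorem br : BR := by
  intro C K _ _ _ _ _ _ T _ w h
  have hu : ∀ w' : I.WW C T, w'.1 = w := fun w' => h.full.uniq w'.2
  haveI : Subsingleton (I.WW C T) := ⟨fun a b => Subtype.ext ((hu a).trans (hu b).symm)⟩
  refine ⟨?_, ?_, hu⟩
  · rw [I.Full, Fintype.sum_subsingleton _ (⟨w, h.og⟩ : I.WW C T)]
    exact h.deg
  · haveI := h.cff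
    rw [I.cd, Fintype.sum_subsingleton _ (⟨w, h.og⟩ : I.WW C T)]
    have h1 := h.gd.gen_eq
    have h2 : (gen (kC C) (kap w) : ℤ) = gen C K := by exact_mod_cast h1
    linarith

theorem val (h : I.VAL) : VAL := by
  intro C K _ _ _ _ _ _ T x P hT hx hP hv
  have := h C K T hT x hx P hP hv
  exact ⟨fun h1 => this.1 fun w => h1 w.1 w.2, fun h1 => this.2 fun w => h1 w.1 w.2⟩

end Vale.Agent.P027M.G
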