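import Vale.Agent.P027M.G.Mod0
import Vale.Agent.P027M.G.Brid
import Vale.Agent.P027M.M.Plc

/-!
# P027, route M, block G: the field of level `N` over the line
-/

set_option linter.all false

noncomputable section

namespace Vale.Agent.P027M.G

open Polynomial IntermediateField Module P025H373 P025H746 Vale.Agent.P019P P025H492 P025H816
open Vale.Agent.P022 Vale.Agent.P022.H542.L3 Vale.Agent.P022.H218.L3 Vale.Agent.P022.H236.L3
open Vale.Agent.P027M.M (io FF cv L G0 Gt GH Lv Mid Mdl NZ)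
open scoped MatrixGroups

namespace Galt0

theorem mem_iff (X : Mdl) {Γ : Subgroup SL(2, ℤ)} (h : Γ ≤ G0) (y : L Γ) :
    y ∈ Qb⟮(X.tL h)⁻¹⟯ ↔ (y : FF) ∈ L G0 := by
  rw [adjoin_inv', ← IntermediateField.mem_lift, IntermediateField.lift_adjoin_simple, X.base]
  rfl

theorem main (X : Mdl) (hG : M.GRP) (hA : M.ARTIN X) (N : ℕ) (h : Mid N (Gt N)) :
    IsGalois Qb⟮(X.tL h.hi)⁻¹⟯ (L (Gt N)) ∧
    ∀ σ : L (Gt N) ≃ₐ[Qb⟮(X.tL h.hi)⁻¹⟯] L (Gt N), ∃ γ ∈ G0,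
      ∀ x : L (Gt N), ((σ x : L (Gt N)) : FF) = X.pg γ x := by
  obtain ⟨fi, nm, -⟩ := hG N h.lv
  letI := M.algL h.hi
  obtain ⟨h1, h2⟩ := hA G0 (Gt N) h.hi fi
  obtain ⟨h3, h4, -⟩ := h2 fun γ _ => nm γ
  let e : L G0 ≃+* Qb⟮(X.tL h.hi)⁻¹⟯ := RingEquiv.ofBijective
    ((algebraMap (L G0) (L (Gt N))).codRestrict _ fun y => (mem_iff X h.hi _).2 y.2)
    ⟨RingHom.injective _, fun y => ⟨⟨_, (mem_iff X h.hi y.1).1 y.2⟩, rfl⟩⟩
  refine ⟨IsGalois.of_equiv_equiv (f := e) (g := RingEquiv.refl _) rfl, fun σ => ?_⟩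
  exact h4 { σ.toRingEquiv with commutes' := fun y => σ.commutes (e y) }

end Galt0

open Galt0 in
theorem galt0 (X : Mdl) (hG : M.GRP) (hA : M.ARTIN X) : GALT X := by
  intro A N h
  obtain ⟨h1, h2⟩ := main X hG hA N h
  refine ⟨h1, fun σ hσ => ?_⟩
  obtain ⟨γ, hγ, h3⟩ := h2 σ
  by_contra hne
  push Not at hne
  apply hσ
  have hr : ∀ v, NZ N v → X.pg γ (X.r N v) = X.r N v := by
    intro v hv
    have e : X.pg γ (X.r N v) = X.r N (Matrix.vecMul v (γ : M.M2)) :=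
      M.cv_inj ((M.Plc.cv_pg X γ _).trans (X.law N h.lv v hv γ hγ))
    have hm : X.r N v ∈ L (Gt N) := by
      rw [X.gen N h.lv]
      exact IntermediateField.subset_adjoin _ _ ⟨v, hv, rfl⟩
    by_contra h4
    exact hne v _ hv (M.Plc.nz_mul hv γ) (e ▸ h4) ⟨_, hm⟩ rfl ((h3 _).trans e)
  ext x
  refine (h3 x).trans ?_
  have hx : (x : FF) ∈ IntermediateField.adjoin Qb (X.r N '' {v | NZ N v}) :=
    X.gen N h.lv ▸ x.2
  change X.pg γ (x : FF) = x
  generalize (x : FF) = y at hx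
  induction hx using IntermediateField.adjoin_induction with
  | mem y hy =>
    obtain ⟨v, hv, rfl⟩ := hy
    exact hr v hv
  | algebraMap a => exact (X.pg γ).commutes a
  | add y z _ _ hy hz => rw [map_add, hy, hz]
  | inv y _ hy => rw [map_inv₀, hy]
  | mul y z _ _ hy hz => rw [map_mul, hy, hz]

end Vale.Agent.P027M.G
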