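import Vale.Agent.P027M.G.Spec

/-!
# P027, route M, block G: good reduction of the Galois cover (row GB)
-/

set_option linter.all false

noncomputable section

namespace Vale.Agent.P027M.G

open Polynomial IntermediateField Module P025H373 P025H746 Vale.Agent.P019P P025H492 P025H816

namespace GbP

/-- in a Galois cover of the line all points of a fibre have the same order -/
theorem fib_count {k F : Type} [Field k] [Field F] [Algebra k F] [CFF k F] {x : F}
    (hx : ∀ a : k, x ≠ algebraMap k F a) [IsGalois k⟮x⟯ F] (c : k) {Q : Plk k F}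
    (hQ : 0 < ord Q (x - algebraMap k F c)) :
    (Set.ncard {P : Plk k F | 0 < ord P (x - algebraMap k F c)} : ℤ) *
      ord Q (x - algebraMap k F c) = finrank k⟮x⟯ F := by
  haveI : CFF k k⟮x⟯ := cff_adjoin hx
  haveI : FiniteDimensional k⟮x⟯ F := (finite_of_notMem hx).2
  have h1 : x - algebraMap k F c =
      algebraMap k⟮x⟯ F (AdjoinSimple.gen k x - algebraMap k k⟮x⟯ c) := by
    rw [map_sub, AdjoinSimple.algebraMap_gen, ← IsScalarTower.algebraMap_apply]
  obtain ⟨Q₀, -, hQ₀⟩ := line_fib hx c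
  have hd : ∀ P : Plk k F, 0 < ord P (x - algebraMap k F c) → down k⟮x⟯ P = Q₀ := by
    intro P hP
    rw [h1, ord_up_pos_iff] at hP
    exact hQ₀ _ hP
  have he : ∀ P ∈ (fib_finite hx c).toFinset,
      ord P (x - algebraMap k F c) = ord Q (x - algebraMap k F c) := by
    intro P hP
    have hP' : 0 < ord P (x - algebraMap k F c) :=
      (Set.Finite.mem_toFinset (fib_finite hx c)).1 hP
    rw [ord_sub_eq_ram hx hP', ord_sub_eq_ram hx hQ,
      ram_eq_of_down_eq ((hd P hP').trans (hd Q hQ).symm)]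
  rw [← fib_sum hx c, Finset.sum_congr rfl he, Finset.sum_const, nsmul_eq_mul,
    Set.ncard_eq_toFinset_card _ (fib_finite hx c)]

variable {C K : Type} [NontriviallyNormedField C] [IsUltrametricDist C] [Field K] [Algebra C K]
  {T : K}

/-- the valuation rings of `w` and of its twist -/
def rTw (w : NV C K) (σ : K ≃ₐ[C⟮T⟯] K) : (w.twist σ).ring ≃+* w.ring where
  toFun x := ⟨σ x, x.2⟩
  invFun x := ⟨σ.symm x, by
    rw [NV.mem_ring, NV.twist_apply, AlgEquiv.apply_symm_apply]; exact x.2⟩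
  left_inv x := Subtype.ext (σ.symm_apply_apply x)
  right_inv x := Subtype.ext (σ.apply_symm_apply x)
  map_mul' x y := Subtype.ext (map_mul σ (x : K) y)
  map_add' x y := Subtype.ext (map_add σ (x : K) y)

theorem rTw_red (w : NV C K) (σ : K ≃ₐ[C⟮T⟯] K) {x : K} (hx : w.twist σ x ≤ 1) :
    IsLocalRing.ResidueField.mapEquiv (rTw w σ) ((w.twist σ).red x) = w.red (σ x) := by
  have hx' : w (σ x) ≤ 1 := hx
  rw [NV.red_of hx, NV.red_of hx']
  rfl

theorem fix_c (σ : K ≃ₐ[C⟮T⟯] K) (c : C) : σ (algebraMap C K c) = algebraMap C K c := by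
  rw [IsScalarTower.algebraMap_apply C C⟮T⟯ K, AlgEquiv.commutes]

theorem fix_T (σ : K ≃ₐ[C⟮T⟯] K) : σ T = T := σ.commutes (AdjoinSimple.gen C T)

/-- the residue fields of `w` and of its twist -/
def kTw (w : NV C K) (σ : K ≃ₐ[C⟮T⟯] K) : kap (w.twist σ) ≃ₐ[kC C] kap w :=
  AlgEquiv.ofRingEquiv (f := IsLocalRing.ResidueField.mapEquiv (rTw w σ)) fun a => by
    obtain ⟨c, hc, rfl⟩ := cred_surj a
    rw [← NV.red_algebraMap hc, rTw_red w σ (by rw [(w.twist σ).ext']; exact hc), fix_c,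
      NV.red_algebraMap hc]

theorem kTw_T (w : NV C K) (σ : K ≃ₐ[C⟮T⟯] K) (hT : w T ≤ 1) :
    kTw w σ ((w.twist σ).red T) = w.red T := by
  have h := rTw_red w σ (x := T) (by rw [NV.twist_apply, fix_T]; exact hT)
  rw [fix_T] at h
  exact h

theorem faith_twist {w : NV C K} {R : Set K} (h : Faith w T R) (σ : K ≃ₐ[C⟮T⟯] K) :
    Faith (w.twist σ) T {x | σ x ∈ R} := by
  refine ⟨fun r hr => h.le _ hr, fun τ hτ => ?_⟩
  obtain ⟨r, hr, h1⟩ := h.mv (σ * τ * σ⁻¹) (fun h1 => hτ (by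
    have h2 : τ = σ⁻¹ * (σ * τ * σ⁻¹) * σ := by group
    rw [h2, h1]; group))
  refine ⟨σ.symm r, by simpa using hr, ?_⟩
  rw [NV.twist_apply, map_sub, AlgEquiv.apply_symm_apply]
  exact h1

theorem cusp_twist (v : NV C K) (σ : K ≃ₐ[C⟮T⟯] K) (hT : v T ≤ 1) [CFF (kC C) (kap v)]
    [CFF (kC C) (kap (v.twist σ))] (a : kC C) (Qb : Plk (kC C) (kap v)) :
    ∃ Qb' : Plk (kC C) (kap (v.twist σ)),
      ord Qb' ((v.twist σ).red T - algebraMap (kC C) _ a) =
        ord Qb (v.red T - algebraMap (kC C) _ a) := by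
  refine ⟨tr (kTw v σ).symm Qb, ?_⟩
  rw [← ord_tr (kTw v σ).symm Qb, map_sub, AlgEquiv.commutes, ← kTw_T v σ hT,
    AlgEquiv.symm_apply_apply]

end GbP

open GbP in
theorem gb (hGA : GA) (hGR : I.GR) : GB := by
  intro C K _ _ _ _ _ _ _ T _ w R S hw hF hS hU hC
  have hT : ∀ a : C, T ≠ algebraMap C K a := fun a h => hw.transc (h ▸ isAlgebraic_algebraMap a)
  haveI : FiniteDimensional C⟮T⟯ K := (finite_of_notMem hT).2
  have hA := hGA C K T w R hw hF
  have hB : ∀ v : I.WW C T, (∀ w' : NV C K, w'.OverG T → ∃ σ : K ≃ₐ[C⟮T⟯] K, w' = v.1.twist σ) ∧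
      IsGalois (kC C)⟮v.1.red T⟯ (kap v.1) ∧
      Fintype.card (I.WW C T) * finrank (kC C)⟮v.1.red T⟯ (kap v.1) = finrank C⟮T⟯ K := by
    rintro ⟨v, hv⟩
    obtain ⟨σ, rfl⟩ := hA.1 v hv
    obtain ⟨h1, h2, h3, -⟩ := hGA C K T _ _ hv (faith_twist hF σ)
    exact ⟨h1, h2, h3⟩
  have hpos : 0 < Fintype.card (I.WW C T) := Fintype.card_pos_iff.2 ⟨⟨w, hw⟩⟩
  have hfull : I.Full C T := by
    refine Nat.eq_of_mul_eq_mul_left hpos ?_
    rw [Finset.mul_sum, Finset.sum_congr rfl fun v _ => (hB v).2.2, Finset.sum_const,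
      Finset.card_univ, smul_eq_mul]
  have hsep : ∀ v : I.WW C T, Algebra.IsSeparable (kC C)⟮v.1.red T⟯ (kap v.1) := fun v =>
    (hB v).2.1.to_isSeparable
  have hinj : ∀ s ∈ S, ∀ s' ∈ S, cred s = cred s' → s = s' := by
    intro s hs s' hs' h
    by_contra hne
    have h1 := hS.ne s hs s' hs' hne
    have h2 := cred_add h1.le (hS.le s' hs')
    rw [sub_add_cancel, h, right_eq_add, cred_eq_zero h1.le, h1] at h2
    exact lt_irrefl _ h2
  have hcnt : ∀ s ∈ S, ∑ v : I.WW C T, Set.ncard {x : Plk (kC C) (kap v.1) |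
      0 < ord x (v.1.red T - algebraMap (kC C) (kap v.1) (cred s))} ≤
      Set.ncard {P : Plk C K | 0 < ord P (T - algebraMap C K s)} := by
    intro s hs
    obtain ⟨v, hv, Q, hQ, hQb⟩ := hC s hs
    haveI : CFF (kC C) (kap v) := hv.cff
    obtain ⟨Qb, hQb⟩ := hQb
    have h1 := fib_count hT s hQ
    have h2 : ∀ u : I.WW C T, (Set.ncard {x : Plk (kC C) (kap u.1) |
        0 < ord x (u.1.red T - algebraMap (kC C) (kap u.1) (cred s))} : ℤ) *
        ord Q (T - algebraMap C K s) ≤ finrank (kC C)⟮u.1.red T⟯ (kap u.1) := by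
      rintro ⟨u, hu⟩
      haveI := (hB ⟨u, hu⟩).2.1
      obtain ⟨σ, rfl⟩ := (hB ⟨v, hv⟩).1 u hu
      haveI : CFF (kC C) (kap (v.twist σ)) := hu.cff
      obtain ⟨Qb', h3⟩ := cusp_twist v σ hv.apply_T.le (cred s) Qb
      rw [← h3] at hQb
      rw [← fib_count hu.red_ne (cred s) (hQ.trans_le hQb)]
      exact mul_le_mul_of_nonneg_left hQb (Int.natCast_nonneg _)
    have h4 := Finset.sum_le_sum fun u (_ : u ∈ Finset.univ) => h2 u
    rw [← Finset.sum_mul, ← Nat.cast_sum, ← Nat.cast_sum, hfull, ← h1] at h4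
    exact_mod_cast le_of_mul_le_mul_right h4 hQ
  obtain ⟨hcd, hsub, -⟩ := hGR C K T hfull hsep S hS.le hinj hU.pole
    (fun c hc P hP => hU.fin P c hc hP) (Finset.sum_le_sum hcnt)
  refine ⟨hw, ?_, hsep ⟨w, hw⟩, ?_⟩
  · have h1 := hfull
    rwa [I.Full, Fintype.sum_subsingleton _ (⟨w, hw⟩ : I.WW C T)] at h1
  · intro _
    rw [I.cd, Fintype.sum_subsingleton _ (⟨w, hw⟩ : I.WW C T)] at hcd
    have h1 : (gen C K : ℤ) = gen (kC C) (kap w) := by linarith
    exact_mod_cast h1.le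

end Vale.Agent.P027M.G
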