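import Vale.Agent.P027M.G.Sp3

/-!
# P027 route M, block G, SP file 4: properties of the specialisation map
-/

set_option linter.all false

noncomputable section

namespace Vale.Agent.P027M.Gs

open Polynomial IntermediateField P025H373 P025H746 Vale.Agent.P019P P025H492 P027M.K

section cls

variable {α β : Type*} {s : α → β} {D : α →₀ ℤ} {b : β}

theorem cls_ge (h : ∀ a, s a = b → 0 ≤ D a) (A : Finset α) (hA : ∀ a ∈ A, s a = b) :
    ∑ a ∈ A, D a ≤ D.mapDomain s b := by
  classical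
  rw [mapDomain_apply', ← Finset.sum_filter_ne_zero]
  refine Finset.sum_le_sum_of_subset_of_nonneg (fun a ha => ?_)
    fun a ha _ => h a (Finset.mem_filter.1 ha).2
  rw [Finset.mem_filter] at ha ⊢
  exact ⟨Finsupp.mem_support_iff.2 ha.2, hA a ha.1⟩

theorem cls_nonneg (h : ∀ a, s a = b → 0 ≤ D a) : 0 ≤ D.mapDomain s b := by
  simpa using cls_ge h ∅ (by simp)

theorem cls_le (h : ∀ a, s a = b → 0 ≤ D a) {a : α} (ha : s a = b) : D a ≤ D.mapDomain s b := by
  simpa using cls_ge h {a} (by simpa using ha)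

theorem cls_ex (h : D.mapDomain s b ≠ 0) : ∃ a, s a = b ∧ D a ≠ 0 := by
  classical
  rw [mapDomain_apply'] at h
  obtain ⟨a, h1, h2⟩ := Finset.exists_ne_zero_of_sum_ne_zero h
  exact ⟨a, (Finset.mem_filter.1 h1).2, h2⟩

theorem cls_one [DecidableEq α] (h : ∀ a, s a = b → 0 ≤ D a) (h1 : D.mapDomain s b = 1) {a : α}
    (ha : s a = b) (h2 : 1 ≤ D a) {a' : α} (ha' : s a' = b) : D a' = if a' = a then 1 else 0 := by
  split_ifs with e
  · have := cls_le h ha
    rw [e]; omega
  · have h3 := cls_ge h {a', a} (by simp [ha, ha'])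
    rw [Finset.sum_pair e] at h3
    have := h a' ha'
    omega

end cls

section gen

variable {k F : Type*} [Field k] [Field F] [Algebra k F] [CFF k F]

theorem exists_notMem (S : Finset (Plk k F)) : ∃ P, P ∉ S := by
  rcases S.eq_empty_or_nonempty with rfl | ⟨Q, hQ⟩
  · exact (nonempty_Plk k F).elim fun P => ⟨P, Finset.notMem_empty P⟩
  obtain ⟨z, -, h⟩ := exists_ord_eq S fun _ => 1
  obtain ⟨P, hP⟩ := exists_pole (nc_of_ord (P := Q) (z := z) (by rw [h Q hQ]; exact one_ne_zero))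
  exact ⟨P, fun e => by rw [h P e] at hP; omega⟩

theorem mem_LL_dv {D : Plk k F →₀ ℤ} {z : F} (hz : z ≠ 0) : z ∈ LL k D ↔ 0 ≤ D + dv k z := by
  rw [mem_LL, or_iff_right hz]
  refine forall_congr' fun P => ?_
  rw [Finsupp.add_apply, dv_apply, Finsupp.coe_zero, Pi.zero_apply]
  omega

theorem dv_smul {c : k} (hc : c ≠ 0) {z : F} (hz : z ≠ 0) : dv k (c • z) = dv k z := by
  rw [Algebra.smul_def, dv_mul ((_root_.map_ne_zero _).2 hc) hz, dv_const, zero_add]

theorem l_can : (Module.finrank k (LL k (can k F)) : ℤ) = gen k F := by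
  have h1 := RR (0 : Plk k F →₀ ℤ)
  rw [l_zero, sub_zero, map_zero] at h1
  omega

variable (k F) in
/-- a non special system of distinct places -/
theorem exists_nonspecial : ∃ A : Plk k F →₀ ℤ, (∀ P, A P = 0 ∨ A P = 1) ∧ dg A = gen k F ∧
    ∀ y ∈ LL k A, ∃ c : k, y = algebraMap k F c := by
  classical
  have key : ∀ j : ℕ, j ≤ gen k F → ∃ A : Plk k F →₀ ℤ, (∀ P, A P = 0 ∨ A P = 1) ∧ dg A = j ∧
      (Module.finrank k (LL k (can k F - A)) : ℤ) + j ≤ gen k F := by
    intro j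
    induction j with
    | zero => exact fun _ => ⟨0, fun _ => Or.inl rfl, by simp, by rw [sub_zero, l_can]; simp⟩
    | succ j ih =>
      intro hj
      obtain ⟨A, h1, h2, h3⟩ := ih (by omega)
      have h4 := RR A
      have h5 : 1 ≤ Module.finrank k (LL k A) := by
        rw [← l_zero (k := k) (F := F)]
        exact l_mono fun P => by rcases h1 P with e | e <;> simp [e]
      obtain ⟨z, hz, h6⟩ := exists_ne_zero_of_l (D := can k F - A) (by omega)
      obtain ⟨P, hP⟩ := exists_notMem (A.support ∪ (can k F - A + dv k z).support)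
      rw [Finset.mem_union, not_or, Finsupp.notMem_support_iff, Finsupp.notMem_support_iff] at hP
      refine ⟨A + Finsupp.single P 1, fun Q => ?_, by rw [map_add, dg_sgl, h2]; simp, ?_⟩
      · rw [Finsupp.add_apply, Finsupp.single_apply]
        split_ifs with e
        · rw [← e, hP.1]; simp
        · simpa using h1 Q
      · have e : can k F - (A + Finsupp.single P 1) + Finsupp.single P 1 = can k F - A := by abel
        have h7 := l_step_of_mem (D := can k F - (A + Finsupp.single P 1)) (P := P) (z := z)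
          (by rw [e]; exact (mem_LL_dv hz).2 h6) (by
            rw [mem_LL_dv hz]
            intro h8
            have h9 := h8 P
            have h10 := hP.2
            simp only [Finsupp.add_apply, Finsupp.sub_apply, Finsupp.single_eq_same,
              Finsupp.coe_zero, Pi.zero_apply] at h9 h10
            omega)
        rw [e] at h7
        push_cast
        omega
  obtain ⟨A, h1, h2, h3⟩ := key _ le_rfl
  refine ⟨A, h1, h2, fun y hy => ?_⟩
  have h4 := RR A
  have h5 : LL k (0 : Plk k F →₀ ℤ) = LL k A := Submodule.eq_of_le_of_finrank_le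
    (LL_mono fun P => by rcases h1 P with e | e <;> simp [e]) (by rw [l_zero]; omega)
  exact LL_zero_le (h5 ▸ hy)

end gen

variable {C K : Type*} [NontriviallyNormedField C] [IsUltrametricDist C] [IsAlgClosed C]
  [Field K] [Algebra C K] [CFF C K] {w : NV C K} {T : K} [CFF (kC C) (kap w)]
  {s : Plk C K → Plk (kC C) (kap w)}

theorem IsSp.ord (hs : IsSp w s) {f : K} (hf : w f = 1) (P : Plk (kC C) (kap w)) :
    ord P (w.red f) = (dv C f).mapDomain s P := by rw [← hs f hf, dv_apply]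

theorem IsSp.mem (hs : IsSp w s) {P : Plk (kC C) (kap w)} {x : K} (hx : w x ≤ 1)
    (h : ∀ Q, s Q = P → x ∈ Q.1) : w.red x ∈ P.1 := by
  by_cases h0 : w.red x = 0
  · rw [h0]; exact zero_mem _
  refine mem_of_ord ?_
  rw [hs.ord (w_eq_one hx h0)]
  exact cls_nonneg fun Q hQ => by rw [dv_apply]; exact ord_nn (h Q hQ)

theorem IsSp.le (hs : IsSp w s) {x : K} (hx : w x = 1) {Q : Plk C K}
    (h : ∀ R, s R = s Q → x ∈ R.1) :
    Vale.Agent.P019P.ord Q x ≤ Vale.Agent.P019P.ord (s Q) (w.red x) := by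
  rw [hs.ord hx, ← dv_apply]
  exact cls_le (fun R hR => by rw [dv_apply]; exact ord_nn (h R hR)) rfl

/-- values reduce to values -/
theorem IsSp.val (hs : IsSp w s) {x : K} (hx : w x ≤ 1) {Q : Plk C K}
    (h : ∀ R, s R = s Q → x ∈ R.1) {c : C} (hc : Val Q x c) :
    ‖c‖ ≤ 1 ∧ Val (s Q) (w.red x) (cred c) := by
  have h1 : ‖c‖ ≤ 1 := by
    by_contra h1
    push Not at h1
    have h0 : c ≠ 0 := by rintro rfl; rw [norm_zero] at h1; linarith
    have h2 : w (algebraMap C K c⁻¹ * x) < 1 := by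
      rw [map_mul, w_const, norm_inv]
      exact mul_lt_one_of_nonneg_of_lt_one_left (by positivity) (inv_lt_one_of_one_lt₀ h1) hx
    have h3 : w.red (1 - algebraMap C K c⁻¹ * x) = 1 := by
      rw [NV.red_sub (by simp) h2.le, NV.red_of_lt h2, NV.red_one, sub_zero]
    have h4 := w_eq_one (NV.sub_le (by simp) h2.le) (h3 ▸ one_ne_zero)
    have h5 := hs.le h4 fun R hR => sub_mem (one_mem _) (mul_mem (R.2.1 _) (h R hR))
    have h6 := (Val.one Q).sub ((Val.const Q c⁻¹).mul hc)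
    rw [inv_mul_cancel₀ h0, sub_self] at h6
    have h7 := val_zero_pos h6 (ne_of_w h4)
    rw [h3, Vale.Agent.P019P.ord_one] at h5
    omega
  refine ⟨h1, ?_⟩
  have h2 := red_sub_const hx h1
  unfold Val
  rw [← h2.2]
  by_cases h0 : w.red (x - algebraMap C K c) = 0
  · exact Or.inl h0
  have h3 := w_eq_one h2.1 h0
  exact Or.inr ((val_zero_pos (val_sub_self hc) (ne_of_w h3)).trans
    (hs.le h3 fun R hR => sub_mem (h R hR) (R.2.1 _)))

theorem IsSp.red_LL (hs : IsSp w s) {D : Plk C K →₀ ℤ} {x : K} (hx : x ∈ LL C D) (h : w x ≤ 1) :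
    w.red x ∈ LL (kC C) (D.mapDomain s) := by
  by_cases h0 : w.red x = 0
  · exact Or.inl h0
  have h1 := w_eq_one h h0
  rw [mem_LL_dv h0, hs x h1, ← Finsupp.mapDomain_add]
  exact map_nonneg' s ((mem_LL_dv (ne_of_w h1)).1 hx)

theorem IsSp.redS_le (hs : IsSp w s) (D : Plk C K →₀ ℤ) :
    redS w (LL C D) ≤ LL (kC C) (D.mapDomain s) := by
  rintro _ ⟨x, h1, h2, rfl⟩
  exact hs.red_LL h1 h2

theorem IsSp.surj (hs : IsSp w s) : Function.Surjective s := by
  intro P
  obtain ⟨y, h0, h1⟩ := exists_unif P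
  obtain ⟨x, h2, rfl⟩ := NV.red_surj y
  rw [hs.ord (w_eq_one h2 h0)] at h1
  obtain ⟨Q, hQ, -⟩ := cls_ex (h1 ▸ one_ne_zero)
  exact ⟨Q, hQ⟩

/-- the dimension can only go up -/
theorem IsSp.l_le (hs : IsSp w s) (h : Full w T) (D : Plk C K →₀ ℤ) :
    Module.finrank C (LL C D) ≤ Module.finrank (kC C) (LL (kC C) (D.mapDomain s)) :=
  (h.dim _ _ (hs.redS_le D)).trans (Submodule.finrank_mono (hs.redS_le D))

/-- Riemann-Roch spaces of large degree reduce onto Riemann-Roch spaces -/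
theorem IsSp.lift (hs : IsSp w s) (h : Gd w T) {D : Plk C K →₀ ℤ}
    (hD : 2 * (gen C K : ℤ) - 1 ≤ dg D) {y : kap w} (hy : y ∈ LL (kC C) (D.mapDomain s)) :
    ∃ x ∈ LL C D, w x ≤ 1 ∧ w.red x = y := by
  have h1 := RR_large (D := D) (by rw [dg_can_eq]; omega)
  have h2 := RR_large (D := D.mapDomain s) (by rw [dg_can_eq, dg_map, h.gen_eq]; omega)
  rw [dg_map, h.gen_eq] at h2
  rwa [← h.toFull.red_eq _ _ (hs.redS_le D) (by omega)] at hy

/-- the intrinsic description of the specialisation -/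
theorem IsSp.char (hs : IsSp w s) (h : Gd w T) (Q : Plk C K) (P : Plk (kC C) (kap w)) :
    s Q = P ↔ ∀ x, w x ≤ 1 → (∀ R : Plk C K, R ≠ Q → x ∈ R.1) →
      ∀ P' : Plk (kC C) (kap w), P' ≠ P → w.red x ∈ P'.1 := by
  classical
  constructor
  · rintro rfl x h1 h2 P' h3
    exact hs.mem h1 fun R hR => h2 R fun e => h3 (by rw [← hR, e])
  · intro H
    by_contra hne
    obtain ⟨y, h0, h1, h2⟩ := exists_exact
      (D := (Finsupp.single Q (2 * (gen C K : ℤ) + 1)).mapDomain s) (s Q)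
      (by rw [dg_map, dg_sgl, h.gen_eq]; omega)
    obtain ⟨x, h3, h4, rfl⟩ := hs.lift h (D := Finsupp.single Q (2 * (gen C K : ℤ) + 1))
      (by rw [dg_sgl]; omega) (Or.inr h1)
    have h5 := ord_nn (H x h4 (fun R hR => by
      have := mem_LL_iff.1 h3 R
      rw [Finsupp.single_eq_of_ne hR, neg_zero] at this
      exact mem_iff_Mge.2 this) (s Q) hne)
    rw [Finsupp.mapDomain_single, Finsupp.single_eq_same] at h2
    omega

theorem IsSp.unique (hs : IsSp w s) (h : Gd w T) {s' : Plk C K → Plk (kC C) (kap w)}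
    (hs' : IsSp w s') : s = s' :=
  funext fun Q => (hs.char h Q _).2 ((hs'.char h Q _).1 rfl)

/-- local parameters of the residue classes -/
theorem IsSp.param (hs : IsSp w s) (h : Gd w T) (Q : Plk C K) :
    ∃ t, w t = 1 ∧ Vale.Agent.P019P.ord (s Q) (w.red t) = 1 ∧ (∀ R, s R = s Q → t ∈ R.1) ∧
      Val Q t 0 := by
  classical
  obtain ⟨P, hP⟩ := exists_notMem {s Q}
  obtain ⟨Q', rfl⟩ := hs.surj P
  rw [Finset.mem_singleton] at hP
  set D : Plk C K →₀ ℤ := Finsupp.single Q' (2 * (gen C K : ℤ) + 1) + Finsupp.single Q (-1) with hD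
  have hd : dg D = 2 * (gen C K : ℤ) := by rw [hD, map_add, dg_sgl, dg_sgl]; ring
  obtain ⟨y, h0, h1, h2⟩ := exists_exact (D := D.mapDomain s) (s Q)
    (by rw [dg_map, hd, h.gen_eq])
  obtain ⟨x, h3, h4, rfl⟩ := hs.lift h (D := D) (by omega) (Or.inr h1)
  have h5 := w_eq_one h4 h0
  have h6 : ∀ R, s R = s Q → -D R = if Q = R then 1 else 0 := fun R hR => by
    rw [hD, Finsupp.add_apply, Finsupp.single_eq_of_ne (fun e => hP (by rw [← e, hR])),
      Finsupp.single_apply]
    split_ifs <;> simp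
  refine ⟨x, h5, ?_, fun R hR => mem_of_ord (le_trans ?_ (h3.resolve_left (ne_of_w h5) R)), ?_⟩
  · rw [h2, hD, Finsupp.mapDomain_add, Finsupp.mapDomain_single, Finsupp.mapDomain_single,
      Finsupp.add_apply, Finsupp.single_eq_of_ne (Ne.symm hP), Finsupp.single_eq_same]
    simp
  · rw [h6 R hR]; split_ifs <;> simp
  · have := mem_LL_iff.1 h3 Q
    rw [h6 Q rfl, if_pos rfl] at this
    exact Val.zero_iff.2 this

/-- compatibility with semilinear isomorphisms -/
theorem IsSp.equiv {C' K' : Type*} [NontriviallyNormedField C'] [IsUltrametricDist C']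
    [IsAlgClosed C'] [Field K'] [Algebra C' K'] [CFF C' K'] {w' : NV C' K'} {T' : K'}
    [CFF (kC C') (kap w')] {s' : Plk C' K' → Plk (kC C') (kap w')}
    (hs : IsSp w s) (hs' : IsSp w' s') (h' : Gd w' T') (e : K ≃+* K') (e₀ : C ≃+* C')
    (he : ∀ a, e (algebraMap C K a) = algebraMap C' K' (e₀ a)) (τ : kap w ≃+* kap w')
    (τ₀ : kC C ≃+* kC C')
    (hτ : ∀ a, τ (algebraMap (kC C) (kap w) a) = algebraMap (kC C') (kap w') (τ₀ a))
    (h1 : ∀ x, w' (e x) ≤ 1 → w x ≤ 1) (h2 : ∀ x, w x ≤ 1 → w'.red (e x) = τ (w.red x))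
    (Q : Plk C K) : s' (plEquiv e e₀ he Q) = plEquiv τ τ₀ hτ (s Q) := by
  refine (hs'.char h' _ _).2 fun x h3 h4 P' h5 => ?_
  obtain ⟨x, rfl⟩ := e.surjective x
  obtain ⟨P, rfl⟩ := (plEquiv τ τ₀ hτ).surjective P'
  refine mem_of_ord ?_
  rw [h2 x (h1 x h3), ord_plEquiv]
  refine ord_nn (hs.mem (h1 x h3) fun R hR => mem_of_ord ?_)
  rw [← ord_plEquiv e e₀ he]
  refine ord_nn (h4 _ fun e1 => h5 ?_)
  rw [← hR, (plEquiv e e₀ he).injective e1]

end Vale.Agent.P027M.Gs
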