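import Vale.Agent.P027M.G.Sp
import Vale.Agent.P027M.G.Sp4

/-!
# P027 route M, block G: `KEY`
-/

set_option linter.all false

noncomputable section

namespace Vale.Agent.P027M.Gs

open Polynomial IntermediateField P025H373 P025H746 Vale.Agent.P019P P025H492 P027M.K P025H816

variable {C K : Type*} [NontriviallyNormedField C] [IsUltrametricDist C] [IsAlgClosed C]
  [Field K] [Algebra C K] [CFF C K] {w : NV C K} {T : K} [CFF (kC C) (kap w)]
  {s : Plk C K → Plk (kC C) (kap w)}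

theorem exists_rem {y : K} (hy : w y ≤ 1) (m : ℕ) :
    ∃ r, w r ≤ 1 ∧ (1 - y) ^ m = 1 - m * y + y ^ 2 * r := by
  have hm : ∀ m : ℕ, w (m : K) ≤ 1 := fun m => (NV.mem_ring).1 (natCast_mem w.ring m)
  induction m with
  | zero => exact ⟨0, by simp, by simp⟩
  | succ m ih =>
    obtain ⟨r, h1, h2⟩ := ih
    refine ⟨m + r * (1 - y), NV.add_le (hm m) (NV.mul_le_one h1 (NV.sub_le (by simp) hy)), ?_⟩
    rw [pow_succ, h2]
    push_cast
    ring

/-- the local computation in one residue class -/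
theorem IsSp.loc (hs : IsSp w s) (h : Gd w T) {m : ℕ} {f : K} (hf : w f = 1) {Q R : Plk C K}
    (hR : s R = s Q) [DecidableEq (Plk C K)]
    (hd : ∀ Q', s Q' = s Q → Vale.Agent.P019P.ord Q' f =
      m * ((if Q' = R then 1 else 0) - if Q' = Q then 1 else 0)) :
    ∃ (δ : C) (t : kap w), t ≠ 0 ∧ Vale.Agent.P019P.ord (s Q) t = 1 ∧
      ∀ a c : C, c ≠ 0 → ‖δ‖ ≤ ‖c‖ → w (c⁻¹ • (f - algebraMap C K a)) ≤ 1 →
        w.red (c⁻¹ • (f - algebraMap C K a)) + (cred (δ / c) * m) • (w.red f * t⁻¹) ∈ (s Q).1 := by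
  obtain ⟨t, h1, h2, h3, h4⟩ := hs.param h Q
  obtain ⟨δ, h5⟩ := val_of_mem (h3 R hR)
  have h6 := hs.val h1.le (fun R' e => h3 R' (e.trans hR)) h5
  have h7 : ‖δ‖ < 1 := by
    rw [← cred_eq_zero h6.1]
    exact h6.2.unique (Val.zero_iff.2 (Or.inr (by rw [hR, h2])))
  have h8 := red_sub_lt h1 h7
  have ht0 := ne_of_w h1
  have hu0 := ne_of_w h8.1
  have h9 : ∀ Q', s Q' = s Q → Vale.Agent.P019P.ord Q' t = if Q' = Q then 1 else 0 := by
    intro Q' e
    rw [← dv_apply]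
    exact cls_one (fun R' e' => by rw [dv_apply]; exact ord_nn (h3 R' e')) (by rw [← hs.ord h1, h2])
      rfl (by rw [dv_apply]; exact val_zero_pos h4 ht0) e
  have h10 : ∀ Q', s Q' = s Q →
      Vale.Agent.P019P.ord Q' (t - algebraMap C K δ) = if Q' = R then 1 else 0 := by
    intro Q' e
    rw [← dv_apply]
    exact cls_one (fun R' e' => by rw [dv_apply]; exact ord_nn (sub_mem (h3 R' e') (R'.2.1 _)))
      (by rw [← hs.ord h8.1, h8.2, h2]) hR
      (by rw [dv_apply]; exact val_zero_pos (val_sub_self h5) hu0) e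
  set u := f * (t * (t - algebraMap C K δ)⁻¹) ^ m with hu
  have hq : w (t * (t - algebraMap C K δ)⁻¹) = 1 := by rw [map_mul, map_inv₀, h1, h8.1]; simp
  have hu1 : w u = 1 := by rw [hu, map_mul, map_pow, hq, hf]; simp
  have hu2 : w.red u = w.red f := by
    rw [hu, NV.red_mul hf.le (NV.pow_le_one' hq.le m), NV.red_pow hq.le,
      NV.red_mul h1.le (by rw [map_inv₀, h8.1, inv_one]), NV.red_inv h8.1, h8.2,
      mul_inv_cancel₀ (NV.red_ne_zero h1), one_pow, mul_one]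
  have hu3 : ∀ Q', s Q' = s Q → u ∈ Q'.1 := fun Q' e => mem_of_ord (by
    rw [hu, ord_mul Q' (ne_of_w hf) (pow_ne_zero m (ne_of_w hq)), Vale.Agent.P019P.ord_pow,
      ord_mul Q' ht0 (inv_ne_zero hu0), Vale.Agent.P019P.ord_inv, hd Q' e, h9 Q' e, h10 Q' e]
    exact le_of_eq (by ring))
  have hti : w t⁻¹ = 1 := by rw [map_inv₀, h1, inv_one]
  obtain ⟨r, hr1, hr2⟩ := exists_rem (y := δ • t⁻¹) (by rw [w_smul, hti, mul_one]; exact h7.le) m
  have hfu : f = u * (1 - δ • t⁻¹) ^ m := by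
    have e : t * (t - algebraMap C K δ)⁻¹ * (1 - δ • t⁻¹) = 1 := by
      rw [Algebra.smul_def]
      field_simp
    rw [hu, mul_assoc, ← mul_pow, e, one_pow, mul_one]
  refine ⟨δ, w.red t, NV.red_ne_zero h1, h2, fun a c hc hδ hw => ?_⟩
  have hdc : ‖δ / c‖ ≤ 1 := by
    rw [norm_div]; exact div_le_one_of_le₀ hδ (norm_nonneg _)
  have hm : w (m : K) ≤ 1 := (NV.mem_ring).1 (natCast_mem w.ring m)
  have hut : w (u * t⁻¹) ≤ 1 := NV.mul_le_one hu1.le hti.le
  have hA : w ((δ / c) • ((m : K) * (u * t⁻¹))) ≤ 1 := by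
    rw [w_smul]; exact mul_le_one₀ hdc (w.av.nonneg _) (NV.mul_le_one hm hut)
  have hB : w ((δ / c * δ) • (u * t⁻¹ * t⁻¹ * r)) < 1 := by
    rw [w_smul, norm_mul]
    exact mul_lt_one_of_nonneg_of_lt_one_left (by positivity)
      (mul_lt_one_of_nonneg_of_lt_one_right hdc (norm_nonneg _) h7)
      (NV.mul_le_one (NV.mul_le_one hut hti.le) hr1)
  have hE : c⁻¹ • (u - algebraMap C K a) = c⁻¹ • (f - algebraMap C K a) +
      (δ / c) • ((m : K) * (u * t⁻¹)) - (δ / c * δ) • (u * t⁻¹ * t⁻¹ * r) := by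
    conv_rhs => rw [hfu, hr2]
    simp only [Algebra.smul_def, map_mul, div_eq_mul_inv]
    ring
  have hv := hs.mem (P := s Q) (x := c⁻¹ • (u - algebraMap C K a))
    (by rw [hE]; exact NV.sub_le (NV.add_le hw hA) hB.le) fun Q' e => by
      rw [Algebra.smul_def]
      exact mul_mem (Q'.2.1 _) (sub_mem (hu3 Q' e) (Q'.2.1 _))
  have hmr : w.red (m : K) = m := by
    rw [NV.red_of hm]
    exact map_natCast (IsLocalRing.residue w.ring) m
  rw [hE, NV.red_sub (NV.add_le hw hA) hB.le, NV.red_of_lt hB, sub_zero, NV.red_add hw hA,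
    red_smul hdc (NV.mul_le_one hm hut), NV.red_mul hm hut, NV.red_mul hu1.le hti.le, hu2,
    NV.red_inv h1, hmr] at hv
  rwa [mul_smul, Algebra.smul_def (m : kC C), map_natCast]

/-- the kernel of the reduction of divisor classes has no torsion prime to `p` -/
theorem IsSp.tors (hs : IsSp w s) (h : Gd w T) {m : ℕ} (hm : (m : kC C) ≠ 0)
    {E : Plk C K →₀ ℤ} {f : K} (hf0 : f ≠ 0) (hE : m • E = dv C f)
    (h0 : E.mapDomain s ∈ prn (kC C) (kap w)) : E ∈ prn C K := by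
  classical
  have hm0 : m ≠ 0 := by rintro rfl; simp at hm
  obtain ⟨A, hA1, hA2, hA3⟩ := exists_nonspecial (kC C) (kap w)
  obtain ⟨σ, hσ⟩ := hs.surj.hasRightInverse
  have hA4 : (A.mapDomain σ).mapDomain s = A := by
    rw [← Finsupp.mapDomain_comp, hσ.comp_eq_id, Finsupp.mapDomain_id]
  have hA5 : ∀ Q, A.mapDomain σ Q = if Q = σ (s Q) then A (s Q) else 0 := by
    intro Q
    split_ifs with e
    · conv_lhs => rw [e]
      exact Finsupp.mapDomain_apply hσ.injective _ _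
    · exact Finsupp.mapDomain_notin_range _ _ fun ⟨P, hP⟩ => e (by rw [← hP, hσ])
  obtain ⟨y, hy0, hy⟩ := h0
  have hdE : dg E = 0 := by rw [← dg_map s, hy, dg_dv]
  obtain ⟨z, hz0, hz⟩ := exists_ne_zero_of_l (D := E + A.mapDomain σ) (by
    have := RR (E + A.mapDomain σ)
    rw [map_add, hdE, dg_map, hA2, h.gen_eq] at this
    omega)
  obtain ⟨b, hb0, hb⟩ := h.toFull.scale hz0
  rw [← dv_smul hb0 hz0] at hz
  set z' := b • z with hz'
  have h1 : y * w.red z' ≠ 0 := mul_ne_zero hy0 (NV.red_ne_zero hb)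
  have h2 : (E + A.mapDomain σ + dv C z').mapDomain s = A + dv (kC C) (y * w.red z') := by
    rw [Finsupp.mapDomain_add, Finsupp.mapDomain_add, hA4, hy, ← hs z' hb,
      dv_mul hy0 (NV.red_ne_zero hb)]
    abel
  obtain ⟨c₀, hc₀⟩ := hA3 _ ((mem_LL_dv h1).2 (h2 ▸ map_nonneg' s hz))
  rw [hc₀, dv_const, add_zero] at h2
  set B := E + A.mapDomain σ + dv C z' with hB
  obtain ⟨b', hb0', hg⟩ := h.toFull.scale (mul_ne_zero hf0 (pow_ne_zero m (ne_of_w hb)))
  set g := b' • (f * z' ^ m) with hg'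
  have hdv : dv C g = m • (B - A.mapDomain σ) := by
    rw [hg', dv_smul hb0' (mul_ne_zero hf0 (pow_ne_zero m (ne_of_w hb))),
      dv_mul hf0 (pow_ne_zero m (ne_of_w hb)), ← hE, hB]
    ext Q
    simp only [Finsupp.add_apply, Finsupp.smul_apply, Finsupp.sub_apply, dv_apply,
      Vale.Agent.P019P.ord_pow, nsmul_eq_mul]
    ring
  suffices H : ∃ a : C, g = algebraMap C K a by
    obtain ⟨a, ha⟩ := H
    rw [ha, dv_const] at hdv
    have h3 := smul_inj' hm0 (hdv.symm.trans (smul_zero m).symm)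
    refine ⟨z'⁻¹, inv_ne_zero (ne_of_w hb), ?_⟩
    rw [dv_inv, eq_neg_iff_add_eq_zero, ← h3, hB]
    abel
  by_contra hcon
  push Not at hcon
  have hgr : ∀ P, Vale.Agent.P019P.ord P (w.red g) = 0 := fun P => by
    rw [hs.ord hg, hdv, Finsupp.mapDomain_smul, Finsupp.mapDomain_sub, h2, hA4, sub_self, smul_zero,
      Finsupp.zero_apply]
  have hord : ∀ Q, Vale.Agent.P019P.ord Q g = m * (B Q - A.mapDomain σ Q) := fun Q => by
    rw [← dv_apply, hdv, Finsupp.smul_apply, nsmul_eq_mul, Finsupp.sub_apply]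
  have key : ∀ P, A P = 1 → ∃ (δ : C) (t : kap w), t ≠ 0 ∧ Vale.Agent.P019P.ord P t = 1 ∧
      ∀ a c : C, c ≠ 0 → ‖δ‖ ≤ ‖c‖ → w (c⁻¹ • (g - algebraMap C K a)) ≤ 1 →
        w.red (c⁻¹ • (g - algebraMap C K a)) + (cred (δ / c) * m) • (w.red g * t⁻¹) ∈ P.1 := by
    intro P hP
    have h3 : B.mapDomain s P = 1 := by rw [h2, hP]
    obtain ⟨R, h4, h5⟩ := cls_ex (h3 ▸ one_ne_zero)
    have h6 : 0 ≤ B R := hz R
    have := hs.loc h (m := m) hg (Q := σ P) (R := R) (by rw [h4, hσ]) fun Q' e => by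
      rw [hσ] at e
      rw [hord, cls_one (fun a _ => hz a) h3 h4 (by omega) e, hA5, e, hP]
    rwa [hσ] at this
  choose! δ t ht0 ht1 hloc using key
  obtain ⟨a, b₁, h3, h4⟩ := h.toFull.exists_nc hcon
  have hb₁ : b₁ ≠ 0 := by
    rintro rfl
    rw [zero_smul, add_zero] at h3 h4
    exact h4 _ (NV.red_algebraMap (by rwa [w_const] at h3))
  have claim : ∀ c : C, c ≠ 0 → ‖b₁⁻¹‖ ≤ ‖c‖ → (∀ P, A P = 1 → ‖δ P‖ ≤ ‖c‖) →
      (∃ e, w.red (c⁻¹ • (g - algebraMap C K (-a / b₁))) = algebraMap (kC C) (kap w) e) ∧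
        ∀ P, A P = 1 → ‖δ P‖ < ‖c‖ := by
    intro c hc h5 h6
    have h7 : w (c⁻¹ • (g - algebraMap C K (-a / b₁))) ≤ 1 := by
      have e : c⁻¹ • (g - algebraMap C K (-a / b₁)) =
          (b₁⁻¹ / c) • (algebraMap C K a + b₁ • g) := by
        have := (_root_.map_ne_zero (algebraMap C K)).2 hb₁
        simp only [Algebra.smul_def, map_mul, div_eq_mul_inv, map_inv₀, map_neg]
        field_simp
        ring
      rw [e, w_smul, norm_div]
      exact mul_le_one₀ (div_le_one_of_le₀ h5 (norm_nonneg _)) (w.av.nonneg _) h3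
    have h8 : ∀ P, A P = 1 → w.red g * (t P)⁻¹ ≠ 0 ∧
        Vale.Agent.P019P.ord P (w.red g * (t P)⁻¹) = -1 := fun P hP =>
      ⟨mul_ne_zero (NV.red_ne_zero hg) (inv_ne_zero (ht0 P hP)), by
        rw [ord_mul P (NV.red_ne_zero hg) (inv_ne_zero (ht0 P hP)), hgr,
          Vale.Agent.P019P.ord_inv, ht1 P hP, zero_add]⟩
    obtain ⟨e, he⟩ := hA3 (w.red (c⁻¹ • (g - algebraMap C K (-a / b₁)))) (mem_LL_iff.2 fun P => by
      rcases hA1 P with hP | hP
      · rw [hP, neg_zero, ← mem_iff_Mge]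
        refine hs.mem h7 fun Q hQ => ?_
        rw [Algebra.smul_def]
        refine mul_mem (Q.2.1 _) (sub_mem (mem_of_ord ?_) (Q.2.1 _))
        rw [hord, hA5, hQ, hP, ite_self, sub_zero]
        exact mul_nonneg (Int.natCast_nonneg m) (hz Q)
      · have h9 := sub_mem (Mge_mono P (by norm_num : (-1 : ℤ) ≤ 0)
          (mem_iff_Mge.1 (hloc P hP _ c hc (h6 P hP) h7)))
          ((Mge P (-1)).smul_mem (cred (δ P / c) * m) (Or.inr (h8 P hP).2.ge))
        rwa [add_sub_cancel_right, ← hP] at h9)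
    refine ⟨⟨e, he⟩, fun P hP => ?_⟩
    have h9 := sub_mem (hloc P hP _ c hc (h6 P hP) h7) (P.2.1 e)
    rw [he, add_sub_cancel_left] at h9
    have h10 : cred (δ P / c) = 0 := by
      by_contra h10
      have h11 := ord_nn h9
      rw [Algebra.smul_def, ord_mul P ((_root_.map_ne_zero _).2 (mul_ne_zero h10 hm)) (h8 P hP).1,
        ord_const, (h8 P hP).2] at h11
      omega
    rwa [cred_eq_zero (by rw [norm_div]; exact div_le_one_of_le₀ (h6 P hP) (norm_nonneg _)),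
      norm_div, div_lt_one (norm_pos_iff.2 hc)] at h10
  by_cases h5 : ∀ P, A P = 1 → ‖δ P‖ ≤ ‖b₁⁻¹‖
  · obtain ⟨e, he⟩ := (claim _ (inv_ne_zero hb₁) le_rfl h5).1
    refine h4 e (he ▸ congrArg w.red ?_)
    have := (_root_.map_ne_zero (algebraMap C K)).2 hb₁
    simp only [Algebra.smul_def, inv_inv, map_div₀, map_neg]
    field_simp
    ring
  · push Not at h5
    obtain ⟨P, h6, h7⟩ := h5
    obtain ⟨P₀, h8, h9⟩ := A.support.exists_max_image (fun P => ‖δ P‖)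
      ⟨P, Finsupp.mem_support_iff.2 (by omega)⟩
    have h10 : ∀ P, A P = 1 → ‖δ P‖ ≤ ‖δ P₀‖ := fun P hP =>
      h9 P (Finsupp.mem_support_iff.2 (by omega))
    have h11 := h7.trans_le (h10 P h6)
    exact lt_irrefl _ ((claim _ (norm_pos_iff.1 ((norm_nonneg _).trans_lt h11)) h11.le h10).2 P₀
      ((hA1 P₀).resolve_left (Finsupp.mem_support_iff.1 h8)))

theorem pow_of_prn {k F : Type*} [Field k] [Field F] [Algebra k F] [CFF k F] {m : ℕ} (hm : m ≠ 0)
    {E : Plk k F →₀ ℤ} {f : F} (hf : f ≠ 0) (hE : m • E = dv k f) (h : E ∈ prn k F) :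
    ∃ y, y ^ m = f := by
  haveI : IsAlgClosed k := CFF.ac F
  obtain ⟨z, hz, rfl⟩ := h
  have h1 : dv k (z ^ m) = dv k f := by
    rw [← hE]
    ext P
    rw [dv_apply, Vale.Agent.P019P.ord_pow, Finsupp.smul_apply, dv_apply, nsmul_eq_mul]
  obtain ⟨a, ha, h2⟩ := (dv_eq_iff (pow_ne_zero m hz) hf).1 h1
  obtain ⟨b, hb⟩ := IsAlgClosed.exists_pow_nat_eq a (Nat.pos_of_ne_zero hm)
  exact ⟨algebraMap k F b * z, by rw [mul_pow, ← map_pow, hb, h2, Algebra.smul_def]⟩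

theorem exists_half {k F : Type*} [Field k] [Field F] [Algebra k F] [CFF k F] {m : ℕ} {f : F}
    (hf : ∀ P : Plk k F, (m : ℤ) ∣ ord P f) : ∃ E : Plk k F →₀ ℤ, m • E = dv k f := by
  refine ⟨(dv k f).mapRange (fun z => z / m) (Int.zero_ediv _), ?_⟩
  ext P
  rw [Finsupp.smul_apply, Finsupp.mapRange_apply, nsmul_eq_mul, dv_apply]
  exact Int.mul_ediv_cancel' (hf P)

/-- **KEY**: if the reduction is an `m`-th power then so is the function -/
theorem Gd.key (h : Gd w T) {m : ℕ} (hm : (m : kC C) ≠ 0) {f : K} (hf : w f = 1)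
    (hd : ∀ P : Plk C K, (m : ℤ) ∣ ord P f) {y : kap w} (hy : y ^ m = w.red f) :
    ∃ z, z ^ m = f := by
  have hm0 : m ≠ 0 := by rintro rfl; simp at hm
  obtain ⟨s, hs⟩ := h.exists_sp
  obtain ⟨E, hE⟩ := exists_half hd
  refine pow_of_prn hm0 (ne_of_w hf) hE (hs.tors h hm (ne_of_w hf) hE ⟨y, ?_, smul_inj' hm0 ?_⟩)
  · rintro rfl
    exact NV.red_ne_zero hf (by rw [← hy, zero_pow hm0])
  · rw [← Finsupp.mapDomain_smul, hE, ← hs f hf, ← hy]
    ext P
    rw [dv_apply, Vale.Agent.P019P.ord_pow, Finsupp.smul_apply, dv_apply, nsmul_eq_mul]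

theorem natCast_ne_of_norm {m : ℕ} (hm : ‖(m : C)‖ = 1) : (m : kC C) ≠ 0 := by
  have h1 : cred (m : C) = m := by
    rw [cred_of hm.le]
    exact map_natCast (IsLocalRing.residue (OC C)) m
  rw [← h1, Ne, cred_eq_zero hm.le, hm]
  exact lt_irrefl _

end Vale.Agent.P027M.Gs

namespace Vale.Agent.P027M.G

open P025H746 P025H816

theorem key : KEY := by
  intro C K _ _ _ _ _ _ _ T w m f h hm hf h1
  haveI := h.cff
  have h2 : w.red (f : K) = 1 := by
    have e : (f : K) = 1 + (f - 1) := by ring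
    rw [e, NV.red_add (by simp) h1.le, NV.red_of_lt h1, NV.red_one, add_zero]
  have h3 : w (f : K) ≤ 1 := by
    have e : (f : K) = 1 + (f - 1) := by ring
    rw [e]; exact NV.add_le (by simp) h1.le
  exact mem_powU'.2 (h.gd.key (Gs.natCast_ne_of_norm hm) (Gs.w_eq_one h3 (h2 ▸ one_ne_zero)) hf
    (y := 1) (by rw [one_pow, h2]))

end Vale.Agent.P027M.G
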