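import Vale.Agent.P027M.G.Modg
import Vale.Agent.P027M.G.Key
import Vale.Agent.P027M.G.Norm

/-!
# P027, route M, block G: the key lemma for the modular curves
-/

set_option linter.all false

noncomputable section

namespace Vale.Agent.P027M.G

open Polynomial IntermediateField Module P025H373 P025H746 Vale.Agent.P019P P025H492 P025H816
open Vale.Agent.P022 Vale.Agent.P022.H542.L3 Vale.Agent.P022.H218.L3 Vale.Agent.P022.H236.L3
open Vale.Agent.P027M.M (io FF cv L G0 Gt GH Lv Mid Mdl NZ)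
open scoped MatrixGroups

namespace Keym

theorem inv_mem_of {K : Type} [Field K] (O : ValuationSubring K) {p n : ℕ} (hp : p.Prime)
    (h : O.valuation (p : K) < 1) (hn : ¬ p ∣ n) : (n : K)⁻¹ ∈ O := by
  obtain ⟨a, b, e⟩ := Nat.isCoprime_iff_coprime.2 ((Nat.Prime.coprime_iff_not_dvd hp).2 hn)
  have e' : (a : K) * p + b * n = 1 := by exact_mod_cast congrArg (Int.cast : ℤ → K) e
  have hi : ∀ c : ℤ, O.valuation (c : K) ≤ 1 := fun c =>
    (O.valuation_le_one_iff _).2 (intCast_mem O c)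
  rw [← O.valuation_le_one_iff, map_inv₀]
  refine inv_le_one_of_one_le₀ (not_lt.1 fun h1 => ?_)
  have h2 : O.valuation ((a : K) * p + b * n) < 1 := by
    refine Valuation.map_add_lt _ ?_ ?_ <;> rw [map_mul, mul_comm]
    · exact mul_lt_one_of_lt_of_le h (hi a)
    · exact mul_lt_one_of_lt_of_le h1 (hi b)
  rw [e', map_one] at h2
  exact lt_irrefl _ h2

theorem val_lt {K : Type} [Field K] (O : ValuationSubring K) {x : K} (hx : x ≠ 0) :
    O.valuation x < 1 ↔ x⁻¹ ∉ O := by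
  rw [← O.valuation_le_one_iff, map_inv₀, not_le,
    one_lt_inv₀ (zero_lt_iff.2 ((Valuation.ne_zero_iff _).2 hx))]

theorem exists_av (O : ValuationSubring ℂ) {p : ℕ} (hp : p.Prime)
    (h : O.valuation (p : ℂ) < 1) : ∃ A : AV, A.On O := by
  obtain ⟨a, h1, h2, h3, h4⟩ := norm (O.comap (M.io : Qb →+* ℂ)) p hp (by
    rw [val_lt _ (Nat.cast_ne_zero.2 hp.ne_zero)] at h ⊢
    intro h1
    apply h
    have : (M.io : Qb →+* ℂ) (p : Qb)⁻¹ ∈ O := h1
    rwa [map_inv₀, map_natCast] at this)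
  exact ⟨⟨a, h1, h3, fun σ hσ => h4 σ fun x => by rw [← h2, ← h2, hσ]⟩, fun c => (h2 c).symm⟩

end Keym

open Keym in
theorem keym (X : Mdl) (hG : M.GRP) (hW : WINF) (hM : MODG X) : M.KEY := by
  intro N H hN hH _ m p hp hm hpN O hO W hW' f hf s hs h1
  obtain ⟨A, hA⟩ := exists_av O hp hO
  obtain ⟨w, hw⟩ := hW A O hA
  have hmid : Mid N (GH N H) := ((hG N hN).2.2.2.2.2.2.2 H).2.1 hH
  have hg := hM A O w N _ hmid hA hw (inv_mem_of O hp hO hpN)
  have hm0 : m ≠ 0 := by rintro rfl; exact hm (dvd_zero p)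
  refine key (Qv A) (L (GH N H)) _ _ m f hg (Modg.norm_nat hA hm0 (inv_mem_of O hp hO hm)) hf ?_
  have h2 := hs.add (ExM.const N (-1))
  rw [map_neg, map_neg, map_one, map_one, ← sub_eq_add_neg, ← sub_eq_add_neg] at h2
  refine (hw W hW' N (((f : L (GH N H)) : FF) - 1) _ hN.pos ?_).2.2 h1
  rwa [map_sub, map_one]

end Vale.Agent.P027M.G
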