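import Vale.Agent.P027M.G.Defs

/-!
# P027, route M, block G: the place of an embedding in Laurent series
-/

set_option linter.all false

noncomputable section

namespace Vale.Agent.P027M.G

open Vale.Agent.P019P P025H492 P025H816

namespace Plc0

theorem order_inv {Ω : Type} [Field Ω] (s : LaurentSeries Ω) : s⁻¹.order = -s.order := by
  by_cases h : s = 0
  · simp [h]
  have := HahnSeries.order_mul h (inv_ne_zero h)
  rw [mul_inv_cancel₀ h, HahnSeries.order_one] at this
  omega

end Plc0

open Plc0 in
theorem plc0 : PLC := by
  intro k F Ω _ _ _ _ _ φ hc h1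
  have mul : ∀ x y, x ≠ 0 → y ≠ 0 → (φ (x * y)).order = (φ x).order + (φ y).order :=
    fun x y hx hy => by
      rw [map_mul, HahnSeries.order_mul ((map_ne_zero φ).2 hx) ((map_ne_zero φ).2 hy)]
  have add : ∀ x y, x + y ≠ 0 → min (φ x).order (φ y).order ≤ (φ (x + y)).order :=
    fun x y h => by
      have := (map_ne_zero φ).2 h
      rw [map_add] at this ⊢
      exact HahnSeries.min_order_le_order_add this
  let O : ValuationSubring F :=
    { carrier := {x | 0 ≤ (φ x).order}
      mul_mem' := fun {x y} hx hy => by
        by_cases a : x = 0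
        · simp [a]
        by_cases b : y = 0
        · simp [b]
        exact (mul x y a b).ge.trans' (add_nonneg hx hy)
      one_mem' := by simp
      add_mem' := fun {x y} hx hy => by
        by_cases a : x + y = 0
        · simp [a]
        exact (le_min hx hy).trans (add x y a)
      zero_mem' := by simp
      neg_mem' := fun {x} hx => by simpa using hx
      mem_or_inv_mem' := fun x => by
        show 0 ≤ (φ x).order ∨ 0 ≤ (φ x⁻¹).order
        rw [map_inv₀, order_inv]
        omega }
  obtain ⟨π, hπ⟩ := h1
  have io : IsOrd O fun x => (φ x).order :=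
    ⟨by simp, mul, fun x y _ _ h => add x y h, fun x => ⟨Or.inr, fun h => h.elim
      (fun e => e ▸ O.zero_mem) id⟩, π, hπ⟩
  refine ⟨⟨O, fun a => (hc a).ge, fun e => ?_⟩, fun x => congrFun (IsOrd.unique (O := O) (ord_spec ⟨O, _⟩) io) x⟩
  have : 0 ≤ (φ π⁻¹).order := show π⁻¹ ∈ O from e ▸ ValuationSubring.mem_top _
  rw [map_inv₀, order_inv] at this
  omega

end Vale.Agent.P027M.G
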