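import Vale.Agent.P027M.G.Defs

/-!
# P027, route M, block G: the action of the decomposition group on the residue field
-/

set_option linter.all false

noncomputable section

namespace Vale.Agent.P027M.G

open Polynomial IntermediateField Module P025H373 P025H746

namespace ResP

variable {C K : Type} [NontriviallyNormedField C] [IsUltrametricDist C] [Field K] [Algebra C K]

/-- the restriction of an isometric automorphism to the valuation ring -/
def rEq (w : NV C K) (σ : K ≃+* K) (h : ∀ x, w (σ x) = w x) : w.ring ≃+* w.ring where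
  toFun x := ⟨σ x, by rw [NV.mem_ring, h]; exact x.2⟩
  invFun x := ⟨σ.symm x, by
    rw [NV.mem_ring, ← h, RingEquiv.apply_symm_apply]; exact x.2⟩
  left_inv x := Subtype.ext (σ.symm_apply_apply x)
  right_inv x := Subtype.ext (σ.apply_symm_apply x)
  map_mul' x y := Subtype.ext (map_mul σ (x : K) y)
  map_add' x y := Subtype.ext (map_add σ (x : K) y)

/-- the induced automorphism of the residue field -/
def kEq (w : NV C K) (σ : K ≃+* K) (h : ∀ x, w (σ x) = w x) : kap w ≃+* kap w :=
  IsLocalRing.ResidueField.mapEquiv (rEq w σ h)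

theorem kEq_red (w : NV C K) (σ : K ≃+* K) (h : ∀ x, w (σ x) = w x) {x : K} (hx : w x ≤ 1) :
    kEq w σ h (w.red x) = w.red (σ x) := by
  have hx' : w (σ x) ≤ 1 := by rw [h]; exact hx
  rw [NV.red_of hx, NV.red_of hx']
  rfl

end ResP

open ResP in
theorem res : RES := by
  intro C K _ _ _ _ T w σ hT hσ
  have h : ∀ x, w (σ.toRingEquiv x) = w x := fun x => by
    have := NV.congr hσ x
    rwa [NV.twist_apply] at this
  have hc : ∀ c : C, σ (algebraMap C K c) = algebraMap C K c := fun c => by
    rw [IsScalarTower.algebraMap_apply C C⟮T⟯ K, AlgEquiv.commutes]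
  have hTT : σ T = T := σ.commutes (AdjoinSimple.gen C T)
  have hfix : ∀ y ∈ (kC C)⟮w.red T⟯, kEq w σ.toRingEquiv h y = y := by
    intro y hy
    induction hy using IntermediateField.adjoin_induction with
    | mem x hx =>
      rw [Set.mem_singleton_iff] at hx
      subst hx
      rw [kEq_red w _ h hT]
      exact congrArg w.red hTT
    | algebraMap a =>
      obtain ⟨c, hc1, rfl⟩ := cred_surj a
      rw [← NV.red_algebraMap hc1, kEq_red w _ h (by rw [w.ext']; exact hc1)]
      exact congrArg w.red (hc c)
    | add x y _ _ hx hy => rw [map_add, hx, hy]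
    | inv x _ hx => rw [map_inv₀, hx]
    | mul x y _ _ hx hy => rw [map_mul, hx, hy]
  refine ⟨AlgEquiv.ofRingEquiv (f := kEq w σ.toRingEquiv h) (fun y => hfix y y.2), ?_⟩
  intro x hx
  exact (kEq_red w σ.toRingEquiv h hx).symm

end Vale.Agent.P027M.G
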