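import Vale.Agent.P027M.G.Modg
import Vale.Agent.P027M.G.Sp4

/-!
# P027, route M, block G: the reduction is unramified over the affine points
-/

set_option linter.all false

noncomputable section

namespace Vale.Agent.P027M.G

open Polynomial IntermediateField Module P025H373 P025H746 Vale.Agent.P019P P025H492 P025H816
open Vale.Agent.P022 Vale.Agent.P022.H542.L3 Vale.Agent.P022.H218.L3 Vale.Agent.P022.H236.L3
open Vale.Agent.P027M.M (io FF cv L G0 Gt GH Lv Mid Mdl NZ)
open _root_.P027M.K (Val)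
open scoped MatrixGroups

namespace Unrm

variable {C K : Type} [NontriviallyNormedField C] [IsUltrametricDist C] [IsAlgClosed C]
  [Field K] [Algebra C K] [CFF C K] {w : NV C K} {T : K}

/-- the number of points of a fibre does not go up -/
theorem count_le [CFF (kC C) (kap w)] (h : Good w T) {s : C} (hs : ‖s‖ ≤ 1) :
    Set.ncard {x : Plk (kC C) (kap w) | 0 < ord x (w.red T - algebraMap (kC C) (kap w) (cred s))} ≤
      Set.ncard {P : Plk C K | 0 < ord P (T - algebraMap C K s)} := by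
  obtain ⟨sp, hsp⟩ := h.gd.exists_sp
  have hf := fib_finite h.full.nc s
  refine le_trans (Set.ncard_le_ncard ?_ (hf.image sp)) (Set.ncard_image_le hf)
  intro x hx
  have h1 := Gs.red_sub_const h.og.apply_T.le hs
  have h2 : w (T - algebraMap C K s) = 1 :=
    Gs.w_eq_one h1.1 (by rw [h1.2]; exact sub_ne_zero.2 (h.og.red_ne _))
  have h3 := hsp.ord h2 x
  rw [h1.2] at h3
  by_contra hne
  have h4 : 0 ≤ (-dv C (T - algebraMap C K s)).mapDomain sp x :=
    Gs.cls_nonneg fun Q hQ => by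
      rw [Finsupp.neg_apply, dv_apply, Left.nonneg_neg_iff]
      exact not_lt.1 fun h5 => hne ⟨Q, h5, hQ⟩
  have h5 : (-dv C (T - algebraMap C K s)).mapDomain sp =
      -(dv C (T - algebraMap C K s)).mapDomain sp :=
    map_neg (Finsupp.mapDomain.addMonoidHom sp) _
  rw [h5, Finsupp.neg_apply, ← h3] at h4
  have h6 : 0 < ord x (w.red T - algebraMap (kC C) (kap w) (cred s)) := hx
  omega

theorem unrb [CharZero C] (hGR : I.GR) [CFF (kC C) (kap w)] (h : Good w T) {S : Finset C}
    (hS : SOk S) (hU : Unr T S) (c : kC C) (hc : ∀ s ∈ S, c ≠ cred s) (x : Plk (kC C) (kap w))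
    (hx : 0 < ord x (w.red T - algebraMap (kC C) (kap w) c)) :
    ord x (w.red T - algebraMap (kC C) (kap w) c) = 1 := by
  haveI := h.full.fin
  obtain ⟨h1, -, h3⟩ := br C K T w h
  haveI : Subsingleton (I.WW C T) := ⟨fun a b => Subtype.ext ((h3 a).trans (h3 b).symm)⟩
  refine (hGR C K T h1 (fun v => by rw [Subsingleton.elim v ⟨w, h.og⟩]; exact h.sep) S hS.le
    (fun s hs s' hs' e => ?_) hU.pole (fun c hc P hP => hU.fin P c hc hP)
    (Finset.sum_le_sum fun s hs => ?_)).2.2 ⟨w, h.og⟩ c hc x hx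
  · by_contra hne
    have h4 := hS.ne s hs s' hs' hne
    have h5 := Gs.cred_sub (hS.le s hs) (hS.le s' hs')
    rw [e, sub_self, cred_eq_zero h4.le, h4] at h5
    exact lt_irrefl _ h5
  · rw [Fintype.sum_subsingleton _ (⟨w, h.og⟩ : I.WW C T)]
    exact count_le h (hS.le s hs)

theorem ord_inv_sub {k F : Type} [Field k] [Field F] [Algebra k F] [CFF k F] {u : F} {a : k}
    (ha : a ≠ 0) {P : Plk k F} (hP : 0 < ord P (u - algebraMap k F a)) :
    ord P (u⁻¹ - algebraMap k F a⁻¹) = ord P (u - algebraMap k F a) := by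
  have h4 : Val P u a := mem_Mge.2 (Or.inr hP)
  obtain ⟨h5, h6⟩ := h4.unit ha
  have h7 : algebraMap k F a ≠ 0 := by rwa [Ne, map_eq_zero]
  have e : u⁻¹ - algebraMap k F a⁻¹ = algebraMap k F (-a⁻¹) * ((u - algebraMap k F a) * u⁻¹) := by
    rw [map_neg, map_inv₀]
    field_simp
    ring
  have h8 : u - algebraMap k F a ≠ 0 := by
    intro h0
    rw [h0, ord_zero] at hP
    exact lt_irrefl _ hP
  rw [e, ord_mul P (by rw [map_neg, map_inv₀]; exact neg_ne_zero.2 (inv_ne_zero h7))
    (mul_ne_zero h8 (inv_ne_zero h5)), ord_mul P h8 (inv_ne_zero h5), ord_const, ord_inv, h6]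
  simp

theorem cred_two : cred (2 : C) = 2 := by
  rw [← one_add_one_eq_two, cred_add (by simp) (by simp), cred_one, one_add_one_eq_two]

theorem cred_inv {a : C} (ha : ‖a‖ = 1) : cred a⁻¹ = (cred a)⁻¹ := by
  have h0 : a ≠ 0 := fun e => by simp [e] at ha
  refine eq_inv_of_mul_eq_one_left ?_
  rw [← cred_mul (by rw [norm_inv, ha, inv_one]) ha.le, inv_mul_cancel₀ h0, cred_one]

/-- a cover which is unramified off `2, -2, ∞` -/
theorem three [CharZero C] (hGR : I.GR) [CFF (kC C) (kap w)] (h : Good w T) (h2 : ‖(2 : C)‖ = 1)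
    (hU : ∀ (P : Plk C K) (a : C), a ≠ 2 → a ≠ -2 → 0 < ord P (T - algebraMap C K a) →
      ord P (T - algebraMap C K a) = 1) (c : kC C) (hc : c ≠ 2) (hc' : c ≠ -2)
    (x : Plk (kC C) (kap w)) (hx : 0 < ord x (w.red T - algebraMap (kC C) (kap w) c)) :
    ord x (w.red T - algebraMap (kC C) (kap w) c) = 1 := by
  classical
  obtain ⟨b', hb'⟩ := Infinite.exists_notMem_finset ({c, 2, -2} : Finset (kC C))
  obtain ⟨b, hb, rfl⟩ := cred_surj b'
  simp only [Finset.mem_insert, Finset.mem_singleton, not_or] at hb'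
  have hm : ‖(-2 : C)‖ ≤ 1 := by rw [norm_neg, h2]
  have e1 : cred (2 - b) = 2 - cred b := by rw [Gs.cred_sub h2.le hb, cred_two]
  have e2 : cred (-2 - b) = -2 - cred b := by
    rw [Gs.cred_sub hm hb, ← zero_sub (2 : C), Gs.cred_sub (by simp) h2.le, cred_zero, cred_two,
      zero_sub]
  have n1 : ‖2 - b‖ = 1 := Gs.norm_eq_one_of_cred (Gs.norm_sub_le' h2.le hb)
    (by rw [e1]; exact sub_ne_zero.2 (Ne.symm hb'.2.1))
  have n2 : ‖-2 - b‖ = 1 := Gs.norm_eq_one_of_cred (Gs.norm_sub_le' hm hb)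
    (by rw [e2]; exact sub_ne_zero.2 (Ne.symm hb'.2.2))
  have hS := Modg.sok n1 n2 (by
    rw [show 2 - b - (-2 - b) = 2 * 2 by ring, norm_mul, h2, mul_one])
  have hU' := Modg.unr_inv (u := T - algebraMap C K b) (α := 2 - b) (β := -2 - b)
    (fun e => by simp [e] at n1) (fun e => by simp [e] at n2) fun P a ha ha' => by
      rw [sub_sub, ← map_add]
      exact hU P (b + a) (fun e => ha (by rw [← e]; ring)) (fun e => ha' (by rw [← e]; ring))
  have hg := h.shift hb
  have hcb : c - cred b ≠ 0 := sub_ne_zero.2 (Ne.symm hb'.1)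
  have e3 : w.red (T - algebraMap C K b) - algebraMap (kC C) (kap w) (c - cred b) =
      w.red T - algebraMap (kC C) (kap w) c := by
    rw [(Gs.red_sub_const h.og.apply_T.le hb).2, map_sub]
    ring
  have e4 := ord_inv_sub (u := w.red (T - algebraMap C K b)) hcb (P := x) (by rwa [e3])
  rw [e3, ← NV.red_inv hg.og.apply_T] at e4
  rw [← e4]
  refine unrb hGR hg.inv hS hU' _ (fun s hs => ?_) x (by rwa [e4])
  simp only [Finset.mem_insert, Finset.mem_singleton] at hs
  rcases hs with rfl | rfl | rfl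
  · rw [cred_inv n1, e1]
    exact fun e => hc (sub_left_injective (inv_injective e))
  · rw [cred_inv n2, e2]
    exact fun e => hc' (sub_left_injective (inv_injective e))
  · rw [cred_zero]
    exact inv_ne_zero hcb

end Unrm

theorem unrm (X : Mdl) (hGR : I.GR) (hP : M.PLA X) (hM : MODG X) : UNRM X := by
  intro A O w N Γ h _ hA hw hN _ c hc hc' P hP'
  exact Unrm.three hGR (hM A O w N Γ h hA hw hN) (Modg.norm_two hA h.lv hN)
    (fun P a => hP N Γ h P a) c hc hc' P hP'

end Vale.Agent.P027M.G
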