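import Vale.Agent.P027M.G.Winf

/-!
# P027, route M, block G: the Galois action and the norm at infinity
-/

set_option linter.all false

noncomputable section

namespace Vale.Agent.P027M.G

open P025H746 HahnSeries
open Vale.Agent.P022 Vale.Agent.P022.H542.L3 Vale.Agent.P022.H218.L3 Vale.Agent.P022.H236.L3
open Vale.Agent.P027M.M (io FF cv Mdl exM_period cv_mem cv_alg cv_inj Cf)

namespace Wi

variable {A : AV} {O : ValuationSubring ℂ} {W : ValuationSubring LS} {w : NV (Qv A) FF}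

theorem w_c (c : Qb) : w (algebraMap Qb FF c) = A.a c := w.ext' c

theorem val_eq (hI : Inf O w) (hW : Wok O W) {x : FF} {N : ℕ} {s : LS} {c : Qb} (hN : 0 < N)
    (h : ExM N s (cv x)) (c0 : c ≠ 0) (e : W.valuation s = W.valuation (C (io c))) :
    w x = A.a c := by
  have h1 := h.div hN.ne' (exM_c N c)
  rw [← map_div₀] at h1
  obtain ⟨h2, h3⟩ := hI W hW N _ _ hN h1
  have h4 : W.valuation (s / C (io c)) = 1 := by
    rw [map_div₀, e, div_self ((Valuation.ne_zero_iff _).2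
      (M.Ess.C_ne ((_root_.map_ne_zero io).2 c0)))]
  have h5 : w (x / algebraMap Qb FF c) = 1 :=
    le_antisymm (h2.2 ((W.valuation_le_one_iff _).1 h4.le)) (not_lt.1 fun k => (h3.1 k).ne h4)
  rw [map_div₀, div_eq_one_iff_eq ((_root_.map_ne_zero _).2 ((_root_.map_ne_zero _).2 c0))] at h5
  exact h5.trans (w_c c)

/-- an integral function is an integral series over a primitive series -/
theorem rep (hP : M.PRIM) (hA : A.On O) (hI : Inf O w) {x : FF} (hx : w x ≤ 1) {N : ℕ} {s : LS}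
    (hN : 0 < N) (h : ExM N s (cv x)) : ∃ a b : LS, (∀ k, a.coeff k ∈ AO O) ∧
      (∀ k, b.coeff k ∈ AO O) ∧ (∃ k, b.coeff k = 1) ∧ s * b = a := by
  rcases eq_or_ne x 0 with rfl | x0
  · refine ⟨0, 1, fun k => zero_mem _, fun k => ?_, ⟨0, by simp⟩, by rw [exM_zero hN h, zero_mul]⟩
    rw [HahnSeries.coeff_one]
    split_ifs
    · exact one_mem _
    · exact zero_mem _
  · obtain ⟨W, hW⟩ := H619.L3.chev O
    obtain ⟨c, a, b, c0, c1, a0, b0, a1, b1, a2, b2, e⟩ := hP x x0 N s hN h O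
    obtain ⟨d, rfl⟩ := H116.exists_preimage io c1
    have e1 := congrArg W.valuation e
    rw [map_mul, map_mul, prim_val hW a1 a2, prim_val hW b1 b2, mul_one, mul_one] at e1
    have h1 := (W.valuation_le_one_iff _).2 ((hI W hW N x s hN h).1.1 hx)
    rw [e1, cle hA hW, ← hA] at h1
    refine ⟨_, b, fun k => ?_, fun k => ⟨b1 k, b0 k⟩, b2, e⟩
    rw [HahnSeries.C_mul_eq_smul, HahnSeries.coeff_smul, smul_eq_mul]
    exact mul_mem (show io d ∈ AO O from ⟨h1, c1⟩) (show a.coeff k ∈ AO O from ⟨a1 k, a0 k⟩)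

/-- congruent numerators and denominators -/
theorem quot_lt {s s' a a' b b' : LS} (e : s * b = a) (e' : s' * b' = a')
    (hb : W.valuation b = 1) (ha : W.valuation a ≤ 1) (h1 : W.valuation (a' - a) < 1)
    (h2 : W.valuation (b' - b) < 1) : W.valuation (s' - s) < 1 := by
  have hb' : W.valuation b' = 1 := by
    rw [show b' = b + (b' - b) by ring, Valuation.map_add_eq_of_lt_left _ (by rwa [hb]), hb]
  have h3 : (s' - s) * b * b' = (a' - a) * b - a * (b' - b) := by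
    rw [← e, ← e']
    ring
  have h4 := congrArg W.valuation h3
  rw [map_mul, map_mul, hb, hb', mul_one, mul_one] at h4
  rw [h4]
  refine lt_of_le_of_lt (W.valuation.map_sub _ _) (max_lt ?_ ?_)
  · rwa [map_mul, hb, mul_one]
  · rw [map_mul]
    exact lt_of_le_of_lt (mul_le_of_le_one_left' ha) h2

theorem exists_sig (g : GQ) : ∃ σ : ℂ ≃+* ℂ, (∀ a, σ (io a) = io (g a)) ∧
    ∀ s s', Cf g s s' → s' = cm σ s := by
  obtain ⟨σ, hσ⟩ := H116.exists_lift (io : Qb →+* ℂ) (g : Qb ≃+* Qb)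
  refine ⟨σ, hσ, fun s s' h => ?_⟩
  ext n
  obtain ⟨a, e1, e2⟩ := h n
  rw [coeff_cm, e1, e2]
  exact (hσ a).symm

theorem sig_mem (hA : A.On O) {g : GQ} {σ : ℂ ≃+* ℂ} (hσ : ∀ a, σ (io a) = io (g a))
    (hg : ∀ c, A.a (g c) = A.a c) (z : ℂ) (h : z ∈ O) (k : IsAlgebraic ℚ z) : σ z ∈ O := by
  obtain ⟨d, rfl⟩ := H116.exists_preimage io k
  rwa [hσ, hA, hg, ← hA]

theorem sig_lt (hA : A.On O) {g : GQ} {σ : ℂ ≃+* ℂ} (hσ : ∀ a, σ (io a) = io (g a)) {q : ℕ}
    (hg : ∀ c, A.a c ≤ 1 → A.a (g c - c ^ q) < 1) (z : ℂ) (h : z ∈ O) (k : IsAlgebraic ℚ z) :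
    O.valuation (σ z - z ^ q) < 1 := by
  obtain ⟨d, rfl⟩ := H116.exists_preimage io k
  rw [hσ, ← map_pow, ← map_sub, lt_iff hA]
  exact hg d ((hA d).1 h)

/-- Frobenius elements and inertia elements are isometries -/
theorem iso_of {g : GQ} {q : ℕ} (hq : q ≠ 0) (hg : ∀ c, A.a c ≤ 1 → A.a (g c - c ^ q) < 1)
    (c : Qb) : A.a (g c) = A.a c := by
  have h0 : ∀ x, A.a (g x) ≤ max (A.a (g x - x ^ q)) (A.a x ^ q) := fun x => by
    have := A.na (g x - x ^ q) (x ^ q)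
    rwa [sub_add_cancel, map_pow] at this
  refine A.inv (g : Qb ≃+* Qb) (fun x => ⟨fun h => not_lt.1 fun k => ?_, fun h => ?_⟩) c
  · have h1 : A.a x⁻¹ < 1 := by
      rw [map_inv₀]
      exact inv_lt_one_of_one_lt₀ k
    have h2 := (h0 _).trans_lt (max_lt (hg _ h1.le) (pow_lt_one₀ (A.a.nonneg _) h1 hq))
    have x0 : x ≠ 0 := fun e => by
      rw [e, map_zero] at k
      exact absurd k (by norm_num)
    rw [map_inv₀, map_inv₀, inv_lt_one₀ (A.a.pos ((_root_.map_ne_zero g).2 x0))] at h2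
    exact absurd h (not_le.2 h2)
  · exact (h0 x).trans (max_le (hg x h).le (pow_le_one₀ (A.a.nonneg _) h))

theorem gal_iso (hP : M.PRIM) (X : Mdl) (hA : A.On O) (hI : Inf O w) {g : GQ}
    (hg : ∀ c, A.a (g c) = A.a c) (x : FF) : w (X.gal g x) = w x := by
  rcases eq_or_ne x 0 with rfl | x0
  · rw [map_zero]
  obtain ⟨W, hW⟩ := H619.L3.chev O
  obtain ⟨σ, hσ, hs⟩ := exists_sig g
  obtain ⟨N, hN, s, s', h, h', k⟩ := X.gal_spec g x
  obtain rfl := hs _ _ k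
  obtain ⟨c, a, b, c0, c1, a0, b0, a1, b1, a2, b2, e⟩ := hP x x0 N s hN h O
  obtain ⟨d, rfl⟩ := H116.exists_preimage io c1
  have d0 : d ≠ 0 := fun e => c0 (by rw [e, map_zero])
  have e1 := congrArg W.valuation e
  rw [map_mul, map_mul, prim_val hW a1 a2, prim_val hW b1 b2, mul_one, mul_one] at e1
  have p : ∀ z : LS, (∀ k, IsAlgebraic ℚ (z.coeff k)) → (∀ k, z.coeff k ∈ O) →
      (∃ k, z.coeff k = 1) → W.valuation (cm σ z) = 1 := fun z z0 z1 ⟨k, z2⟩ =>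
    prim_val hW (fun k => sig_mem hA hσ hg _ (z1 k) (z0 k)) ⟨k, by rw [coeff_cm, z2, map_one]⟩
  have e2 := congrArg (fun z => W.valuation (cm σ z)) e
  simp only [map_mul, cm_C] at e2
  rw [p a a0 a1 a2, p b b0 b1 b2, mul_one, mul_one, hσ] at e2
  rw [val_eq hI hW hN h d0 e1, val_eq hI hW hN h' ((_root_.map_ne_zero g).2 d0) e2, hg]

theorem gal_ine (hP : M.PRIM) (X : Mdl) (hA : A.On O) (hI : Inf O w) {g : GQ}
    (hg : ∀ c, A.a c ≤ 1 → A.a (g c - c) < 1) (x : FF) (hx : w x ≤ 1) :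
    w (X.gal g x - x) < 1 := by
  obtain ⟨W, hW⟩ := H619.L3.chev O
  obtain ⟨σ, hσ, hs⟩ := exists_sig g
  obtain ⟨N, hN, s, s', h, h', k⟩ := X.gal_spec g x
  obtain rfl := hs _ _ k
  obtain ⟨a, b, a1, b1, b2, e⟩ := rep hP hA hI hx hN h
  have p : ∀ z : LS, (∀ k, z.coeff k ∈ AO O) → W.valuation (cm σ z - z) < 1 := fun z z1 =>
    hW.max _ fun k => by
      have := sig_lt hA hσ (q := 1) (by simpa using hg) _ (z1 k).1 (z1 k).2
      rwa [pow_one] at this
  refine (hI W hW N _ _ hN (exM_sub h' h)).2.2 (quot_lt e ?_ (prim_val hW (fun k => (b1 k).1) b2)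
    (val_le hW fun k => (a1 k).1) (p a a1) (p b b1))
  rw [← map_mul, e]

end Wi

theorem wgal' (X : Mdl) (hP : M.PRIM) : WGAL X := fun _ _ _ hA hI _ hg =>
  ⟨Wi.gal_iso hP X hA hI hg, Wi.gal_ine hP X hA hI⟩

theorem wgal (X : Mdl) (hP : M.PRIM) (_ : M.CF) (_ : M.GALX X) : WGAL X := wgal' X hP

end Vale.Agent.P027M.G
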