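import Vale.Agent.P027M.G.Mod0
import Vale.Agent.P027M.M.Ess

/-!
# P027, route M, block G: the norm at infinity
-/

set_option linter.all false

noncomputable section

namespace Vale.Agent.P027M.G

open P025H746 HahnSeries
open Vale.Agent.P022 Vale.Agent.P022.H542.L3 Vale.Agent.P022.H218.L3 Vale.Agent.P022.H236.L3
open Vale.Agent.P027M.M (io FF cv Mdl exM_period cv_mem cv_alg cv_inj)

namespace Wi

variable {A : AV} {O : ValuationSubring ℂ} {W : ValuationSubring LS}

theorem cC_mem {z : ℂ} (h : z ∈ O) (n : ℤ) : (C z : LS).coeff n ∈ O := by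
  rw [HahnSeries.C_apply, HahnSeries.coeff_single]
  split_ifs
  · exact h
  · exact zero_mem _

theorem cC_lt {z : ℂ} (h : O.valuation z < 1) (n : ℤ) : O.valuation ((C z : LS).coeff n) < 1 := by
  rw [HahnSeries.C_apply, HahnSeries.coeff_single]
  split_ifs
  · exact h
  · rw [map_zero]
    exact zero_lt_one

theorem lt_iff (hA : A.On O) (c : Qb) : O.valuation (io c) < 1 ↔ A.a c < 1 := by
  rcases eq_or_ne c 0 with rfl | h
  · simp
  · rw [← ValuationSubring.mem_nonunits_iff, ValuationSubring.mem_nonunits_iff_or, ← map_inv₀,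
      hA, or_iff_right ((_root_.map_ne_zero io).2 h), map_inv₀, not_le, one_lt_inv₀ (A.a.pos h)]

theorem cle (hA : A.On O) (hW : Wok O W) (c : Qb) :
    W.valuation (C (io c)) ≤ 1 ↔ A.a c ≤ 1 := by
  refine ⟨fun h => not_lt.1 fun k => ?_,
    fun h => (W.valuation_le_one_iff _).2 (hW.mem _ (cC_mem ((hA c).2 h)))⟩
  have h1 : A.a c⁻¹ < 1 := by
    rw [map_inv₀]
    exact inv_lt_one_of_one_lt₀ k
  have h2 := hW.max _ (cC_lt ((lt_iff hA _).2 h1))
  have c0 : c ≠ 0 := fun e => by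
    rw [e, map_zero] at k
    exact absurd k (by norm_num)
  have h3 := lt_of_le_of_lt (mul_le_of_le_one_left' h) h2
  rw [← map_mul, ← map_mul, ← map_mul, mul_inv_cancel₀ c0, map_one, map_one, map_one] at h3
  exact lt_irrefl _ h3

theorem clt (hA : A.On O) (hW : Wok O W) (c : Qb) :
    W.valuation (C (io c)) < 1 ↔ A.a c < 1 := by
  refine ⟨fun h => not_le.1 fun k => ?_, fun h => hW.max _ (cC_lt ((lt_iff hA _).2 h))⟩
  have h1 : A.a c⁻¹ ≤ 1 := by
    rw [map_inv₀]
    exact inv_le_one_of_one_le₀ k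
  have c0 : c ≠ 0 := fun e => by
    rw [e, map_zero] at k
    exact absurd k (by norm_num)
  have h3 := lt_of_le_of_lt (mul_le_of_le_one_left' ((cle hA hW _).2 h1)) h
  rw [← map_mul, ← map_mul, ← map_mul, inv_mul_cancel₀ c0, map_one, map_one, map_one] at h3
  exact lt_irrefl _ h3

theorem cle2 (hA : A.On O) (hW : Wok O W) (c d : Qb) :
    W.valuation (C (io c)) ≤ W.valuation (C (io d)) ↔ A.a c ≤ A.a d := by
  rcases eq_or_ne d 0 with rfl | h
  · rw [map_zero, map_zero, map_zero, map_zero, le_zero_iff, Valuation.zero_iff,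
      _root_.map_eq_zero, _root_.map_eq_zero, AbsoluteValue.nonpos_iff]
  · have h1 : 0 < W.valuation (C (io d)) :=
      (Valuation.pos_iff _).2 (M.Ess.C_ne ((_root_.map_ne_zero io).2 h))
    rw [← div_le_one₀ h1, ← div_le_one₀ (A.a.pos h), ← map_div₀, ← map_div₀, ← map_div₀,
      ← map_div₀, cle hA hW]

theorem ceq (hA : A.On O) (hW : Wok O W) {c d : Qb}
    (h : W.valuation (C (io c)) = W.valuation (C (io d))) : A.a c = A.a d :=
  le_antisymm ((cle2 hA hW _ _).1 h.le) ((cle2 hA hW _ _).1 h.ge)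

theorem val_le (hW : Wok O W) {a : LS} (h : ∀ n, a.coeff n ∈ O) : W.valuation a ≤ 1 :=
  (W.valuation_le_one_iff _).2 (hW.mem _ h)

theorem prim_val (hW : Wok O W) {a : LS} (h : ∀ n, a.coeff n ∈ O) (h1 : ∃ n, a.coeff n = 1) :
    W.valuation a = 1 := by
  refine le_antisymm (val_le hW h) ?_
  have h0 := ne_zero_of_coeff h1
  obtain ⟨n, hn⟩ := h1
  have h2 := (W.valuation_le_one_iff _).2 (hW.inv _ h
    ⟨n, by rw [hn, inv_one]; exact one_mem _, by rw [hn]; exact one_ne_zero⟩)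
  rwa [map_inv₀, inv_le_one₀ ((Valuation.pos_iff _).2 h0)] at h2

theorem exM_zero {N : ℕ} {s : LS} (hN : 0 < N) (h : ExM N s (cv 0)) : s = 0 := by
  have h1 := ExM.const N 0
  rw [map_zero, map_zero] at h1
  rw [map_zero] at h
  exact h.unique hN.ne' h1

theorem exM_c (N : ℕ) (c : Qb) : ExM N (C (io c)) (cv (algebraMap Qb FF c)) := by
  rw [cv_alg]
  exact ExM.const N _

theorem exM_sub {N : ℕ} {s r : LS} {x y : FF} (h : ExM N s (cv x)) (k : ExM N r (cv y)) :
    ExM N (s - r) (cv (x - y)) := by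
  have h1 := h.add ((ExM.const N (-1)).mul k)
  have e : s + C (-1 : ℂ) * r = s - r := by rw [map_neg, map_one]; ring
  rw [e, map_neg, map_one, neg_one_mul, ← sub_eq_add_neg] at h1
  rwa [map_sub]

theorem exM_pow {N : ℕ} {s : LS} {x : FF} (h : ExM N s (cv x)) (n : ℕ) :
    ExM N (s ^ n) (cv (x ^ n)) := by
  induction n with
  | zero =>
    have h1 := exM_c N 1
    rwa [map_one, map_one, map_one, ← pow_zero s, ← pow_zero x] at h1
  | succ n ih =>
    rw [pow_succ, pow_succ, map_mul]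
    exact ih.mul h

theorem exists_ex (x : FF) : ∃ N, 0 < N ∧ ∃ s, ExM N s (cv x) := by
  obtain ⟨N, hN, -, s, h, -⟩ := cv_mem x
  exact ⟨N, hN, s, h⟩

theorem exists_ex2 (x y : FF) : ∃ N, 0 < N ∧ ∃ s r, ExM N s (cv x) ∧ ExM N r (cv y) := by
  obtain ⟨N, hN, s, h⟩ := exists_ex x
  obtain ⟨K, hK, r, k⟩ := exists_ex y
  have k1 := exM_period hN hK.ne' k
  rw [mul_comm] at k1
  exact ⟨N * K, Nat.mul_pos hN hK, _, _, exM_period hK hN.ne' h, k1⟩

/-- the valuation of an expansion in one period -/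
theorem key0 (hP : M.PRIM) (O : ValuationSubring ℂ) {x : FF} {N : ℕ} {s : LS} (hN : 0 < N)
    (h : ExM N s (cv x)) : ∃ c : Qb, (x ≠ 0 → c ≠ 0) ∧ ∀ W, Wok O W → ∀ (m : ℕ) (hm : 0 < m),
      W.valuation (sb m hm s) = W.valuation (C (io c)) := by
  rcases eq_or_ne x 0 with rfl | x0
  · refine ⟨0, fun e => absurd rfl e, fun W _ m hm => ?_⟩
    rw [exM_zero hN h]
    simp only [map_zero]
  · obtain ⟨c, a, b, c0, c1, -, -, a1, b1, a2, b2, e⟩ := hP x x0 N s hN h O
    obtain ⟨c, rfl⟩ := H116.exists_preimage io c1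
    refine ⟨c, fun _ e => c0 (by rw [e, map_zero]), fun W hW m hm => ?_⟩
    have e1 := congrArg (fun z => W.valuation (sb m hm z)) e
    simp only [map_mul, sb_C] at e1
    rwa [prim_val hW (sb_mem m hm a1) (sb_one_coeff m hm a2),
      prim_val hW (sb_mem m hm b1) (sb_one_coeff m hm b2), mul_one, mul_one] at e1

theorem sb_one (s : LS) : sb 1 one_pos s = s := by
  ext n
  simpa using coeff_sb_mul 1 one_pos s n

/-- the valuation of the expansions does not depend on the period -/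
theorem key (hP : M.PRIM) (O : ValuationSubring ℂ) (x : FF) : ∃ c : Qb, (x ≠ 0 → c ≠ 0) ∧
    ∀ W, Wok O W → ∀ (N : ℕ) (s : LS), 0 < N → ExM N s (cv x) →
      W.valuation s = W.valuation (C (io c)) := by
  obtain ⟨K, hK, r, k⟩ := exists_ex x
  obtain ⟨c, c0, hc⟩ := key0 hP O hK k
  refine ⟨c, c0, fun W hW N s hN h => ?_⟩
  obtain ⟨d, -, hd⟩ := key0 hP O hN h
  have k1 := exM_period hN hK.ne' k
  rw [mul_comm] at k1
  have e := (exM_period hK hN.ne' h).unique (Nat.mul_pos hN hK).ne' k1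
  rw [← hc W hW N hN, ← e, hd W hW K hK, ← hd W hW 1 one_pos, sb_one]

end Wi

open Wi in
theorem winf (hP : M.PRIM) : WINF := by
  intro A O hA
  choose c c0 hc using key hP O
  obtain ⟨W, hW⟩ := H619.L3.chev O
  have hmul : ∀ x y, A.a (c (x * y)) = A.a (c x) * A.a (c y) := fun x y => by
    obtain ⟨N, hN, s, r, h, k⟩ := exists_ex2 x y
    rw [← map_mul]
    refine ceq hA hW ?_
    rw [← hc _ W hW N _ hN (by rw [map_mul]; exact h.mul k), map_mul, map_mul, map_mul, map_mul,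
      hc _ W hW N _ hN h, hc _ W hW N _ hN k]
  have hna : ∀ x y, A.a (c (x + y)) ≤ max (A.a (c x)) (A.a (c y)) := fun x y => by
    obtain ⟨N, hN, s, r, h, k⟩ := exists_ex2 x y
    have h1 := W.valuation.map_add s r
    rw [hc _ W hW N _ hN (show ExM N (s + r) (cv (x + y)) by rw [map_add]; exact h.add k),
      hc _ W hW N _ hN h, hc _ W hW N _ hN k, le_max_iff, cle2 hA hW, cle2 hA hW] at h1
    exact le_max_iff.2 h1
  have hext : ∀ a : Qb, A.a (c (algebraMap Qb FF a)) = A.a a := fun a =>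
    ceq hA hW (hc _ W hW 1 _ one_pos (exM_c 1 a)).symm
  have h0 : ∀ x, A.a (c x) = 0 ↔ x = 0 := fun x => by
    refine ⟨fun h => by_contra fun e => c0 x e (A.a.eq_zero.1 h), fun h => ?_⟩
    have h1 := hext 0
    rwa [map_zero, map_zero, ← h] at h1
  refine ⟨⟨⟨⟨fun x => A.a (c x), hmul⟩, fun x => A.a.nonneg _, h0, fun x y => (hna x y).trans
    (max_le_add_of_nonneg (A.a.nonneg _) (A.a.nonneg _))⟩, hna, hext⟩, fun V hV N x s hN h => ?_⟩
  change (A.a (c x) ≤ 1 ↔ _) ∧ (A.a (c x) < 1 ↔ _)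
  rw [← V.valuation_le_one_iff, hc _ V hV N _ hN h, cle hA hV, clt hA hV]
  exact ⟨Iff.rfl, Iff.rfl⟩

end Vale.Agent.P027M.G
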