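import Vale.Agent.P027M.G.Ga
import Vale.Agent.P027M.G.Res
import Vale.Agent.P027M.G.Gb
import Vale.Agent.P027M.G.Exp
import Vale.Agent.P027M.G.Plc0
import Vale.Agent.P027M.G.Chart
import Vale.Agent.P027M.G.Chb
import Vale.Agent.P027M.G.Ave
import Vale.Agent.P027M.G.Winf
import Vale.Agent.P027M.G.Wgal
import Vale.Agent.P027M.G.Galt0
import Vale.Agent.P027M.G.Cuspm
import Vale.Agent.P027M.G.Keym
import Vale.Agent.P027M.G.Atlm
import Vale.Agent.P027M.G.Unrm
import Vale.Agent.P027M.I.All0
import Vale.Agent.P027M.D.GeoAll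
import Vale.Agent.P027M.M.All1

/-!
# P027, route M, block G: closed terms
-/

set_option linter.all false

namespace Vale.Agent.P027M.G

open Vale.Agent.P027M.M (Mdl)

theorem g_ga : GA := ga res

theorem g_gb : GB := gb g_ga I.gr'

theorem g_exp : EXP := exp g_ga plc0

theorem g_chart : CHART := chart surj

theorem g_chb : CHB := chb uniq D.sepb D.movg0

theorem g_winf : WINF := winf M.x_prim

theorem g_wgal (X : Mdl) : WGAL X := wgal X M.x_prim M.cf2 (M.x_galx X)

theorem g_galt (X : Mdl) : GALT X := galt0 X M.grp (M.artin X)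

theorem g_cuspm (X : Mdl) : CUSPM X := cuspm X M.grp M.exp M.ser0 M.ser M.good (g_galt X)

theorem g_modg (X : Mdl) : MODG X :=
  modg X g_gb g_exp M.grp (M.artin X) M.x_cffs (M.x_pla X) (g_galt X) (g_cuspm X)

theorem g_unrm (X : Mdl) : UNRM X := unrm X I.gr' (M.x_pla X) (g_modg X)

theorem g_atlm (X : Mdl) : ATLM X :=
  atlm X ave g_winf (g_wgal X) (g_modg X) (M.x_galx X) g_chart g_chb

theorem g_key : M.KEY := by
  obtain ⟨X⟩ := M.mdl
  exact keym X M.grp g_winf (g_modg X)

end Vale.Agent.P027M.G
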