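import Vale.Agent.P027M.G.Key
import Vale.Agent.P027M.I.Spec

/-!
# P027 route M, block G: reduction of Kummer classes, `SUB`
-/

set_option linter.all false

noncomputable section

universe u

namespace Vale.Agent.P027M.Gs

open Polynomial IntermediateField P025H373 P025H746 Vale.Agent.P019P P025H492 P027M.K P025H816

section

variable {C K : Type u} [NontriviallyNormedField C] [IsUltrametricDist C] [IsAlgClosed C]
  [Field K] [Algebra C K] [CFF C K] {w : NV C K} {T : K} [CFF (kC C) (kap w)]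

theorem IsSp.dvd {s : Plk C K → Plk (kC C) (kap w)} (hs : IsSp w s) {m : ℤ} {f : K} (hf : w f = 1)
    (h : ∀ P : Plk C K, m ∣ Vale.Agent.P019P.ord P f) (P : Plk (kC C) (kap w)) :
    m ∣ Vale.Agent.P019P.ord P (w.red f) := by
  rw [hs.ord hf, mapDomain_apply']
  exact Finset.dvd_sum fun Q _ => by rw [dv_apply]; exact h Q

theorem mk_eq_one {k F : Type u} [Field k] [Field F] [Algebra k F] [CFF k F] {m : ℕ}
    {f : divU k F m} : (QuotientGroup.mk f : HK k F m) = 1 ↔ ∃ y : F, y ^ m = ((f : Fˣ) : F) := by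
  rw [QuotientGroup.eq_one_iff, Subgroup.mem_subgroupOf, mem_powU']

/-- every class has a representative of norm one -/
theorem Full.exists_rep (h : Full w T) {m : ℕ} (hm : m ≠ 0) (a : HK C K m) :
    ∃ f : divU C K m, w ((f : Kˣ) : K) = 1 ∧ QuotientGroup.mk f = a := by
  obtain ⟨f, rfl⟩ := QuotientGroup.mk_surjective a
  obtain ⟨c, hc, h1⟩ := h.scale (f : Kˣ).ne_zero
  obtain ⟨b, hb⟩ := IsAlgClosed.exists_pow_nat_eq c (Nat.pos_of_ne_zero hm)
  have h2 : algebraMap C K c ≠ 0 := (_root_.map_ne_zero _).2 hc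
  let g : divU C K m := ⟨Units.mk0 _ h2, fun P => by rw [Units.val_mk0, ord_const]; exact dvd_zero _⟩
  have h3 : (QuotientGroup.mk g : HK C K m) = 1 :=
    mk_eq_one.2 ⟨algebraMap C K b, by rw [← map_pow, hb]; rfl⟩
  refine ⟨g * f, by rw [Algebra.smul_def] at h1; exact h1, ?_⟩
  rw [QuotientGroup.mk_mul, h3]
  exact one_mul (QuotientGroup.mk f : HK C K m)

/-- `ρ` is the reduction of Kummer classes -/
def IsRed (w : NV C K) [CFF (kC C) (kap w)] {m : ℕ} (ρ : HK C K m →* HK (kC C) (kap w) m) : Prop :=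
  ∀ (f : divU C K m) (g : divU (kC C) (kap w) m), w ((f : Kˣ) : K) = 1 →
    w.red ((f : Kˣ) : K) = ((g : (kap w)ˣ) : kap w) → ρ (QuotientGroup.mk f) = QuotientGroup.mk g

theorem Full.exists_red (h : Full w T) {m : ℕ} (hm : m ≠ 0)
    (hP : ∀ f : K, w f = 1 → (∀ P : Plk C K, (m : ℤ) ∣ ord P f) →
      ∀ P : Plk (kC C) (kap w), (m : ℤ) ∣ ord P (w.red f)) :
    ∃ ρ : HK C K m →* HK (kC C) (kap w) m, IsRed w ρ := by
  let U : Subgroup (divU C K m) :=
    { carrier := {f | w ((f : Kˣ) : K) = 1}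
      one_mem' := by simp
      mul_mem' := fun {a b} ha hb => by
        change w (((a : Kˣ) : K) * ((b : Kˣ) : K)) = 1
        rw [map_mul, show w ((a : Kˣ) : K) = 1 from ha, show w ((b : Kˣ) : K) = 1 from hb, mul_one]
      inv_mem' := fun {a} ha => by
        change w (((a : Kˣ)⁻¹ : Kˣ) : K) = 1
        rw [Units.val_inv_eq_inv_val, map_inv₀, show w ((a : Kˣ) : K) = 1 from ha, inv_one] }
  let φ : U →* HK C K m := (QuotientGroup.mk' _).comp U.subtype
  have hφ : Function.Surjective φ := fun a => by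
    obtain ⟨f, h1, h2⟩ := h.exists_rep hm a
    exact ⟨⟨f, h1⟩, h2⟩
  let r : U →* divU (kC C) (kap w) m := MonoidHom.mk'
    (fun f => ⟨Units.mk0 _ (NV.red_ne_zero f.2), hP _ f.2 f.1.2⟩)
    fun a b => Subtype.ext (Units.ext (NV.red_mul (le_of_eq a.2) (le_of_eq b.2)))
  let ψ : U →* HK (kC C) (kap w) m := (QuotientGroup.mk' _).comp r
  have hk : φ.ker ≤ ψ.ker := by
    intro f hf
    obtain ⟨y, hy⟩ := mk_eq_one.1 (show (QuotientGroup.mk f.1 : HK C K m) = 1 from hf)
    have h1 : w y = 1 := by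
      have h2 : w y ^ m = 1 := by rw [← map_pow, hy]; exact f.2
      exact (pow_eq_one_iff_of_nonneg (w.av.nonneg y) hm).1 h2
    exact (mk_eq_one (f := r f)).2 ⟨w.red y, by rw [← NV.red_pow h1.le, hy]; rfl⟩
  refine ⟨φ.liftOfSurjective hφ ⟨ψ, hk⟩, fun f g h1 h2 => ?_⟩
  have h3 : r ⟨f, h1⟩ = g := Subtype.ext (Units.ext h2)
  rw [← h3]
  exact φ.liftOfRightInverse_comp_apply _ _ ⟨ψ, hk⟩ ⟨f, h1⟩

theorem IsRed.inj {m : ℕ} {ρ : HK C K m →* HK (kC C) (kap w) m} (hρ : IsRed w ρ) (h : Full w T)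
    (hm : m ≠ 0) (hP : ∀ f : K, w f = 1 → (∀ P : Plk C K, (m : ℤ) ∣ ord P f) →
      ∀ P : Plk (kC C) (kap w), (m : ℤ) ∣ ord P (w.red f))
    (hK : ∀ f : K, w f = 1 → (∀ P : Plk C K, (m : ℤ) ∣ ord P f) → ∀ y, y ^ m = w.red f →
      ∃ z, z ^ m = f) : Function.Injective ρ := by
  rw [injective_iff_map_eq_one]
  intro a ha
  obtain ⟨f, h1, rfl⟩ := h.exists_rep hm a
  rw [hρ f ⟨Units.mk0 _ (NV.red_ne_zero h1), hP _ h1 f.2⟩ h1 rfl, mk_eq_one] at ha
  obtain ⟨y, hy⟩ := ha
  exact mk_eq_one.2 (hK _ h1 f.2 y hy)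

theorem natCast_ne_up {m : ℕ} (hm : (m : kC C) ≠ 0) : (m : C) ≠ 0 := by
  intro h
  have h1 : ‖(m : C)‖ ≤ 1 := by rw [h]; simp
  have h2 : cred (m : C) = m := by
    rw [cred_of h1]
    exact map_natCast (IsLocalRing.residue (OC C)) m
  rw [h, cred_zero] at h2
  exact hm h2.symm

/-- **RED**: the reduction of the torsion prime to `p` is bijective -/
theorem Gd.exists_red (h : Gd w T) {m : ℕ} (hm : (m : kC C) ≠ 0) :
    ∃ ρ : HK C K m →* HK (kC C) (kap w) m, IsRed w ρ ∧ Function.Bijective ρ := by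
  have hm0 : m ≠ 0 := by rintro rfl; simp at hm
  obtain ⟨s, hs⟩ := h.exists_sp
  obtain ⟨ρ, hρ⟩ := h.toFull.exists_red hm0 fun f h1 h2 => hs.dvd h1 h2
  have h1 := card_HK (k := kC C) (F := kap w) hm
  haveI : Finite (HK (kC C) (kap w) m) := Nat.finite_of_card_ne_zero (by rw [h1]; positivity)
  exact ⟨ρ, hρ, (Nat.bijective_iff_injective_and_card ρ).2 ⟨hρ.inj h.toFull hm0
    (fun f h1 h2 => hs.dvd h1 h2) fun f h1 h2 y hy => h.key hm h1 h2 hy,
    by rw [h1, card_HK (natCast_ne_up hm), h.gen_eq]⟩⟩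

end

section sub

variable {C L K : Type u} [NontriviallyNormedField C] [IsUltrametricDist C] [IsAlgClosed C]
  [Field L] [Field K] [Algebra C L] [Algebra C K] [Algebra L K] [IsScalarTower C L K]
  [CFF C L] [CFF C K] [FiniteDimensional L K] {w : NV C K} {T : L} {v : NV C L} [NVExt v w]

theorem Full.sub (h : Full w (algebraMap L K T)) :
    Full v T ∧ Module.finrank (kap v) (kap w) = Module.finrank L K := by
  have h1 : v.OverG T := NVExt.overG.1 h.og
  haveI : FiniteDimensional C⟮T⟯ L := CFld_finite h1.transc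
  have h2 := finrank_mul_resdeg (w := v) (v := w) h1.apply_T.le
  rw [h.deg_eq, finrank_up] at h2
  have h3 := sum_finrank_le (T := T) (fun _ : Unit => v) (fun _ _ _ => rfl) (fun _ => h1)
  have h4 := sum_resdeg_le v (fun x => P025H746.exists_norm_eq h1 x) (fun _ : Unit => w)
    (fun _ _ _ => rfl)
  simp only [Finset.univ_unique, Finset.sum_singleton] at h3 h4
  have h5 : 0 < Module.finrank L K := Module.finrank_pos
  have h6 : 0 < Module.finrank C⟮T⟯ L := Module.finrank_pos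
  refine ⟨⟨h1, ?_⟩, le_antisymm h4 ?_⟩
  · exact Nat.le_of_mul_le_mul_right (h2.ge.trans (Nat.mul_le_mul_left _ h4)) h5
  · exact Nat.le_of_mul_le_mul_left (h2.ge.trans (Nat.mul_le_mul_right _ h3)) h6

/-- good reduction descends -/
theorem Gd.sub [CFF (kC C) (kap w)] [CFF (kC C) (kap v)] (h : Gd w (algebraMap L K T)) :
    Gd v T := by
  obtain ⟨h1, h2⟩ := h.toFull.sub (v := v)
  haveI : FiniteDimensional (kap v) (kap w) :=
    FiniteDimensional.of_finrank_pos (h2 ▸ Module.finrank_pos)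
  obtain ⟨s, hs⟩ := h.exists_sp
  obtain ⟨m, hm1, hm⟩ := Nat.exists_infinite_primes (max (Module.finrank L K) (ringChar (kC C)) + 1)
  have h3 : Module.finrank L K < m := lt_of_le_of_lt (le_max_left _ _) hm1
  have h4 : (m : kC C) ≠ 0 := fun e => by
    rcases hm.eq_one_or_self_of_dvd _ ((ringChar.spec _ _).1 e) with e1 | e1
    · exact CharP.ringChar_ne_one e1
    · have := le_max_right (Module.finrank L K) (ringChar (kC C))
      omega
  have hup : ∀ f : L, (∀ P : Plk C L, (m : ℤ) ∣ ord P f) →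
      ∀ Q : Plk C K, (m : ℤ) ∣ ord Q (algebraMap L K f) := fun f hf Q => by
    rw [ord_algebraMap]; exact (hf _).mul_left _
  have hw : ∀ f : L, w (algebraMap L K f) = v f := NVExt.out
  have hP : ∀ f : L, v f = 1 → (∀ P : Plk C L, (m : ℤ) ∣ ord P f) →
      ∀ P : Plk (kC C) (kap v), (m : ℤ) ∣ ord P (v.red f) := by
    intro f h5 h6 P
    obtain ⟨Q, rfl⟩ := P025H492.exists_over (L := kap w) P
    have h7 := hs.dvd ((hw f).trans h5) (hup f h6) Q
    rw [red_algebraMap' (w := v) h5.le, ord_algebraMap] at h7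
    refine ((Nat.prime_iff_prime_int.1 hm).dvd_or_dvd h7).resolve_left fun h8 => ?_
    have h9 := Nat.le_of_dvd (ram_pos Q) (Int.natCast_dvd_natCast.1 h8)
    have h10 := Finset.single_le_sum (f := fun Q' : Plk (kC C) (kap w) => ram (kap v) Q')
      (fun _ _ => Nat.zero_le _) (mem_over.2 (rfl : down (kap v) Q = down (kap v) Q))
    rw [sum_ram] at h10
    omega
  obtain ⟨ρ, hρ⟩ := h1.exists_red hm.ne_zero hP
  have h5 := hρ.inj h1 hm.ne_zero hP fun f h5 h6 y hy => by
    obtain ⟨z, hz⟩ := h.key h4 ((hw f).trans h5) (hup f h6) (y := algebraMap (kap v) (kap w) y)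
      (by rw [← map_pow, hy, red_algebraMap' (w := v) h5.le])
    by_contra h7
    push Not at h7
    have h8 := minpoly.eq_of_irreducible_of_monic (X_pow_sub_C_irreducible_of_prime hm h7)
      (x := z) (by simp [hz]) (monic_X_pow_sub_C f hm.ne_zero)
    have h9 := minpoly.natDegree_le (A := L) z
    rw [← h8, natDegree_X_pow_sub_C] at h9
    omega
  have h6 := card_HK (k := kC C) (F := kap v) h4
  haveI : Finite (HK (kC C) (kap v) m) :=
    Nat.finite_of_card_ne_zero (by rw [h6]; exact pow_ne_zero _ hm.ne_zero)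
  have h7 := Nat.card_le_card_of_injective ρ h5
  rw [h6, card_HK (natCast_ne_up h4), pow_le_pow_iff_right₀ hm.one_lt] at h7
  exact ⟨h1, by omega⟩

end sub

theorem sep_down {k F L : Type*} [Field k] [Field F] [Field L] [Algebra k F] [Algebra k L]
    [Algebra F L] [IsScalarTower k F L] (x : F) [Algebra.IsSeparable k⟮algebraMap F L x⟯ L] :
    Algebra.IsSeparable k⟮x⟯ F := by
  have h : k⟮x⟯.map (IsScalarTower.toAlgHom k F L) = k⟮algebraMap F L x⟯ := by
    rw [adjoin_map, Set.image_singleton]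
    rfl
  let e := ((k⟮x⟯.equivMap (IsScalarTower.toAlgHom k F L)).trans (equivOfEq h)).toRingEquiv
  haveI : Algebra.IsSeparable k⟮x⟯ L :=
    Algebra.IsSeparable.of_equiv_equiv e.symm (RingEquiv.refl L) (by
      refine RingHom.ext fun y => ?_
      obtain ⟨y, rfl⟩ := e.surjective y
      change algebraMap k⟮x⟯ L (e.symm (e y)) = _
      rw [e.symm_apply_apply]
      rfl)
  exact Algebra.isSeparable_tower_bot_of_isSeparable k⟮x⟯ F L

end Vale.Agent.P027M.Gs

namespace Vale.Agent.P027M.G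

open P025H746 P025H816 Vale.Agent.P019P IntermediateField

/-- good reduction descends to every subfield -/
theorem Good.sub {C L K : Type} [NontriviallyNormedField C] [IsUltrametricDist C] [IsAlgClosed C]
    [Field L] [Field K] [Algebra C L] [Algebra C K] [Algebra L K] [IsScalarTower C L K]
    [CFF C L] [CFF C K] [FiniteDimensional L K] {w : NV C K} {T : L} (v : NV C L) [NVExt v w]
    (h : Good w (algebraMap L K T)) : Good v T := by
  haveI := h.cff
  obtain ⟨h1, -⟩ := h.full.sub (v := v)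
  refine ⟨h1.og, h1.deg_eq, ?_, (h.gd.sub (v := v)).gn⟩
  have h2 := h.sep
  rw [red_algebraMap' (w := v) h1.wT.le] at h2
  exact Gs.sep_down (L := kap w) _

theorem sub : SUB := fun _ L _ _ _ _ _ _ _ _ _ _ _ _ _ _ _ _ _ w _ _ h _ _ _ => h.sub (w.comap L)

/-- from the letters of block I -/
theorem gd_of_cd {C F : Type} [NontriviallyNormedField C] [IsUltrametricDist C] [IsAlgClosed C]
    [Field F] [Algebra C F] [CFF C F] {T : F} [FiniteDimensional C⟮T⟯ F] (h : I.Full C T)
    (hc : I.cd C T ≤ 0) [Subsingleton (I.WW C T)] (w : I.WW C T) : Gs.Gd w.1 T := by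
  unfold I.Full at h
  unfold I.cd at hc
  rw [Fintype.sum_subsingleton _ w] at h hc
  exact ⟨⟨w.2, h.ge⟩, by omega⟩

theorem ikey (H : I.SURJ) : I.KEY := by
  intro C F _ _ _ _ _ _ _ T _ h hc m hm f hf ht
  haveI := ((H C F T h).2 hc.le).1
  have hm0 : m ≠ 0 := by rintro rfl; simp at hm
  obtain ⟨w⟩ : Nonempty (I.WW C T) := by
    by_contra hn
    rw [not_nonempty_iff] at hn
    unfold I.Full at h
    rw [Fintype.sum_empty] at h
    exact (Module.finrank_pos (R := C⟮T⟯) (M := F)).ne h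
  obtain ⟨z, hz⟩ := ht w
  have e : f * z ^ m = 1 + (f * z ^ m - 1) := by ring
  have h2 : w.1.red (f * z ^ m) = 1 := by
    rw [e, NV.red_add (by simp) hz.le, NV.red_of_lt hz, NV.red_one, add_zero]
  have h3 := Gs.w_eq_one (show w.1 (f * z ^ m) ≤ 1 by rw [e]; exact NV.add_le (by simp) hz.le)
    (h2 ▸ one_ne_zero)
  have h4 := Gs.ne_of_w h3
  have h5 : z ≠ 0 := fun e => by rw [e, zero_pow hm0, mul_zero] at h4; exact h4 rfl
  obtain ⟨y, hy⟩ := (gd_of_cd h hc.le w).key hm h3 (fun P => by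
    rw [ord_mul P (left_ne_zero_of_mul h4) (pow_ne_zero m h5), ord_pow]
    exact dvd_add (hf P) (Dvd.intro _ rfl)) (y := 1) (by rw [one_pow, h2])
  exact ⟨y / z, by rw [div_pow, hy, mul_div_cancel_right₀ _ (pow_ne_zero m h5)]⟩

end Vale.Agent.P027M.G
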