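import Vale.Agent.P025.R2.H746.Stab
import Vale.Agent.P025.R2.H492.Line
import Vale.Agent.P025.R2.H492.Ext5
import Vale.Agent.P025.R2.H816.HK
import Vale.Agent.P022.H619.L3.Chev
import Vale.Agent.P022.H20.GalDef

/-!
# P027, route M, block G: good reduction of a Galois cover of the line and of its subcovers
-/

set_option linter.all false

noncomputable section

namespace Vale.Agent.P027M.G

open Polynomial IntermediateField Module P025H373 P025H746 Vale.Agent.P019P P025H492 P025H816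
open Vale.Agent.P022 Vale.Agent.P022.H542.L3

section defs

variable {C K : Type} [NontriviallyNormedField C] [IsUltrametricDist C] [Field K] [Algebra C K]

/-- good reduction at `w` -/
structure Good [CFF C K] (w : NV C K) (T : K) : Prop where
  og : w.OverG T
  deg : finrank (kC C)⟮w.red T⟯ (kap w) = finrank C⟮T⟯ K
  sep : Algebra.IsSeparable (kC C)⟮w.red T⟯ (kap w)
  gen : ∀ [CFF (kC C) (kap w)], gen C K ≤ gen (kC C) (kap w)

/-- the residue degrees add up to the degree -/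
def Full (C : Type) {K : Type} [NontriviallyNormedField C] [IsUltrametricDist C] [Field K]
    [Algebra C K] (T : K) [FiniteDimensional C⟮T⟯ K] : Prop :=
  ∑ w : {w : NV C K // w.OverG T}, finrank (kC C)⟮w.1.red T⟯ (kap w.1) = finrank C⟮T⟯ K

/-- no genus is lost -/
def GenLe (C : Type) {K : Type} [NontriviallyNormedField C] [IsUltrametricDist C] [IsAlgClosed C]
    [Field K] [Algebra C K] [CFF C K] (T : K) [FiniteDimensional C⟮T⟯ K] : Prop :=
  (gen C K : ℤ) - 1 ≤ ∑ w : {w : NV C K // w.OverG T}, ((gen (kC C) (kap w.1) : ℤ) - 1)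

/-- `x` is regular wherever `T` is -/
def Reg (C : Type) {K : Type} [Field C] [Field K] [Algebra C K] (T x : K) : Prop :=
  ∀ P : Plk C K, T ∈ P.1 → x ∈ P.1

/-- the place `Q` specialises to `Qb` -/
def Sp [CFF C K] (w : NV C K) [CFF (kC C) (kap w)] (T : K) (Q : Plk C K)
    (Qb : Plk (kC C) (kap w)) : Prop :=
  w.red T ∈ Qb.1 ∧ ∀ x, Reg C T x → w x ≤ 1 → cred (vl Q x) = vl Qb (w.red x)

/-- the Galois group moves the reductions of the elements of `R` -/
structure Faith (w : NV C K) (T : K) (R : Set K) : Prop where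
  le : ∀ r ∈ R, w r ≤ 1
  mv : ∀ σ : K ≃ₐ[C⟮T⟯] K, σ ≠ 1 → ∃ r ∈ R, 1 ≤ w (σ r - r)

/-- unramified over the line outside the finite set `S` of finite values -/
structure Unr {k F : Type} [Field k] [Field F] [Algebra k F] [CFF k F] (T : F) (S : Finset k) :
    Prop where
  pole : ∀ P : Plk k F, ord P T < 0 → ord P T = -1
  fin : ∀ (P : Plk k F) (a : k), a ∉ S → 0 < ord P (T - algebraMap k F a) →
    ord P (T - algebraMap k F a) = 1

/-- integral values which are distinct modulo the maximal ideal -/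
structure SOk (S : Finset C) : Prop where
  le : ∀ s ∈ S, ‖s‖ ≤ 1
  ne : ∀ s ∈ S, ∀ s' ∈ S, s ≠ s' → ‖s - s'‖ = 1

/-- the ramification over `s` does not drop in the reduction -/
def CuspOk [CFF C K] (v : NV C K) (T : K) (s : C) : Prop :=
  ∃ Q : Plk C K, 0 < ord Q (T - algebraMap C K s) ∧ ∀ [CFF (kC C) (kap v)],
    ∃ Qb : Plk (kC C) (kap v), ord Q (T - algebraMap C K s) ≤
      ord Qb (v.red T - algebraMap (kC C) (kap v) (cred s))

/-- `τ` is the reduction of `σ` -/
def Ind (w : NV C K) (σ : K → K) (τ : kap w → kap w) : Prop :=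
  ∀ x, w x ≤ 1 → w.red (σ x) = τ (w.red x)

end defs

section series

/-- integral series with a unit coefficient -/
def Prm (O : ValuationSubring ℂ) (x : LS) : Prop :=
  (∀ n, x.coeff n ∈ O) ∧ ∃ n, O.valuation (x.coeff n) = 1

/-- integral series with unit leading coefficient -/
def UL (O : ValuationSubring ℂ) (x : LS) : Prop :=
  (∀ n, x.coeff n ∈ O) ∧ O.valuation (x.coeff x.order) = 1

/-- integral series over primitive series -/
def QI (O : ValuationSubring ℂ) (z : LS) : Prop :=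
  ∃ x y : LS, (∀ n, x.coeff n ∈ O) ∧ Prm O y ∧ z * y = x

/-- quotients of primitive series -/
def QP (O : ValuationSubring ℂ) (z : LS) : Prop := ∃ x y : LS, Prm O x ∧ Prm O y ∧ z * y = x

/-- quotients of series with unit leading coefficient -/
def QU (O : ValuationSubring ℂ) (z : LS) : Prop := ∃ x y : LS, UL O x ∧ UL O y ∧ z * y = x

/-- an integral expansion at a place over `T = s` -/
structure Cusp {C K : Type} [Field C] [Field K] [Algebra C K] (ι : C →+* ℂ)
    (O : ValuationSubring ℂ) (T : K) (R : Set K) (s : C) (θ : K →+* LS) : Prop where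
  cst : ∀ c, θ (algebraMap C K c) = HahnSeries.C (ι c)
  int : ∀ r ∈ R, QI O (θ r)
  mv : ∀ σ : K ≃ₐ[C⟮T⟯] K, σ ≠ 1 → ∃ r ∈ R, QP O (θ (σ r - r))
  loc : QU O (θ (T - algebraMap C K s))
  pos : 0 < (θ (T - algebraMap C K s)).order
  uni : ∃ π : K, QU O (θ π) ∧ (θ π).order = 1

end series

/-! ## general valuation theory -/

/-- connectedness of the special fibre -/
def CONN : Prop := ∀ (C K : Type) [NontriviallyNormedField C] [IsUltrametricDist C]
  [IsAlgClosed C] [Field K] [Algebra C K] [CFF C K] (T : K) [FiniteDimensional C⟮T⟯ K],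
  Full C T → GenLe C T → ∀ w w' : NV C K, w.OverG T → w'.OverG T → w = w'

/-- a good valuation is the only one over the Gauss norm -/
def UNIQ : Prop := ∀ (C K : Type) [NontriviallyNormedField C] [IsUltrametricDist C]
  [IsAlgClosed C] [Field K] [Algebra C K] [CFF C K] (T : K) (w w' : NV C K),
  Good w T → w'.OverG T → w' = w

/-- Riemann-Roch spaces reduce onto Riemann-Roch spaces -/
def SURJ : Prop := ∀ (C K : Type) [NontriviallyNormedField C] [IsUltrametricDist C]
  [IsAlgClosed C] [Field K] [Algebra C K] [CFF C K] (T : K) (w : NV C K) [CFF (kC C) (kap w)],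
  Good w T → ∃ n₀ : ℕ, ∀ n : ℕ, n₀ ≤ n → ∀ y ∈ LL (kC C) (n • pol (kC C) (w.red T)),
    ∃ x ∈ LL C (n • pol C T), w x ≤ 1 ∧ w.red x = y

/-- values of integral functions at integral places -/
def VAL : Prop := ∀ (C K : Type) [NontriviallyNormedField C] [IsUltrametricDist C]
  [IsAlgClosed C] [Field K] [Algebra C K] [CFF C K] (T x : K) (P : Plk C K),
  Transcendental C T → Reg C T x → T ∈ P.1 → ‖vl P T‖ ≤ 1 →
  ((∀ w : NV C K, w.OverG T → w x ≤ 1) → ‖vl P x‖ ≤ 1) ∧
    ((∀ w : NV C K, w.OverG T → w x < 1) → ‖vl P x‖ < 1)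

/-- the genus in characteristic zero -/
def GEN0 : Prop := ∀ (k F : Type) [Field k] [CharZero k] [Field F] [Algebra k F] [CFF k F]
  (T : F) (hT : ∀ a : k, T ≠ algebraMap k F a) (S : Finset k), Unr T S →
  2 * (gen k F : ℤ) - 2 + 2 * finrank k⟮T⟯ F ≤
    ∑ c ∈ S, ((finrank k⟮T⟯ F : ℤ) - (fib_finite hT c).toFinset.card)

/-! ## Galois covers -/

/-- an automorphism which fixes `T` and `w` acts on the residue field -/
def RES : Prop := ∀ (C K : Type) [NontriviallyNormedField C] [IsUltrametricDist C]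
  [Field K] [Algebra C K] (T : K) (w : NV C K) (σ : K ≃ₐ[C⟮T⟯] K), w T ≤ 1 → w.twist σ = w →
  ∃ τ : kap w ≃ₐ[(kC C)⟮w.red T⟯] kap w, Ind w σ τ

/-- Galois theory of the reduction -/
def GA : Prop := ∀ (C K : Type) [NontriviallyNormedField C] [IsUltrametricDist C]
  [IsAlgClosed C] [Field K] [Algebra C K] (T : K) [FiniteDimensional C⟮T⟯ K] [IsGalois C⟮T⟯ K]
  (w : NV C K) (R : Set K), w.OverG T → Faith w T R →
  (∀ w' : NV C K, w'.OverG T → ∃ σ : K ≃ₐ[C⟮T⟯] K, w' = w.twist σ) ∧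
  IsGalois (kC C)⟮w.red T⟯ (kap w) ∧
  Fintype.card {w' : NV C K // w'.OverG T} * finrank (kC C)⟮w.red T⟯ (kap w) = finrank C⟮T⟯ K ∧
  (∀ τ : kap w ≃ₐ[(kC C)⟮w.red T⟯] kap w, ∃ σ : K ≃ₐ[C⟮T⟯] K, w.twist σ = w ∧ Ind w σ τ) ∧
  ∀ E : Subfield (kap w), (∀ a : kC C, algebraMap (kC C) (kap w) a ∈ E) → w.red T ∈ E →
    (∀ r ∈ R, w.red r ∈ E) → E = ⊤

/-- good reduction of the Galois cover -/
def GB : Prop := ∀ (C K : Type) [NontriviallyNormedField C] [IsUltrametricDist C]
  [IsAlgClosed C] [CharZero C] [Field K] [Algebra C K] [CFF C K] (T : K) [IsGalois C⟮T⟯ K]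
  (w : NV C K) (R : Set K) (S : Finset C), w.OverG T → Faith w T R → SOk S → Unr T S →
  (∀ s ∈ S, ∃ v : NV C K, v.OverG T ∧ CuspOk v T s) → Good w T

/-- specialisation of places -/
def SP : Prop := ∀ (C K : Type) [NontriviallyNormedField C] [IsUltrametricDist C]
  [IsAlgClosed C] [Field K] [Algebra C K] [CFF C K] (T : K) (w : NV C K) [CFF (kC C) (kap w)],
  Good w T → ∀ Q : Plk C K, T ∈ Q.1 → ‖vl Q T‖ ≤ 1 → ∃! Qb : Plk (kC C) (kap w), Sp w T Q Qb

/-- good reduction descends to the subcovers -/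
def SUB : Prop := ∀ (C L K : Type) [NontriviallyNormedField C] [IsUltrametricDist C]
  [IsAlgClosed C] [CharZero C] [Field L] [Field K] [Algebra C L] [Algebra C K] [Algebra L K]
  [IsScalarTower C L K] [CFF C L] [CFF C K] [FiniteDimensional L K] [IsGalois L K] (T : L)
  [IsGalois C⟮algebraMap L K T⟯ K] (w : NV C K) (R : Set K) (S : Finset C),
  Good w (algebraMap L K T) → Faith w (algebraMap L K T) R → SOk S → Unr (algebraMap L K T) S →
  Good (w.comap L) T

/-- injectivity of the reduction on the prime to `p` torsion -/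
def KEY : Prop := ∀ (C K : Type) [NontriviallyNormedField C] [IsUltrametricDist C]
  [IsAlgClosed C] [CharZero C] [Field K] [Algebra C K] [CFF C K] (T : K) (w : NV C K) (m : ℕ)
  (f : Kˣ), Good w T → ‖(m : C)‖ = 1 → f ∈ divU C K m → w ((f : K) - 1) < 1 → f ∈ powU K m

/-- inertia acts trivially on the residue field -/
def INE : Prop := ∀ (C K : Type) [NontriviallyNormedField C] [IsUltrametricDist C]
  [IsAlgClosed C] [Field K] [Algebra C K] [CFF C K] (T : K) [IsGalois C⟮T⟯ K] (w : NV C K)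
  (R : Set K) (s : K ≃+* K) (s₀ : C ≃+* C), Good w T → Faith w T R →
  (∀ c, s (algebraMap C K c) = algebraMap C K (s₀ c)) → (∀ c, ‖s₀ c‖ = ‖c‖) →
  (∀ c, ‖c‖ ≤ 1 → ‖s₀ c - c‖ < 1) → s T = T → (∀ r ∈ R, s r = r) →
  ∀ x, w x ≤ 1 → w (s x - x) < 1

/-- an invariant integral element whose reduction is primitive -/
def CHART : Prop := ∀ (C K : Type) [NontriviallyNormedField C] [IsUltrametricDist C]
  [IsAlgClosed C] [Field K] [Algebra C K] [CFF C K] (T : K) (w : NV C K) (Γ : Type) [Group Γ]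
  (a : Γ →* RingAut K), Good w T →
  (∀ g, ∃ s₀ : C ≃+* C, ∀ c, a g (algebraMap C K c) = algebraMap C K (s₀ c)) →
  (∀ g, a g T = T) → (∀ g x, w x ≤ 1 → w (a g x - x) < 1) →
  (∀ x, (Set.range fun g => a g x).Finite) →
  ∃ θ : K, (∀ g, a g θ = θ) ∧ Reg C T θ ∧ w θ ≤ 1 ∧ (kC C)⟮w.red T⟯⟮w.red θ⟯ = ⊤

/-! ## expansions -/

/-- the place defined by an embedding in Laurent series -/
def PLC : Prop := ∀ (k F Ω : Type) [Field k] [Field F] [Algebra k F] [CFF k F] [Field Ω]
  (φ : F →+* LaurentSeries Ω), (∀ c : k, (φ (algebraMap k F c)).order = 0) →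
  (∃ π : F, (φ π).order = 1) → ∃ Q : Plk k F, ∀ x, ord Q x = (φ x).order

/-- the valuation and the two places defined by an integral expansion -/
def EXP : Prop := ∀ (C K : Type) [NontriviallyNormedField C] [IsUltrametricDist C]
  [IsAlgClosed C] [Field K] [Algebra C K] [CFF C K] (T : K) [IsGalois C⟮T⟯ K] (ι : C →+* ℂ)
  (O : ValuationSubring ℂ) (W : ValuationSubring LS) (R : Set K) (s : C) (θ : K →+* LS),
  (∀ c, ι c ∈ O ↔ ‖c‖ ≤ 1) → Wok O W → ‖s‖ ≤ 1 → Cusp ι O T R s θ →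
  ∃ v : NV C K, v.OverG T ∧ (∀ x, v x ≤ 1 ↔ θ x ∈ W) ∧ (∀ x, v x < 1 ↔ W.valuation (θ x) < 1) ∧
    Faith v T R ∧ CuspOk v T s

/-- the absolute value of a valuation ring of `ℚ̄` -/
def NORM : Prop := ∀ (O : ValuationSubring Qb) (p : ℕ), p.Prime → O.valuation (p : Qb) < 1 →
  ∃ a : AbsoluteValue Qb ℝ, IsNonarchimedean a ∧ (∀ x, a x ≤ 1 ↔ x ∈ O) ∧ (∃ x, 1 < a x) ∧
    ∀ σ : Qb ≃+* Qb, (∀ x, σ x ∈ O ↔ x ∈ O) → ∀ x, a (σ x) = a x

end Vale.Agent.P027M.G
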