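import Vale.Agent.P027M.G.Defs

/-!
# P027, route M, block G: Galois theory of the reduction
-/

set_option linter.all false

noncomputable section

namespace Vale.Agent.P027M.G

open Polynomial IntermediateField Module P025H373 P025H746 Vale.Agent.P019P P025H492 P025H816

namespace Ga

variable {C K : Type} [NontriviallyNormedField C] [IsUltrametricDist C] [Field K] [Algebra C K]
  {T : K}

theorem fixT (σ : K ≃ₐ[C⟮T⟯] K) : σ T = T := σ.commutes (AdjoinSimple.gen C T)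

theorem fixC (σ : K ≃ₐ[C⟮T⟯] K) (c : C) : σ (algebraMap C K c) = algebraMap C K c :=
  σ.commutes (algebraMap C C⟮T⟯ c)

theorem agree {w w' : NV C K} (h : w.OverG T) (h' : w'.OverG T) (y : C⟮T⟯) :
    w (algebraMap C⟮T⟯ K y) = w' (algebraMap C⟮T⟯ K y) := by
  obtain ⟨r, s, e⟩ := (mem_adjoin_simple_iff C (y : K)).1 y.2
  change w (y : K) = w' (y : K)
  rw [e, map_div₀, map_div₀, h r, h s, h' r, h' s]

theorem og_twist {w : NV C K} (h : w.OverG T) (σ : K ≃ₐ[C⟮T⟯] K) : (w.twist σ).OverG T := by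
  intro P
  have h1 : aeval T P = algebraMap C⟮T⟯ K (aeval (AdjoinSimple.gen C T) P) := by
    rw [← aeval_algebraMap_apply]; rfl
  rw [NV.twist_apply, h1, σ.commutes, ← h1, h P]

theorem trans [FiniteDimensional C⟮T⟯ K] [IsGalois C⟮T⟯ K] {w w' : NV C K} (h : w.OverG T)
    (h' : w'.OverG T) : ∃ σ : K ≃ₐ[C⟮T⟯] K, w' = w.twist σ := by
  classical
  by_contra hne
  push Not at hne
  obtain ⟨e, he0, he1, he2⟩ := P025H458.exists_idem (fun u : {u : NV C K // u.OverG T} => u.1.av)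
    (fun u => u.1.na) (fun u => u.1.ext') (fun u u' h => Subtype.ext (NV.ext h)) ⟨w', h'⟩
  have hone : ∀ u : NV C K, u.OverG T → u ≠ w' → u (e - 1) = 1 := by
    intro u hu hn
    have h1 : u e < 1 := he2 ⟨u, hu⟩ fun h => hn (congrArg Subtype.val h)
    refine le_antisymm (NV.sub_le h1.le (by simp)) ?_
    by_contra hlt
    push Not at hlt
    have := NV.sub_lt h1 hlt
    simp at this
  have hle : ∀ u : NV C K, u.OverG T → u (e - 1) ≤ 1 := by
    intro u hu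
    by_cases hn : u = w'
    · subst hn; exact le_of_lt he0
    · exact (hone u hu hn).le
  have h1 : w (algebraMap C⟮T⟯ K (Algebra.norm C⟮T⟯ (e - 1))) = 1 := by
    rw [Algebra.norm_eq_prod_automorphisms, map_prod]
    exact Finset.prod_eq_one fun σ _ => hone (w.twist σ) (og_twist h σ) (hne σ).symm
  have h2 : w' (algebraMap C⟮T⟯ K (Algebra.norm C⟮T⟯ (e - 1))) < 1 := by
    rw [Algebra.norm_eq_prod_automorphisms, map_prod,
      ← Finset.mul_prod_erase _ _ (Finset.mem_univ (1 : K ≃ₐ[C⟮T⟯] K))]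
    refine mul_lt_one_of_nonneg_of_lt_one_left (w'.av.nonneg _) he0 ?_
    exact Finset.prod_le_one (fun σ _ => w'.av.nonneg _)
      (fun σ _ => hle (w'.twist σ) (og_twist h' σ))
  rw [← agree h h', h1] at h2
  exact lt_irrefl _ h2

theorem faith_twist {w : NV C K} {R : Set K} (h : Faith w T R) (σ : K ≃ₐ[C⟮T⟯] K) :
    Faith (w.twist σ) T (σ.symm '' R) := by
  constructor
  · rintro _ ⟨r, hr, rfl⟩
    rw [NV.twist_apply, AlgEquiv.apply_symm_apply]
    exact h.le r hr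
  · intro τ hτ
    obtain ⟨r, hr, h1⟩ := h.mv (σ * τ * σ⁻¹) (by
      intro h0
      apply hτ
      have : τ = σ⁻¹ * (σ * τ * σ⁻¹) * σ := by group
      rw [this, h0]; simp)
    refine ⟨σ.symm r, ⟨r, hr, rfl⟩, ?_⟩
    rw [NV.twist_apply, map_sub, AlgEquiv.apply_symm_apply]
    exact h1

/-- an automorphism whose reduction fixes the reductions of `R` is trivial -/
theorem eq_of_ind {w : NV C K} {R : Set K} (h : Faith w T R) {σ σ' : K ≃ₐ[C⟮T⟯] K}
    (hσ : w.twist σ = w) (hσ' : w.twist σ' = w)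
    (e : ∀ r ∈ R, w.red (σ r) = w.red (σ' r)) : σ = σ' := by
  by_contra hne
  obtain ⟨r, hr, h1⟩ := h.mv (σ'⁻¹ * σ) fun h0 => hne (inv_mul_eq_one.1 h0).symm
  have h2 : w (σ r) ≤ 1 := by rw [← NV.twist_apply, hσ]; exact h.le r hr
  have h3 : w (σ' r) ≤ 1 := by rw [← NV.twist_apply, hσ']; exact h.le r hr
  have h4 : w (σ r - σ' r) < 1 := by
    rw [← NV.red_eq_zero (NV.sub_le h2 h3), NV.red_sub h2 h3, e r hr, sub_self]
  have h5 : σ r - σ' r = σ' ((σ'⁻¹ * σ) r - r) := by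
    rw [map_sub, ← AlgEquiv.mul_apply, mul_inv_cancel_left]
  rw [h5, ← NV.twist_apply, hσ'] at h4
  exact absurd h1 (not_le.2 h4)

/-- the decomposition group embeds in the automorphisms of the residue field -/
theorem emb (hR : RES) {w : NV C K} {R : Set K} (hw : w.OverG T) (h : Faith w T R) :
    ∃ φ : {σ : K ≃ₐ[C⟮T⟯] K // w.twist σ = w} → (kap w ≃ₐ[(kC C)⟮w.red T⟯] kap w),
      Function.Injective φ ∧ ∀ σ, Ind w σ.1 (φ σ) := by
  choose φ hφ using fun σ : {σ : K ≃ₐ[C⟮T⟯] K // w.twist σ = w} =>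
    hR C K T w σ.1 hw.apply_T.le σ.2
  refine ⟨φ, fun σ σ' e => Subtype.ext (eq_of_ind h σ.2 σ'.2 fun r hr => ?_), hφ⟩
  rw [hφ σ r (h.le r hr), hφ σ' r (h.le r hr), e]

theorem card_dec [FiniteDimensional C⟮T⟯ K] [IsGalois C⟮T⟯ K] {w : NV C K} (hw : w.OverG T) :
    Fintype.card {u : NV C K // u.OverG T} * Nat.card {σ : K ≃ₐ[C⟮T⟯] K // w.twist σ = w} =
      finrank C⟮T⟯ K := by
  classical
  rw [← IsGalois.card_aut_eq_finrank, Nat.card_eq_fintype_card (α := K ≃ₐ[C⟮T⟯] K),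
    ← Finset.card_univ (α := K ≃ₐ[C⟮T⟯] K),
    Finset.card_eq_sum_card_fiberwise (s := Finset.univ) (t := Finset.univ)
      (f := fun σ : K ≃ₐ[C⟮T⟯] K => (⟨w.twist σ, og_twist hw σ⟩ : {u : NV C K // u.OverG T}))
      (fun _ _ => Finset.mem_coe.2 (Finset.mem_univ _)),
    ← Finset.card_univ, ← smul_eq_mul, ← Finset.sum_const]
  refine Finset.sum_congr rfl fun u _ => ?_
  obtain ⟨σ₀, h0⟩ := trans hw u.2
  rw [← Fintype.card_subtype, ← Nat.card_eq_fintype_card]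
  refine Nat.card_congr ⟨fun σ => ⟨σ.1 * σ₀, Subtype.ext ?_⟩, fun σ => ⟨σ.1 * σ₀⁻¹, ?_⟩,
    fun σ => Subtype.ext (by simp), fun σ => Subtype.ext (by simp)⟩
  · change w.twist (σ.1 * σ₀) = u.1
    rw [← NV.twist_twist, σ.2, h0]
  · have h1 : w.twist σ.1 = u.1 := congrArg Subtype.val σ.2
    rw [← NV.twist_twist, h1, h0, NV.twist_twist, mul_inv_cancel, NV.twist_one]

theorem dec_le (hR : RES) [FiniteDimensional C⟮T⟯ K] {w : NV C K} {R : Set K} (hw : w.OverG T)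
    (h : Faith w T R) : Nat.card {σ : K ≃ₐ[C⟮T⟯] K // w.twist σ = w} ≤
      Nat.card (kap w ≃ₐ[(kC C)⟮w.red T⟯] kap w) ∧
      Nat.card (kap w ≃ₐ[(kC C)⟮w.red T⟯] kap w) ≤ finrank (kC C)⟮w.red T⟯ (kap w) := by
  have := hw.finite
  obtain ⟨φ, hφ, -⟩ := emb hR hw h
  exact ⟨Nat.card_le_card_of_injective φ hφ, by
    rw [Nat.card_eq_fintype_card]; exact AlgEquiv.card_le⟩

theorem dec_eq (hR : RES) [FiniteDimensional C⟮T⟯ K] [IsGalois C⟮T⟯ K] {w : NV C K} {R : Set K}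
    (hw : w.OverG T) (h : Faith w T R) :
    Nat.card {σ : K ≃ₐ[C⟮T⟯] K // w.twist σ = w} = finrank (kC C)⟮w.red T⟯ (kap w) := by
  classical
  have hle : ∀ u : {u : NV C K // u.OverG T}, Nat.card {σ : K ≃ₐ[C⟮T⟯] K // u.1.twist σ = u.1} ≤
      finrank (kC C)⟮u.1.red T⟯ (kap u.1) := by
    intro u
    obtain ⟨σ, hσ⟩ := trans hw u.2
    have h1 : Faith u.1 T (σ.symm '' R) := hσ ▸ faith_twist h σ
    exact (dec_le hR u.2 h1).1.trans (dec_le hR u.2 h1).2
  have hpos : 0 < Fintype.card {u : NV C K // u.OverG T} := Fintype.card_pos_iff.2 ⟨⟨w, hw⟩⟩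
  have hs : ∑ u : {u : NV C K // u.OverG T}, Nat.card {σ : K ≃ₐ[C⟮T⟯] K // u.1.twist σ = u.1} =
      finrank C⟮T⟯ K := by
    rw [← card_dec hw, ← Finset.card_univ, ← smul_eq_mul, ← Finset.sum_const]
    refine Finset.sum_congr rfl fun u _ => Nat.eq_of_mul_eq_mul_left hpos ?_
    rw [card_dec hw, card_dec u.2]
  have h2 := sum_finrank_le (T := T) (fun u : {u : NV C K // u.OverG T} => u.1)
    Subtype.val_injective (fun u => u.2)
  have h3 := (Finset.sum_eq_sum_iff_of_le (s := Finset.univ) fun u _ => hle u).1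
    (le_antisymm (Finset.sum_le_sum fun u _ => hle u) (h2.trans hs.ge))
  exact h3 ⟨w, hw⟩ (Finset.mem_univ _)

end Ga

open Ga in
theorem ga (hR : RES) : GA := by
  intro C K _ _ _ _ _ T _ _ w R hw h
  have hfin := hw.finite
  have h1 := dec_eq hR hw h
  have h2 := dec_le hR hw h
  have hgal : IsGalois (kC C)⟮w.red T⟯ (kap w) :=
    IsGalois.of_card_aut_eq_finrank _ _ (le_antisymm h2.2 (h1 ▸ h2.1))
  have h4 : ∀ τ : kap w ≃ₐ[(kC C)⟮w.red T⟯] kap w,
      ∃ σ : K ≃ₐ[C⟮T⟯] K, w.twist σ = w ∧ Ind w σ τ := by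
    obtain ⟨φ, hφ, hi⟩ := emb hR hw h
    have hb : Function.Bijective φ :=
      hφ.bijective_of_nat_card_le (h2.2.trans h1.ge)
    intro τ
    obtain ⟨σ, rfl⟩ := hb.2 τ
    exact ⟨σ.1, σ.2, hi σ⟩
  refine ⟨fun w' hw' => trans hw hw', hgal, by rw [← h1]; exact card_dec hw, h4, ?_⟩
  intro E hc hT hr
  have hE : ∀ y : (kC C)⟮w.red T⟯, algebraMap (kC C)⟮w.red T⟯ (kap w) y ∈ E := by
    intro y
    have : (kC C)⟮w.red T⟯ ≤ E.toIntermediateField hc := adjoin_simple_le_iff.2 hT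
    exact this y.2
  have h5 : (E.toIntermediateField hE).fixingSubgroup = ⊥ := by
    rw [eq_bot_iff]
    intro τ hτ
    obtain ⟨σ, hσ, hi⟩ := h4 τ
    have h6 : σ = 1 := eq_of_ind h hσ (NV.twist_one w) fun r hr' => by
      rw [hi r (h.le r hr')]
      exact (IntermediateField.mem_fixingSubgroup_iff _ _).1 hτ _ (hr r hr')
    rw [Subgroup.mem_bot]
    ext y
    obtain ⟨x, hx, rfl⟩ := NV.red_surj y
    rw [← hi x hx, h6]
    rfl
  have h7 := IsGalois.fixedField_fixingSubgroup (E.toIntermediateField hE)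
  rw [h5, IntermediateField.fixedField_bot] at h7
  rw [eq_top_iff]
  intro y _
  have : y ∈ E.toIntermediateField hE := h7 ▸ IntermediateField.mem_top
  exact this

end Vale.Agent.P027M.G
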