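import Vale.Agent.P027M.G.Mod0

/-!
# P027, route M, block G: the field of level `N` is Galois over the line
-/

set_option linter.all false

noncomputable section

namespace Vale.Agent.P027M.G

open IntermediateField Matrix
open Vale.Agent.P022 Vale.Agent.P022.H542.L3 Vale.Agent.P022.H218.L3 Vale.Agent.P022.H236.L3
  Vale.Agent.P022.H231.L3
open Vale.Agent.P027M.M (io FF cv L G0 Gt GH Lv Mid Mdl NZ M2)
open scoped MatrixGroups

namespace Galt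

theorem transfer {k F K : Type} [Field k] [Field F] [Field K] [Algebra k K] [Algebra F K]
    [IsGalois F K] (E : IntermediateField k K) (h : ∀ y, y ∈ E ↔ ∃ x, algebraMap F K x = y) :
    IsGalois E K ∧ ∀ σ : K ≃ₐ[E] K, ∃ τ : K ≃ₐ[F] K, ∀ x, τ x = σ x := by
  let f : F →+* E := (algebraMap F K).codRestrict E fun x => (h _).mpr ⟨x, rfl⟩
  have hf : Function.Bijective f := ⟨f.injective, fun y => by
    obtain ⟨x, hx⟩ := (h y.1).mp y.2
    exact ⟨x, Subtype.ext hx⟩⟩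
  refine ⟨IsGalois.of_equiv_equiv (f := RingEquiv.ofBijective f hf) (g := RingEquiv.refl K)
    (RingHom.ext fun _ => rfl), fun σ => ?_⟩
  exact ⟨{ σ.toRingEquiv with commutes' := fun x => σ.commutes (f x) }, fun _ => rfl⟩

theorem adjoin_inv {k K : Type} [Field k] [Field K] [Algebra k K] (t : K) : k⟮t⁻¹⟯ = k⟮t⟯ := by
  refine le_antisymm (adjoin_simple_le_iff.mpr (inv_mem (mem_adjoin_simple_self k t)))
    (adjoin_simple_le_iff.mpr ?_)
  have h := inv_mem (mem_adjoin_simple_self k t⁻¹)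
  rwa [inv_inv] at h

theorem mem_iff (X : Mdl) {Γ : Subgroup SL(2, ℤ)} (h : Γ ≤ G0) (y : L Γ) :
    y ∈ Qb⟮(X.tL h)⁻¹⟯ ↔ (y : FF) ∈ L G0 := by
  have h1 : Qb⟮X.tL h⟯.map (L Γ).val = Qb⟮X.t⟯ := by
    rw [adjoin_map, Set.image_singleton]
    rfl
  rw [adjoin_inv, X.base, ← h1]
  constructor
  · intro h2
    exact ⟨y, h2, rfl⟩
  · rintro ⟨z, h2, h3⟩
    exact (Subtype.ext h3 : z = y) ▸ h2

theorem nz_mul {N : ℕ} {v : Fin 2 → ℤ} (hv : NZ N v) (γ : SL(2, ℤ)) : NZ N (v ᵥ* (γ : M2)) := by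
  intro h
  apply hv
  intro i
  have h1 : v = (v ᵥ* (γ : M2)) ᵥ* ((γ⁻¹ : SL(2, ℤ)) : M2) := by
    rw [vecMul_vecMul, show (γ : M2) * ((γ⁻¹ : SL(2, ℤ)) : M2) = 1 from
      congrArg Subtype.val (mul_inv_cancel γ), vecMul_one]
  rw [h1]
  exact Finset.dvd_sum (s := Finset.univ) fun j _ => (h j).mul_right (((γ⁻¹ : SL(2, ℤ)) : M2) j i)

theorem pg_r (X : Mdl) {N : ℕ} (hN : Lv N) {v : Fin 2 → ℤ} (hv : NZ N v) {γ : SL(2, ℤ)}
    (hγ : γ ∈ G0) : X.pg γ (X.r N v) = X.r N (v ᵥ* (γ : M2)) := by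
  apply M.cv_inj
  rw [Mdl.pg, X.pb_coe, pbz_SL, X.law N hN v hv γ hγ]

end Galt

open Galt in
theorem galt (X : Mdl) (hG : M.GRP) (hA : M.ARTIN X) : GALT X := by
  intro A N h
  obtain ⟨h1, h2, -⟩ := hG N h.lv
  letI := M.algL h.hi
  obtain ⟨h3, h4, -⟩ := (hA G0 (Gt N) h.hi h1).2 fun γ _ δ hδ => h2 γ δ hδ
  obtain ⟨h5, h6⟩ := transfer (F := L G0) (Qv A)⟮(X.tL h.hi)⁻¹⟯ fun y =>
    (mem_iff X h.hi y).trans
      ⟨fun hy => ⟨⟨y, hy⟩, rfl⟩, fun ⟨x, hx⟩ => (congrArg Subtype.val hx : (x : FF) = y) ▸ x.2⟩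
  refine ⟨h5, fun σ hσ => ?_⟩
  obtain ⟨τ, h7⟩ := h6 σ
  obtain ⟨γ, hγ, h8⟩ := h4 τ
  have h9 : ∃ v, NZ N v ∧ X.r N (v ᵥ* (γ : M2)) ≠ X.r N v := by
    by_contra h10
    have h11 : ∀ x ∈ adjoin Qb (X.r N '' {v | NZ N v}), X.pg γ x = x := by
      intro x hx
      induction hx using adjoin_induction with
      | mem x hx =>
        obtain ⟨v, hv, rfl⟩ := hx
        rw [pg_r X h.lv hv hγ]
        exact not_not.mp fun h12 => h10 ⟨v, hv, h12⟩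
      | algebraMap a => exact AlgEquiv.commutes _ a
      | add x y _ _ h12 h13 => rw [map_add, h12, h13]
      | inv x _ h12 => rw [map_inv₀, h12]
      | mul x y _ _ h12 h13 => rw [map_mul, h12, h13]
    refine hσ (AlgEquiv.ext fun x => Subtype.ext ?_)
    rw [← h7, h8]
    exact h11 x (X.gen N h.lv ▸ x.2)
  obtain ⟨v, hv, h10⟩ := h9
  refine ⟨v, _, hv, nz_mul hv γ, h10, ⟨X.r N v, ?_⟩, rfl, ?_⟩
  · rw [X.gen N h.lv]
    exact subset_adjoin _ _ ⟨v, hv, rfl⟩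
  · rw [← h7, h8]
    exact pg_r X h.lv hv hγ

end Vale.Agent.P027M.G
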