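import Vale.Agent.P027M.G.Defs

/-!
# P027, route M, block G: inertia acts trivially on the residue field
-/

set_option linter.all false

noncomputable section

namespace Vale.Agent.P027M.G

open Polynomial IntermediateField Module P025H373 P025H746 Vale.Agent.P019P P025H492 P025H816

namespace Ine

variable {C K : Type} [NontriviallyNormedField C] [IsUltrametricDist C] [Field K] [Algebra C K]

/-- the absolute value transported by a semilinear isometric automorphism -/
def tw (w : NV C K) (s : K ≃+* K) (s₀ : C ≃+* C)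
    (h : ∀ c, s (algebraMap C K c) = algebraMap C K (s₀ c)) (h' : ∀ c, ‖s₀ c‖ = ‖c‖) : NV C K where
  av := w.av.comp (f := (s : K →+* K)) s.injective
  na x y := by
    change w (s (x + y)) ≤ max (w (s x)) (w (s y))
    rw [map_add]
    exact w.na _ _
  ext' c := by
    change w (s (algebraMap C K c)) = ‖c‖
    rw [h, w.ext', h']

theorem gp_map (s₀ : C ≃+* C) (h' : ∀ c, ‖s₀ c‖ = ‖c‖) (P : C[X]) :
    gp (P.map (s₀ : C →+* C)) = gp P := by
  have e : ∀ i, ‖(P.map (s₀ : C →+* C)).coeff i‖ = ‖P.coeff i‖ := fun i => by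
    rw [coeff_map]; exact h' _
  apply le_antisymm
  · exact gp_le_iff.2 fun i => (e i).le.trans (norm_coeff_le _ _)
  · exact gp_le_iff.2 fun i => (e i).ge.trans (norm_coeff_le _ _)

theorem tw_overG {w : NV C K} {T : K} (hw : w.OverG T) (s : K ≃+* K) (s₀ : C ≃+* C)
    (h : ∀ c, s (algebraMap C K c) = algebraMap C K (s₀ c)) (h' : ∀ c, ‖s₀ c‖ = ‖c‖)
    (hT : s T = T) : (tw w s s₀ h h').OverG T := by
  intro P
  change w (s (aeval T P)) = gp P
  have e : s (aeval T P) = aeval T (P.map (s₀ : C →+* C)) := by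
    have e1 : (s : K →+* K).comp (algebraMap C K) = (algebraMap C K).comp (s₀ : C →+* C) :=
      RingHom.ext h
    rw [aeval_def, aeval_def, eval₂_map, ← e1]
    conv_rhs => rw [← hT]
    exact hom_eval₂ P (algebraMap C K) (s : K →+* K) T
  rw [e, hw, gp_map s₀ h']

/-- the residues of the elements which are fixed modulo the maximal ideal -/
def fx (w : NV C K) (s : K ≃+* K) (hs : ∀ x, w (s x) = w x) : Subfield (kap w) where
  carrier := {y | ∃ x, w x ≤ 1 ∧ w.red (s x) = w.red x ∧ w.red x = y}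
  mul_mem' := by
    rintro _ _ ⟨x, h1, h2, rfl⟩ ⟨y, h3, h4, rfl⟩
    refine ⟨x * y, NV.mul_le_one h1 h3, ?_, NV.red_mul h1 h3⟩
    rw [map_mul, NV.red_mul ((hs x).trans_le h1) ((hs y).trans_le h3), NV.red_mul h1 h3, h2, h4]
  one_mem' := ⟨1, by simp, by rw [map_one], NV.red_one⟩
  add_mem' := by
    rintro _ _ ⟨x, h1, h2, rfl⟩ ⟨y, h3, h4, rfl⟩
    refine ⟨x + y, NV.add_le h1 h3, ?_, NV.red_add h1 h3⟩
    rw [map_add, NV.red_add ((hs x).trans_le h1) ((hs y).trans_le h3), NV.red_add h1 h3, h2, h4]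
  zero_mem' := ⟨0, by simp, by rw [map_zero], NV.red_zero⟩
  neg_mem' := by
    rintro _ ⟨x, h1, h2, rfl⟩
    refine ⟨-x, (NV.map_neg' x).trans_le h1, ?_, NV.red_neg h1⟩
    rw [map_neg, NV.red_neg ((hs x).trans_le h1), NV.red_neg h1, h2]
  inv_mem' := by
    rintro _ ⟨x, h1, h2, rfl⟩
    rcases h1.eq_or_lt with e | e
    · refine ⟨x⁻¹, by rw [map_inv₀, e, inv_one], ?_, NV.red_inv e⟩
      rw [map_inv₀, NV.red_inv ((hs x).trans e), NV.red_inv e, h2]
    · exact ⟨0, by simp, by rw [map_zero], by rw [NV.red_of_lt e, inv_zero, NV.red_zero]⟩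

end Ine

theorem ine (hU : UNIQ) (hG : GA) : INE := by
  intro C K _ _ _ _ _ _ T _ w R s s₀ hw hF h h' hc hT hR x hx
  have : FiniteDimensional C⟮T⟯ K := (finite_of_notMem (k := C) (x := T) fun a e =>
    hw.og.transc (by rw [e]; exact isAlgebraic_algebraMap a)).2
  have hs : ∀ x, w (s x) = w x := fun x =>
    NV.congr (hU C K T w _ hw (Ine.tw_overG hw.og s s₀ h h' hT)) x
  have top := (hG C K T w R hw.og hF).2.2.2.2 (Ine.fx w s hs) (fun a => ?_)
    ⟨T, hw.og.apply_T.le, by rw [hT], rfl⟩ fun r hr => ⟨r, hF.le r hr, by rw [hR r hr], rfl⟩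
  · obtain ⟨y, h1, h2, h3⟩ : w.red x ∈ Ine.fx w s hs := top ▸ Subfield.mem_top _
    have a1 : w (x - y) < 1 := by
      rw [← NV.red_eq_zero (NV.sub_le hx h1), NV.red_sub hx h1, h3, sub_self]
    have a2 : w (s y - y) < 1 := by
      have h4 := (hs y).trans_le h1
      rw [← NV.red_eq_zero (NV.sub_le h4 h1), NV.red_sub h4 h1, h2, sub_self]
    have e : s x - x = s (x - y) + (s y - y) - (x - y) := by rw [map_sub]; ring
    rw [e]
    exact NV.sub_lt (NV.add_lt ((hs _).trans_lt a1) a2) a1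
  · obtain ⟨c, h1, rfl⟩ := cred_surj a
    have h2 : w (algebraMap C K c) ≤ 1 := by rwa [w.ext']
    refine ⟨algebraMap C K c, h2, ?_, NV.red_algebraMap h1⟩
    have h3 := (hs _).trans_le h2
    rw [← sub_eq_zero, ← NV.red_sub h3 h2, NV.red_eq_zero (NV.sub_le h3 h2), h, ← map_sub, w.ext']
    exact hc c h1

end Vale.Agent.P027M.G
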