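import Vale.Agent.P027M.G.Spec
import Vale.Agent.P027M.M.Spec

/-!
# P027, route M, block G: the modular curves (definitions and statements)
-/

set_option linter.all false

noncomputable section

namespace Vale.Agent.P027M.G

open Polynomial IntermediateField Module P025H373 P025H746 Vale.Agent.P019P P025H492 P025H816
open Vale.Agent.P022 Vale.Agent.P022.H542.L3 Vale.Agent.P022.H218.L3 Vale.Agent.P022.H236.L3
open Vale.Agent.P027M.M (io FF cv L G0 Gt GH Lv Mid Mdl NZ)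
open scoped MatrixGroups

/-- a non-trivial ultrametric absolute value on `ℚ̄` -/
structure AV where
  a : AbsoluteValue Qb ℝ
  na : IsNonarchimedean a
  nt : ∃ x, 1 < a x
  inv : ∀ σ : Qb ≃+* Qb, (∀ x, a (σ x) ≤ 1 ↔ a x ≤ 1) → ∀ x, a (σ x) = a x

/-- `ℚ̄` with the norm `A` -/
def Qv (A : AV) : Type := Qb

instance (A : AV) : NontriviallyNormedField (Qv A) :=
  { A.a.toNormedField with non_trivial := A.nt }

instance (A : AV) : IsUltrametricDist (Qv A) :=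
  IsUltrametricDist.isUltrametricDist_of_isNonarchimedean_norm A.na

instance (A : AV) : IsAlgClosed (Qv A) := inferInstanceAs (IsAlgClosed Qb)

instance (A : AV) : CharZero (Qv A) := inferInstanceAs (CharZero Qb)

instance (A : AV) : Algebra (Qv A) FF := inferInstanceAs (Algebra Qb FF)

instance (A : AV) (Γ : Subgroup SL(2, ℤ)) : Algebra (Qv A) (L Γ) :=
  inferInstanceAs (Algebra Qb (L Γ))

instance (A : AV) (Γ : Subgroup SL(2, ℤ)) : IsScalarTower (Qv A) (L Γ) FF :=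
  inferInstanceAs (IsScalarTower Qb (L Γ) FF)

instance (A : AV) (Γ : Subgroup SL(2, ℤ)) [h : CFF Qb (L Γ)] : CFF (Qv A) (L Γ) := h

theorem towerV (A : AV) {Γ Γ' : Subgroup SL(2, ℤ)} (h : Γ' ≤ Γ) :
    letI := M.algL h
    IsScalarTower (Qv A) (L Γ) (L Γ') := M.towerL h

/-- the identity `ℚ̄ → Qv A` -/
def AV.e (A : AV) : Qb ≃+* Qv A := RingEquiv.refl Qb

theorem AV.norm_e (A : AV) (x : Qb) : ‖A.e x‖ = A.a x := rfl

/-- the embedding in `ℂ` -/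
def AV.io (A : AV) : Qv A →+* ℂ := (M.io : Qb →+* ℂ)

/-- `O` induces the unit ball -/
def AV.On (A : AV) (O : ValuationSubring ℂ) : Prop := ∀ c : Qb, M.io c ∈ O ↔ A.a c ≤ 1

/-- `w` is the norm of the expansions at infinity -/
def Inf {A : AV} (O : ValuationSubring ℂ) (w : NV (Qv A) FF) : Prop :=
  ∀ W : ValuationSubring LS, Wok O W → ∀ (N : ℕ) (x : FF) (s : LS), 0 < N → ExM N s (cv x) →
    (w x ≤ 1 ↔ s ∈ W) ∧ (w x < 1 ↔ W.valuation s < 1)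

/-- valuation rings of `ℚ̄` extend to `ℂ` -/
def OEXT : Prop := ∀ O : ValuationSubring Qb, ∃ O' : ValuationSubring ℂ, ∀ c : Qb, M.io c ∈ O' ↔ c ∈ O

/-- the norm at infinity exists -/
def WINF : Prop := ∀ (A : AV) (O : ValuationSubring ℂ), A.On O → ∃ w : NV (Qv A) FF, Inf O w

/-- decomposition and inertia groups and the norm at infinity -/
def WGAL (X : Mdl) : Prop := ∀ (A : AV) (O : ValuationSubring ℂ) (w : NV (Qv A) FF), A.On O →
  Inf O w → ∀ g : GQ, (∀ c, A.a (g c) = A.a c) → (∀ x, w (X.gal g x) = w x) ∧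
    ((∀ c, A.a c ≤ 1 → A.a (g c - c) < 1) → ∀ x, w x ≤ 1 → w (X.gal g x - x) < 1)

/-- the generators of the field of level `N` -/
def RN (X : Mdl) (N : ℕ) : Set (L (Gt N)) := {x | ∃ v, NZ N v ∧ (x : FF) = X.r N v}

/-- the field of level `N` over the line -/
def GALT (X : Mdl) : Prop := ∀ (A : AV) (N : ℕ) (h : Mid N (Gt N)),
  IsGalois (Qv A)⟮(X.tL h.hi)⁻¹⟯ (L (Gt N)) ∧
  ∀ σ : L (Gt N) ≃ₐ[(Qv A)⟮(X.tL h.hi)⁻¹⟯] L (Gt N), σ ≠ 1 →
    ∃ v v', NZ N v ∧ NZ N v' ∧ X.r N v' ≠ X.r N v ∧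
      ∃ x : L (Gt N), (x : FF) = X.r N v ∧ ((σ x : L (Gt N)) : FF) = X.r N v'

/-- the three cusps -/
def CUSPM (X : Mdl) : Prop := ∀ (A : AV) (O : ValuationSubring ℂ) (N : ℕ) (h : Mid N (Gt N)),
  A.On O → (N : ℂ)⁻¹ ∈ O → ∀ (γ : SL(2, ℤ)) (s : Qv A),
  ((4 : ℤ) ∣ γ 1 0 ∧ s = 2⁻¹ ∨ (4 : ℤ) ∣ γ 1 0 - 2 ∧ s = -2⁻¹ ∨ Odd (γ 1 0) ∧ s = 0) →
  ∃ θ : L (Gt N) →+* LS, (∀ x : L (Gt N), ExM N (θ x) (act γ⁻¹ (cv (x : FF)))) ∧
    Cusp A.io O (X.tL h.hi)⁻¹ (RN X N) s θ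

/-- **good reduction of the modular curves** -/
def MODG (X : Mdl) : Prop := ∀ (A : AV) (O : ValuationSubring ℂ) (w : NV (Qv A) FF) (N : ℕ)
  (Γ : Subgroup SL(2, ℤ)) (h : Mid N Γ) [CFF Qb (L Γ)], A.On O → Inf O w → (N : ℂ)⁻¹ ∈ O →
  Good (w.comap (L Γ)) (X.tL h.hi)

/-- the reduction is unramified over the affine points -/
def UNRM (X : Mdl) : Prop := ∀ (A : AV) (O : ValuationSubring ℂ) (w : NV (Qv A) FF) (N : ℕ)
  (Γ : Subgroup SL(2, ℤ)) (h : Mid N Γ) [CFF Qb (L Γ)], A.On O → Inf O w → (N : ℂ)⁻¹ ∈ O →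
  ∀ [CFF (kC (Qv A)) (kap (w.comap (L Γ)))] (c : kC (Qv A)), c ≠ 2 → c ≠ -2 →
    ∀ P : Plk (kC (Qv A)) (kap (w.comap (L Γ))),
      0 < ord P ((w.comap (L Γ)).red (X.tL h.hi) - algebraMap _ _ c) →
      ord P ((w.comap (L Γ)).red (X.tL h.hi) - algebraMap _ _ c) = 1

/-- a norm for every valuation ring over a prime -/
def AVE : Prop := ∀ (O : ValuationSubring Qb) (p : ℕ), p.Prime → O.valuation (p : Qb) < 1 →
  ∃ (A : AV) (O' : ValuationSubring ℂ), A.On O' ∧ ∀ c, A.a c ≤ 1 ↔ c ∈ O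

/-- **the atlas at a prime which does not divide the level** -/
def ATLM (X : Mdl) : Prop := ∀ (N : ℕ) (Γ : Subgroup SL(2, ℤ)), Mid N Γ → ∀ [CFF Qb (L Γ)]
  (O : ValuationSubring Qb) (p : ℕ), p.Prime → O.valuation (p : Qb) < 1 → ¬ p ∣ N →
  ∀ (I : Subgroup GQ) (r : GQ → L Γ ≃+* L Γ), D.Ine O I →
  (∀ σ ∈ I, ∀ x, ((r σ x : L Γ) : FF) = X.gal σ x) → Nonempty (D.Atlas O I r)

end Vale.Agent.P027M.G
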