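import Vale.Agent.P027M.G.Mod0
import Vale.Agent.P027M.G.Brid
import Vale.Agent.P027M.G.Sub

/-!
# P027, route M, block G: good reduction of the modular curves
-/

set_option linter.all false

noncomputable section

namespace Vale.Agent.P027M.G

open Polynomial IntermediateField Module P025H373 P025H746 Vale.Agent.P019P P025H492 P025H816
open Vale.Agent.P022 Vale.Agent.P022.H542.L3 Vale.Agent.P022.H218.L3 Vale.Agent.P022.H236.L3
open Vale.Agent.P027M.M (io FF cv L G0 Gt GH Lv Mid Mdl NZ)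
open _root_.P027M.K (Val)
open scoped MatrixGroups

namespace Modg

open Classical in
theorem unr_inv {k F : Type} [Field k] [Field F] [Algebra k F] [CFF k F] {u : F} {α β : k}
    (hα : α ≠ 0) (hβ : β ≠ 0) (h : ∀ (P : Plk k F) (a : k), a ≠ α → a ≠ β →
      0 < ord P (u - algebraMap k F a) → ord P (u - algebraMap k F a) = 1) :
    Unr u⁻¹ ({α⁻¹, β⁻¹, 0} : Finset k) := by
  constructor
  · intro P hP
    have h1 := h P 0 hα.symm hβ.symm
    rw [map_zero, sub_zero] at h1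
    rw [ord_inv] at hP ⊢
    rw [h1 (by omega)]
  · intro P a ha hP
    simp only [Finset.mem_insert, Finset.mem_singleton, not_or] at ha
    obtain ⟨h1, h2, h3⟩ := ha
    have h4 : Val P u⁻¹ a := mem_Mge.2 (Or.inr hP)
    obtain ⟨h5, h6⟩ := h4.unit h3
    have h7 : algebraMap k F a ≠ 0 := by rwa [Ne, map_eq_zero]
    have hu : u ≠ 0 := fun e => h5 (by rw [e, inv_zero])
    have e : u⁻¹ - algebraMap k F a = algebraMap k F (-a) * ((u - algebraMap k F a⁻¹) * u⁻¹) := by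
      rw [map_neg, map_inv₀]
      field_simp
      ring
    have h8 : u - algebraMap k F a⁻¹ ≠ 0 := by
      intro h0
      rw [e, h0, zero_mul, mul_zero, ord_zero] at hP
      exact lt_irrefl _ hP
    rw [e, ord_mul P (by rwa [map_neg, neg_ne_zero]) (mul_ne_zero h8 h5), ord_mul P h8 h5,
      ord_const, h6, zero_add, add_zero] at hP ⊢
    exact h P a⁻¹ (fun e => h1 (by rw [← e, inv_inv])) (fun e => h2 (by rw [← e, inv_inv])) hP

variable {C : Type} [NontriviallyNormedField C] [IsUltrametricDist C]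

open Classical in
theorem sok {α β : C} (hα : ‖α‖ = 1) (hβ : ‖β‖ = 1) (h : ‖α - β‖ = 1) :
    SOk ({α⁻¹, β⁻¹, 0} : Finset C) := by
  have a0 : α ≠ 0 := fun e => by simp [e] at hα
  have b0 : β ≠ 0 := fun e => by simp [e] at hβ
  have h1 : ‖β⁻¹ - α⁻¹‖ = 1 := by
    rw [inv_sub_inv b0 a0, norm_div, norm_mul, h, hα, hβ, mul_one, div_one]
  have h2 : ‖α⁻¹ - β⁻¹‖ = 1 := by rw [norm_sub_rev, h1]
  constructor
  · intro s hs
    simp only [Finset.mem_insert, Finset.mem_singleton] at hs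
    rcases hs with rfl | rfl | rfl <;> simp [hα, hβ]
  · intro s hs s' hs' hne
    simp only [Finset.mem_insert, Finset.mem_singleton] at hs hs'
    rcases hs with rfl | rfl | rfl <;> rcases hs' with rfl | rfl | rfl <;>
      first | exact absurd rfl hne | exact h1 | exact h2 | simp [hα, hβ]

theorem norm_nat {A : AV} {O : ValuationSubring ℂ} (hA : A.On O) {n : ℕ} (h0 : n ≠ 0)
    (h : (n : ℂ)⁻¹ ∈ O) : ‖(n : Qv A)‖ = 1 := by
  have h1 : ‖(n : Qv A)⁻¹‖ ≤ 1 := (hA (n : Qb)⁻¹).1 (by rwa [map_inv₀, map_natCast])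
  have h2 : (0 : ℝ) < ‖(n : Qv A)‖ := norm_pos_iff.2 (Nat.cast_ne_zero.2 h0)
  rw [norm_inv, inv_le_one₀ h2] at h1
  exact le_antisymm (IsUltrametricDist.norm_natCast_le_one _ n) h1

theorem norm_two {A : AV} {O : ValuationSubring ℂ} (hA : A.On O) {N : ℕ} (hN : Lv N)
    (h : (N : ℂ)⁻¹ ∈ O) : ‖(2 : Qv A)‖ = 1 := by
  have h1 := norm_nat hA hN.pos.ne' h
  obtain ⟨c, rfl⟩ := hN.four
  have e : ((4 * c : ℕ) : Qv A) = 2 * ((2 * c : ℕ) : Qv A) := by push_cast; ring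
  rw [e, norm_mul] at h1
  have h2 : ‖(2 : Qv A)‖ ≤ 1 := by
    simpa using IsUltrametricDist.norm_natCast_le_one (Qv A) 2
  have h3 := IsUltrametricDist.norm_natCast_le_one (Qv A) (2 * c)
  nlinarith [norm_nonneg (2 : Qv A), norm_nonneg ((2 * c : ℕ) : Qv A)]

/-- the matrix of the cusp `1 / c` -/
def low (c : ℤ) : SL(2, ℤ) := ⟨!![1, 0; c, 1], by simp [Matrix.det_fin_two]⟩

end Modg

open Modg in
theorem modg (X : Mdl) (hGB : GB) (hE : EXP) (hG : M.GRP) (hAr : M.ARTIN X) (hC : M.CFFS)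
    (hP : M.PLA X) (hT : GALT X) (hCu : CUSPM X) : MODG X := by
  classical
  intro A O w N Γ h _ hA hw hN
  obtain ⟨fi, -, hm, -⟩ := hG N h.lv
  haveI : CFF Qb (L (Gt N)) := hC _ hm.hi fi
  haveI := (hT A N hm).1
  obtain ⟨W, hW⟩ := H619.L3.chev O
  have h2 := norm_two hA h.lv hN
  have hS : SOk ({(2 : Qv A)⁻¹, (-2 : Qv A)⁻¹, 0} : Finset (Qv A)) :=
    sok h2 (by rwa [norm_neg]) (by
      rw [show (2 : Qv A) - -2 = 2 * 2 by norm_num, norm_mul, h2, mul_one])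
  have hU : Unr (k := Qv A) (X.tL hm.hi)⁻¹ ({(2 : Qv A)⁻¹, (-2 : Qv A)⁻¹, 0} : Finset (Qv A)) :=
    unr_inv two_ne_zero (neg_ne_zero.2 two_ne_zero) fun P a => hP N _ hm P a
  have ex := fun (s : Qv A) (hs : s ∈ ({(2 : Qv A)⁻¹, (-2 : Qv A)⁻¹, 0} : Finset (Qv A)))
    (θ : L (Gt N) →+* LS) (hθ : Cusp A.io O (X.tL hm.hi)⁻¹ (RN X N) s θ) =>
    hE (Qv A) (L (Gt N)) (X.tL hm.hi)⁻¹ A.io O W (RN X N) s θ hA hW (hS.le s hs) hθ
  obtain ⟨θ, hθ1, hθ2⟩ := hCu A O N hm hA hN 1 2⁻¹ (Or.inl ⟨by simp, rfl⟩)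
  obtain ⟨v, hv, hv1, -, hF, hv2⟩ := ex _ (by simp) θ hθ2
  have hg : Good v (X.tL hm.hi)⁻¹ := by
    refine hGB (Qv A) (L (Gt N)) _ v (RN X N) _ hv hF hS hU fun s hs => ?_
    have hs' := hs
    simp only [Finset.mem_insert, Finset.mem_singleton] at hs'
    rcases hs' with rfl | rfl | rfl
    · exact ⟨v, hv, hv2⟩
    · obtain ⟨θ', -, h3⟩ := hCu A O N hm hA hN (low 2) (-2)⁻¹
        (Or.inr (Or.inl ⟨by simp [low], by rw [inv_neg]⟩))
      obtain ⟨v', h4, -, -, -, h5⟩ := ex _ hs θ' h3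
      exact ⟨v', h4, h5⟩
    · obtain ⟨θ', -, h3⟩ := hCu A O N hm hA hN (low 1) 0 (Or.inr (Or.inr ⟨by simp [low], rfl⟩))
      obtain ⟨v', h4, -, -, -, h5⟩ := ex _ hs θ' h3
      exact ⟨v', h4, h5⟩
  have hvw : ∀ x : L (Gt N), v x = w (x : FF) := by
    have : v = w.comap (L (Gt N)) := nv_eq fun x => by
      have h3 := hθ1 x
      rw [inv_one, map_one, AlgEquiv.one_apply] at h3
      rw [hv1, ← (hw W hW N x (θ x) h.lv.pos h3).1]
      rfl
    intro x
    rw [this]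
    rfl
  letI := M.algL h.lo
  haveI := towerV A h.lo
  haveI : FiniteDimensional (L Γ) (L (Gt N)) := (hAr Γ (Gt N) h.lo fi).1
  haveI : NVExt (w.comap (L Γ)) v := ⟨fun x => hvw _⟩
  have hg' := hg.inv
  rw [inv_inv] at hg'
  exact Good.sub (K := L (Gt N)) (w := v) _ hg'

end Vale.Agent.P027M.G
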