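import Vale.Agent.P025.R2.H746.Stab
import Vale.Agent.P025.R2.H992.On
import Vale.Agent.P027M.K.Loc

/-!
# P027 route M, block G, SP file 1: one absolute value of full residue degree
-/

set_option linter.all false

noncomputable section

namespace Vale.Agent.P027M.Gs

open Polynomial IntermediateField P025H373 P025H746 Vale.Agent.P019P P025H492 P027M.K

section abs

variable {C K : Type*} [NontriviallyNormedField C] [IsUltrametricDist C] [Field K] [Algebra C K]
  {w : NV C K}

theorem w_smul (c : C) (x : K) : w (c • x) = ‖c‖ * w x := by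
  rw [Algebra.smul_def, map_mul, w.ext']

theorem red_smul {c : C} (hc : ‖c‖ ≤ 1) {x : K} (hx : w x ≤ 1) :
    w.red (c • x) = cred c • w.red x := by
  rw [Algebra.smul_def, Algebra.smul_def, NV.red_mul (by rwa [w.ext']) hx, NV.red_algebraMap hc]

theorem w_pos {x : K} (hx : x ≠ 0) : 0 < w x := w.av.pos hx

theorem ne_of_w {x : K} (hx : w x = 1) : x ≠ 0 := by
  rintro rfl
  rw [map_zero] at hx
  exact zero_ne_one hx

theorem w_eq_one {x : K} (hx : w x ≤ 1) (h : w.red x ≠ 0) : w x = 1 := by
  by_contra h1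
  exact h (NV.red_of_lt (lt_of_le_of_ne hx h1))

theorem red_prod {ι : Type*} (s : Finset ι) {f : ι → K} (h : ∀ i ∈ s, w (f i) ≤ 1) :
    w (∏ i ∈ s, f i) ≤ 1 ∧ w.red (∏ i ∈ s, f i) = ∏ i ∈ s, w.red (f i) := by
  classical
  induction s using Finset.induction_on with
  | empty => simp
  | insert i s hi ih =>
    obtain ⟨h1, h2⟩ := ih fun j hj => h j (Finset.mem_insert_of_mem hj)
    have h3 := h i (Finset.mem_insert_self _ _)
    rw [Finset.prod_insert hi, Finset.prod_insert hi, NV.red_mul h3 h1, h2]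
    exact ⟨NV.mul_le_one h3 h1, rfl⟩

theorem red_zpow {x : K} (hx : w x = 1) (n : ℤ) :
    w (x ^ n) = 1 ∧ w.red (x ^ n) = w.red x ^ n := by
  refine ⟨by rw [map_zpow₀, hx, one_zpow], ?_⟩
  cases n with
  | ofNat n => rw [Int.ofNat_eq_natCast, zpow_natCast, zpow_natCast, NV.red_pow hx.le]
  | negSucc n =>
    rw [zpow_negSucc, zpow_negSucc, NV.red_inv (by rw [map_pow, hx, one_pow]), NV.red_pow hx.le]

/-- the reductions of the integral elements of a subspace -/
def redS (w : NV C K) (V : Submodule C K) : Submodule (kC C) (kap w) where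
  carrier := {y | ∃ x ∈ V, w x ≤ 1 ∧ w.red x = y}
  zero_mem' := ⟨0, zero_mem _, by simp, NV.red_zero⟩
  add_mem' := by
    rintro _ _ ⟨x, h1, h2, rfl⟩ ⟨y, h3, h4, rfl⟩
    exact ⟨x + y, add_mem h1 h3, NV.add_le h2 h4, NV.red_add h2 h4⟩
  smul_mem' := by
    rintro a _ ⟨x, h1, h2, rfl⟩
    obtain ⟨c, hc, rfl⟩ := cred_surj a
    refine ⟨c • x, V.smul_mem c h1, ?_, red_smul hc h2⟩
    rw [w_smul]
    exact mul_le_one₀ hc (w.av.nonneg _) h2

theorem mem_redS {V : Submodule C K} {y : kap w} :
    y ∈ redS w V ↔ ∃ x ∈ V, w x ≤ 1 ∧ w.red x = y := Iff.rfl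

/-- every vector is normed by a functional -/
def HB (w : NV C K) (V : Submodule C K) : Prop :=
  ∀ v ∈ V, v ≠ 0 → ∃ l : K →ₗ[C] C, (∀ x ∈ V, ‖l x‖ ≤ w x) ∧ ‖l v‖ = w v

theorem HB.fam (n : ℕ) : ∀ (V : Submodule C K) [FiniteDimensional C V], HB w V →
    n ≤ Module.finrank C V →
    ∃ b : Fin n → kap w, (∀ j, b j ∈ redS w V) ∧ LinearIndependent (kC C) b := by
  induction n with
  | zero => exact fun V _ _ _ => ⟨Fin.elim0, fun j => j.elim0, linearIndependent_empty_type⟩
  | succ n ih =>
    intro V _ hV hn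
    obtain ⟨v, hv, hv0⟩ : ∃ v ∈ V, v ≠ 0 := by
      refine Submodule.exists_mem_ne_zero_of_ne_bot fun h => ?_
      rw [h, finrank_bot] at hn
      omega
    obtain ⟨l, hl, hlv⟩ := hV v hv hv0
    have hl0 : l v ≠ 0 := by
      rw [← norm_pos_iff, hlv]
      exact w_pos hv0
    set u := (l v)⁻¹ • v with hu
    have huV : u ∈ V := V.smul_mem _ hv
    have hlu : l u = 1 := by rw [hu, map_smul, smul_eq_mul, inv_mul_cancel₀ hl0]
    have hwu : w u = 1 := by
      rw [hu, w_smul, norm_inv, hlv, inv_mul_cancel₀ (w_pos hv0).ne']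
    set V' := V ⊓ LinearMap.ker l with hV'
    haveI : FiniteDimensional C V' := Submodule.finiteDimensional_inf_left _ _
    have hle : V ≤ V' ⊔ Submodule.span C {u} := by
      intro x hx
      have e : x = (x - l x • u) + l x • u := by abel
      rw [e]
      refine Submodule.add_mem_sup ⟨sub_mem hx (V.smul_mem _ huV), ?_⟩
        (Submodule.smul_mem _ _ (Submodule.mem_span_singleton_self u))
      change l (x - l x • u) = 0
      rw [map_sub, map_smul, hlu, smul_eq_mul, mul_one, sub_self]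
    have h1 := Submodule.finrank_mono hle
    have h2 := Submodule.finrank_add_le_finrank_add_finrank V' (Submodule.span C {u})
    rw [finrank_span_singleton (ne_of_w hwu)] at h2
    obtain ⟨b, hb1, hb2⟩ := ih V' (fun x hx hx0 => by
      obtain ⟨l', h3, h4⟩ := hV x hx.1 hx0
      exact ⟨l', fun y hy => h3 y hy.1, h4⟩) (by omega)
    refine ⟨Fin.cons (w.red u) b, fun j => ?_, ?_⟩
    · refine Fin.cases ⟨u, huV, hwu.le, rfl⟩ (fun j => ?_) j
      obtain ⟨x, h3, h4, h5⟩ := hb1 j
      exact ⟨x, h3.1, h4, h5⟩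
    · rw [linearIndependent_finCons]
      refine ⟨hb2, fun h => ?_⟩
      have h3 : Submodule.span (kC C) (Set.range b) ≤ redS w V' :=
        Submodule.span_le.2 (by rintro _ ⟨j, rfl⟩; exact hb1 j)
      obtain ⟨x, h4, h5, h6⟩ := h3 h
      have h7 : w (u - x) < 1 := by
        rw [← NV.red_eq_zero (NV.sub_le hwu.le h5), NV.red_sub hwu.le h5, h6, sub_self]
      have h8 := hl (u - x) (sub_mem huV h4.1)
      have h9 : l x = 0 := h4.2
      rw [map_sub, hlu, h9, sub_zero, norm_one] at h8
      linarith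

end abs

section full

variable {C K : Type*} [NontriviallyNormedField C] [IsUltrametricDist C] [IsAlgClosed C]
  [Field K] [Algebra C K] [CFF C K] {w : NV C K} {T : K}

/-- `w` lies over the Gauss norm of `T` and has full residue degree -/
structure Full (w : NV C K) (T : K) : Prop where
  og : w.OverG T
  deg : Module.finrank C⟮T⟯ K ≤ Module.finrank (kC C)⟮w.red T⟯ (kap w)

theorem Full.fin (h : Full w T) : FiniteDimensional C⟮T⟯ K := CFld_finite h.og.transc

theorem Full.nc (h : Full w T) (a : C) : T ≠ algebraMap C K a := fun e =>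
  h.og.transc (e ▸ isAlgebraic_algebraMap a)

theorem Full.wT (h : Full w T) : w T = 1 := h.og.apply_T

theorem Full.cff (h : Full w T) : CFF (kC C) (kap w) :=
  haveI := h.fin
  h.og.cff

theorem Full.deg_eq (h : Full w T) :
    Module.finrank (kC C)⟮w.red T⟯ (kap w) = Module.finrank C⟮T⟯ K := by
  haveI := h.fin
  have := sum_finrank_le (T := T) (fun _ : Unit => w) (fun _ _ _ => rfl) (fun _ => h.og)
  simp only [Finset.univ_unique, Finset.sum_singleton] at this
  exact le_antisymm this h.deg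

theorem Full.uniq (h : Full w T) {v : NV C K} (hv : v.OverG T) : v = w := by
  haveI := h.fin
  by_contra hne
  have h1 := sum_finrank_le (T := T) (fun b : Bool => if b then v else w)
    (by
      intro a b hab
      cases a <;> cases b
      · rfl
      · exact absurd hab.symm hne
      · exact absurd hab hne
      · rfl)
    (by intro b; cases b; exact h.og; exact hv)
  rw [Fintype.sum_bool] at h1
  haveI := hv.finite
  have h2 : 0 < Module.finrank (kC C)⟮v.red T⟯ (kap v) := Module.finrank_pos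
  have h3 := h.deg
  change Module.finrank (kC C)⟮v.red T⟯ (kap v) + Module.finrank (kC C)⟮w.red T⟯ (kap w) ≤ _ at h1
  omega

theorem Full.inv (h : Full w T) : Full w T⁻¹ :=
  ⟨h.og.inv, by rw [NV.red_inv h.wT, cDeg_finrank_inv, cDeg_finrank_inv]; exact h.deg⟩

theorem Full.norm (h : Full w T) (x : K) : ∃ c : C, ‖c‖ = w x :=
  haveI := h.fin
  exists_norm_eq h.og x

theorem Full.scale (h : Full w T) {x : K} (hx : x ≠ 0) : ∃ c : C, c ≠ 0 ∧ w (c • x) = 1 := by
  obtain ⟨c, hc⟩ := h.norm x
  have h0 : 0 < w x := w_pos hx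
  have h1 : c ≠ 0 := by rwa [← norm_pos_iff, hc]
  exact ⟨c⁻¹, inv_ne_zero h1, by rw [w_smul, norm_inv, hc, inv_mul_cancel₀ h0.ne']⟩

theorem Full.hb (h : Full w T) (V : Submodule C K) [FiniteDimensional C V] : HB w V := by
  classical
  haveI := h.fin
  obtain ⟨n, z, hz⟩ := P025H992.exists_on h.og.transc (by
    rw [Fintype.sum_eq_single ⟨w, h.og⟩ fun v hv => absurd (Subtype.ext (h.uniq v.2)) hv]
    exact h.deg_eq)
  let φ : (Fin n → C[X]) →ₗ[C] K :=
    { toFun := fun P => ∑ k, aeval T (P k) * z k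
      map_add' := fun P P' => by
        simp only [Pi.add_apply, map_add, add_mul, Finset.sum_add_distrib]
      map_smul' := fun c P => by
        simp only [Pi.smul_apply, map_smul, RingHom.id_apply, Finset.smul_sum, smul_mul_assoc] }
  have hφa : ∀ P, φ P = ∑ k, aeval T (P k) * z k := fun _ => rfl
  have hφ : ∀ P k, gp (P k) ≤ w (φ P) := fun P =>
    hz.on P _ fun v hv => by rw [h.uniq hv]; exact le_rfl
  have hinj : LinearMap.ker φ = ⊥ := by
    rw [LinearMap.ker_eq_bot']
    intro P hP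
    funext k
    have := hφ P k
    rw [hP, map_zero] at this
    exact gp_eq_zero.1 (le_antisymm this (gp_nonneg _))
  obtain ⟨ψ, hψ⟩ := φ.exists_leftInverse_of_injective hinj
  -- a common denominator
  obtain ⟨s, hs⟩ : V.FG := (Submodule.fg_iff_finiteDimensional V).2 inferInstance
  choose Q P hQ hQP using hz.span
  obtain ⟨i0, hi0⟩ := exists_coeff_eq (∏ x ∈ s, Q x)
  have hQ0 : ∏ x ∈ s, Q x ≠ 0 := Finset.prod_ne_zero_iff.2 fun x _ => hQ x
  have hg0 : 0 < gp (∏ x ∈ s, Q x) :=
    lt_of_le_of_ne (gp_nonneg _) fun e => hQ0 (gp_eq_zero.1 e.symm)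
  have hc0 : (∏ x ∈ s, Q x).coeff i0 ≠ 0 := by rwa [← norm_pos_iff, hi0]
  set q : K := ((∏ x ∈ s, Q x).coeff i0)⁻¹ • aeval T (∏ x ∈ s, Q x) with hq
  have hwq : w q = 1 := by
    rw [hq, w_smul, h.og, norm_inv, hi0, inv_mul_cancel₀ hg0.ne']
  have hV : ∀ x ∈ V, q * x ∈ LinearMap.range φ := by
    have : V ≤ (LinearMap.range φ).comap (LinearMap.mulLeft C q) := by
      rw [← hs, Submodule.span_le]
      intro x hx
      change q * x ∈ LinearMap.range φ
      rw [hq, smul_mul_assoc, ← Finset.prod_erase_mul s Q hx, map_mul, mul_assoc, hQP x]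
      refine Submodule.smul_mem _ _ ⟨fun k => (∏ y ∈ s.erase x, Q y) * P x k, ?_⟩
      rw [hφa, Finset.mul_sum]
      exact Finset.sum_congr rfl fun k _ => by rw [map_mul, mul_assoc]
    exact fun x hx => this hx
  have hψφ : ∀ P, ψ (φ P) = P := fun P => DFunLike.congr_fun hψ P
  intro v hv hv0
  obtain ⟨P0, hP0⟩ := hV v hv
  have hne : Nonempty (Fin n) := by
    by_contra hn
    rw [not_nonempty_iff] at hn
    have : φ P0 = 0 := (hφa P0).trans (Finset.sum_eq_zero fun k _ => hn.elim k)
    rw [hP0] at this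
    exact mul_ne_zero (ne_of_w hwq) hv0 this
  obtain ⟨k, hk⟩ := Finite.exists_max fun k => gp (P0 k)
  obtain ⟨i, hi⟩ := exists_coeff_eq (P0 k)
  refine ⟨(lcoeff C i) ∘ₗ (LinearMap.proj k) ∘ₗ ψ ∘ₗ LinearMap.mulLeft C q, fun x hx => ?_, ?_⟩
  · obtain ⟨P1, hP1⟩ := hV x hx
    change ‖(ψ (q * x) k).coeff i‖ ≤ _
    rw [← hP1, hψφ]
    refine (norm_coeff_le _ _).trans ((hφ P1 k).trans_eq ?_)
    rw [hP1, map_mul, hwq, one_mul]
  · change ‖(ψ (q * v) k).coeff i‖ = _
    rw [← hP0, hψφ, hi]
    have e : w v = w (φ P0) := by rw [hP0, map_mul, hwq, one_mul]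
    rw [e]
    refine le_antisymm (hφ P0 k) ?_
    rw [hφa]
    refine NV.sum_le (gp_nonneg _) fun j _ => ?_
    rw [map_mul, h.og]
    exact (mul_le_of_le_one_right (gp_nonneg _) (hz.le w h.og j)).trans (hk j)

/-- **DIM** -/
theorem Full.fam (h : Full w T) (V : Submodule C K) [FiniteDimensional C V] :
    ∃ b : Fin (Module.finrank C V) → kap w,
      (∀ j, b j ∈ redS w V) ∧ LinearIndependent (kC C) b :=
  HB.fam _ V (h.hb V) le_rfl

theorem Full.dim (h : Full w T) (V : Submodule C K) [FiniteDimensional C V]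
    (L : Submodule (kC C) (kap w)) [FiniteDimensional (kC C) L] (hL : redS w V ≤ L) :
    Module.finrank C V ≤ Module.finrank (kC C) (redS w V) := by
  obtain ⟨b, h1, h2⟩ := h.fam V
  haveI : FiniteDimensional (kC C) (redS w V) := Submodule.finiteDimensional_of_le hL
  have h3 : LinearIndependent (kC C) (fun j => (⟨b j, h1 j⟩ : redS w V)) :=
    LinearIndependent.of_comp (redS w V).subtype h2
  simpa using h3.fintype_card_le_finrank

theorem Full.red_eq (h : Full w T) (V : Submodule C K) [FiniteDimensional C V]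
    (L : Submodule (kC C) (kap w)) [FiniteDimensional (kC C) L] (hL : redS w V ≤ L)
    (hd : Module.finrank (kC C) L ≤ Module.finrank C V) : redS w V = L :=
  Submodule.eq_of_le_of_finrank_le hL (hd.trans (h.dim V L hL))

/-- a non constant function has a translate with non constant reduction -/
theorem Full.exists_nc (h : Full w T) {f : K} (hf : ∀ a : C, f ≠ algebraMap C K a) :
    ∃ a b : C, w (algebraMap C K a + b • f) ≤ 1 ∧
      ∀ c : kC C, w.red (algebraMap C K a + b • f) ≠ algebraMap (kC C) (kap w) c := by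
  have hli : LinearIndependent C ![(1 : K), f] := by
    rw [LinearIndependent.pair_iff' one_ne_zero]
    intro a e
    exact hf a (by rw [← e, Algebra.smul_def, mul_one])
  haveI : FiniteDimensional C (Submodule.span C (Set.range ![(1 : K), f])) :=
    FiniteDimensional.span_of_finite C (Set.finite_range _)
  obtain ⟨b, h1, h2⟩ := HB.fam 2 _ (h.hb (Submodule.span C (Set.range ![(1 : K), f])))
    (by rw [finrank_span_eq_card hli]; simp)
  by_contra hcon
  push Not at hcon
  have key : ∀ j, ∃ c : kC C, b j = algebraMap (kC C) (kap w) c := by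
    intro j
    obtain ⟨x, hx, h3, h4⟩ := h1 j
    obtain ⟨c, rfl⟩ := (Submodule.mem_span_range_iff_exists_fun C).1 hx
    rw [Fin.sum_univ_two] at h3 h4
    simp only [Matrix.cons_val_zero, Matrix.cons_val_one] at h3 h4
    rw [Algebra.smul_def, mul_one] at h3 h4
    obtain ⟨c', hc'⟩ := hcon _ _ h3
    exact ⟨c', h4 ▸ hc'⟩
  have h3 : Submodule.span (kC C) (Set.range b) ≤ Submodule.span (kC C) {(1 : kap w)} := by
    rw [Submodule.span_le]
    rintro _ ⟨j, rfl⟩
    obtain ⟨c, hc⟩ := key j
    rw [hc, Algebra.algebraMap_eq_smul_one]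
    exact Submodule.smul_mem _ _ (Submodule.mem_span_singleton_self _)
  have h4 := Submodule.finrank_mono h3
  rw [finrank_span_eq_card h2, finrank_span_singleton one_ne_zero] at h4
  simp at h4

end full

end Vale.Agent.P027M.Gs
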