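import Vale.Agent.P027M.G.Sp2

/-!
# P027 route M, block G, SP file 3: reduction of divisors
-/

set_option linter.all false

noncomputable section

namespace Vale.Agent.P027M.Gs

open Polynomial IntermediateField P025H373 P025H746 Vale.Agent.P019P P025H492 P027M.K

open Classical in
theorem mapDomain_apply' {α β : Type*} (s : α → β) (D : α →₀ ℤ) (b : β) :
    Finsupp.mapDomain s D b = ∑ a ∈ D.support.filter (fun a => s a = b), D a := by
  rw [Finsupp.mapDomain, Finsupp.sum_apply, Finsupp.sum, Finset.sum_filter]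
  exact Finset.sum_congr rfl fun a _ => Finsupp.single_apply

theorem dg_map {α β : Type*} (s : α → β) (D : α →₀ ℤ) : dg (D.mapDomain s) = dg D := by
  induction D using Finsupp.induction_linear with
  | zero => rw [Finsupp.mapDomain_zero, map_zero, map_zero]
  | add f g hf hg => rw [Finsupp.mapDomain_add, map_add, map_add, hf, hg]
  | single a b => rw [Finsupp.mapDomain_single, dg_sgl, dg_sgl]

theorem map_nonneg' {α β : Type*} (s : α → β) {D : α →₀ ℤ} (h : 0 ≤ D) : 0 ≤ D.mapDomain s := by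
  intro b
  rw [mapDomain_apply']
  exact Finset.sum_nonneg fun a _ => h a

section gen

variable {k F : Type*} [Field k] [Field F] [Algebra k F] [CFF k F]

theorem mul_LL {D E : Plk k F →₀ ℤ} {x y : F} (hx : x ∈ LL k D) (hy : y ∈ LL k E) :
    x * y ∈ LL k (D + E) := by
  rw [mem_LL_iff] at *
  intro P
  rw [Finsupp.add_apply, neg_add]
  exact mul_mem_Mge (hx P) (hy P)

theorem const_LL {D : Plk k F →₀ ℤ} (hD : 0 ≤ D) (c : k) : algebraMap k F c ∈ LL k D :=
  Or.inr fun P => by rw [ord_const]; exact neg_nonpos.2 (hD P)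

theorem pow_LL {D : Plk k F →₀ ℤ} {x : F} (hx : x ∈ LL k D) (n : ℕ) : x ^ n ∈ LL k (n • D) := by
  induction n with
  | zero => rw [pow_zero, zero_smul, ← map_one (algebraMap k F)]; exact const_LL le_rfl 1
  | succ n ih => rw [pow_succ, succ_nsmul]; exact mul_LL ih hx

theorem self_LL (x : F) : x ∈ LL k (pol k x) := Or.inr fun P => by rw [pol_apply]; omega

theorem pol_le {D : Plk k F →₀ ℤ} (hD : 0 ≤ D) {x : F} (hx : x ∈ LL k D) : pol k x ≤ D := by
  intro P
  have h0 : 0 ≤ D P := hD P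
  rw [pol_apply]
  rcases hx with rfl | hx
  · rw [ord_zero]; omega
  · have := hx P; omega

theorem dg_pol_inv (x : F) : dg (pol k x⁻¹) = dg (pol k x) := by
  have := dg_dv (k := k) x
  rw [dv_eq_pol_sub, map_sub] at this
  omega

end gen

variable {C K : Type*} [NontriviallyNormedField C] [IsUltrametricDist C] [IsAlgClosed C]
  [Field K] [Algebra C K] [CFF C K] {w : NV C K} {T : K} [CFF (kC C) (kap w)]

theorem red_sub_lt {x : K} (hx : w x = 1) {c : C} (hc : ‖c‖ < 1) :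
    w (x - algebraMap C K c) = 1 ∧ w.red (x - algebraMap C K c) = w.red x := by
  have h1 := red_sub_const hx.le hc.le
  rw [(cred_eq_zero hc.le).2 hc, map_zero, sub_zero] at h1
  exact ⟨w_eq_one h1.1 (by rw [h1.2]; exact NV.red_ne_zero hx), h1.2⟩

/-- a function without poles in the class has a regular reduction -/
theorem Gd.mem_of_rel (h : Gd w T) {P : Plk (kC C) (kap w)} (hP : w.red T ∈ P.1) {x : K}
    (hx : w x ≤ 1) (hc : ∀ Q, Rel w T Q P → x ∈ Q.1) : w.red x ∈ P.1 := by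
  classical
  set S := (pol C x).support.filter fun Q => T ∈ Q.1 with hS
  have hT := h.toFull.wT
  have key : ∀ Q ∈ S, ∃ y b, Reg C T y ∧ w y ≤ 1 ∧ Val Q y 0 ∧ b ≠ 0 ∧ Val P (w.red y) b := by
    intro Q hQ
    rw [hS, Finset.mem_filter, Finsupp.mem_support_iff] at hQ
    obtain ⟨a, ha⟩ := val_of_mem hQ.2
    by_cases h1 : ‖a‖ ≤ 1
    · obtain ⟨P', hP'⟩ := h.exists_rel h1 ha
      have hne : P ≠ P' := fun e => hQ.1 (pol_eq_zero (hc Q (e ▸ hP')))
      obtain ⟨y, b, h2, h3, h4, h5, h6⟩ := h.sep hP hP'.2.1 hne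
      obtain ⟨c, h7⟩ := val_of_mem (h2 Q hQ.2)
      have h8 := (h.toFull.val_le h1 ha h2 h7).trans h3
      have h9 := red_sub_const h3 h8
      rw [(hP'.2.2 y c h2 h3 h7).unique h6, map_zero, sub_zero] at h9
      exact ⟨y - algebraMap C K c, b, h2.sub (Reg.const T c), h9.1, val_sub_self h7, h4,
        h9.2.symm ▸ h5⟩
    · push Not at h1
      have h0 : a ≠ 0 := by rintro rfl; rw [norm_zero] at h1; linarith
      have h2 : w (algebraMap C K a⁻¹ * T) < 1 := by
        rw [map_mul, hT, mul_one, w_const, norm_inv]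
        exact inv_lt_one_of_one_lt₀ h1
      refine ⟨1 - algebraMap C K a⁻¹ * T, 1, ?_, NV.sub_le (by simp) h2.le, ?_, one_ne_zero, ?_⟩
      · exact fun R hR => sub_mem (one_mem _) (mul_mem (R.2.1 _) hR)
      · have := (Val.one Q).sub ((Val.const Q a⁻¹).mul ha)
        rwa [inv_mul_cancel₀ h0, sub_self] at this
      · rw [NV.red_sub (by simp) h2.le, NV.red_of_lt h2, NV.red_one, sub_zero]
        exact Val.one P
  choose! y b hy1 hy2 hy3 hy4 hy5 using key
  obtain ⟨N, hN⟩ := exists_bound (k := C) x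
  have hB := red_prod S hy2
  have hu := (((val_prod S hy5).pow N).unit
    (pow_ne_zero N (Finset.prod_ne_zero_iff.2 hy4)))
  rw [← hB.2, ← NV.red_pow hB.1] at hu
  have hw := NV.pow_le_one' hB.1 N
  have hB0 : (∏ Q ∈ S, y Q) ^ N ≠ 0 := ne_of_w (w_eq_one hw hu.1)
  have hreg : Reg C T ((∏ Q ∈ S, y Q) ^ N * x) := by
    intro Q hQ
    have h1 : ∏ Q ∈ S, y Q ∈ Q.1 := prod_mem fun R hR => hy1 R hR Q hQ
    by_cases hx' : x ∈ Q.1
    · exact mul_mem (pow_mem h1 N) hx'
    have hQS : Q ∈ S := by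
      rw [hS, Finset.mem_filter, Finsupp.mem_support_iff]
      exact ⟨by have := pol_pos hx'; omega, hQ⟩
    have h2 : ∏ Q ∈ S, y Q ∈ Mge Q 1 := by
      rw [← Finset.mul_prod_erase S _ hQS]
      have := mul_mem_Mge (Val.zero_iff.1 (hy3 Q hQS)) (mem_iff_Mge.1 (prod_mem fun R hR =>
        hy1 R (Finset.mem_of_mem_erase hR) Q hQ : ∏ R ∈ S.erase Q, y R ∈ Q.1))
      rwa [add_zero] at this
    have h3 := (abs_le.1 (hN Q)).1
    have h4 : ¬ 0 ≤ ord Q x := fun e => hx' (mem_of_ord e)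
    have h5 : ∏ Q ∈ S, y Q ≠ 0 := by
      intro e
      rw [e, zero_pow (by rintro rfl; simp at h3; omega)] at hB0
      exact hB0 rfl
    have h6 := (mem_Mge.1 h2).resolve_left h5
    refine mem_of_ord ?_
    rw [ord_mul Q hB0 (by rintro rfl; exact hx' (zero_mem _)), ord_pow]
    have : (0 : ℤ) ≤ N := Int.natCast_nonneg N
    nlinarith
  have h1 := h.toFull.reg hreg (NV.mul_le_one hw hx) P hP
  rw [NV.red_mul hw hx] at h1
  by_cases h0 : w.red x = 0
  · rw [h0]; exact zero_mem _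
  have h2 := ord_nn h1
  rw [ord_mul P hu.1 h0, hu.2, zero_add] at h2
  exact mem_of_ord h2

/-- a local parameter whose degree does not drop -/
theorem Gd.param (h : Gd w T) {P : Plk (kC C) (kap w)} (hP : w.red T ∈ P.1) :
    ∃ t, w t = 1 ∧ ord P (w.red t) = 1 ∧ (∀ Q, Rel w T Q P → ∃ c, ‖c‖ < 1 ∧ Val Q t c) ∧
      dg (pol C t) ≤ dg (pol (kC C) (w.red t)) := by
  obtain ⟨a', ha'⟩ := val_of_mem hP
  obtain ⟨a, ha, rfl⟩ := cred_surj a'
  obtain ⟨n₀, hn₀⟩ := h.surj
  set n := max n₀ (2 * gen (kC C) (kap w) + 1) with hn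
  obtain ⟨z, h1, h2, -, h3, -⟩ := exists_exact' h.og.red_ne P P (le_max_right n₀ _)
  obtain ⟨x, hx1, hx2, rfl⟩ := hn₀ n (le_max_left _ _) z h2
  have h4 := h3 hP rfl
  have hTa := red_sub_const h.toFull.wT.le ha
  have hp := NV.pow_le_one' hTa.1 (n + 1)
  have hne : w.red T - algebraMap _ (kap w) (cred a) ≠ 0 := sub_ne_zero.2 (h.og.red_ne _)
  have hr : w.red (x + (T - algebraMap C K a) ^ (n + 1)) =
      w.red x + (w.red T - algebraMap _ (kap w) (cred a)) ^ (n + 1) := by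
    rw [NV.red_add hx2 hp, NV.red_pow hTa.1, hTa.2]
  have hn1 : (1 : ℤ) ≤ n := by
    have := le_max_right n₀ (2 * gen (kC C) (kap w) + 1)
    omega
  have h5 := ord_add_of_lt (P := P) h1
    (w := (w.red T - algebraMap _ (kap w) (cred a)) ^ (n + 1)) (Or.inr (by
      have := val_zero_pos (val_sub_self ha') hne
      rw [h4, ord_pow]
      push_cast
      nlinarith))
  rw [← hr, h4] at h5
  have hw := NV.add_le hx2 hp
  have hLL : x + (T - algebraMap C K a) ^ (n + 1) ∈ LL C ((n + 1) • pol C T) :=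
    add_mem (LL_mono (by rw [succ_nsmul]; exact le_add_of_nonneg_right (pol_nonneg T)) hx1)
      (pow_LL (sub_mem (self_LL T) (const_LL (pol_nonneg T) a)) _)
  refine ⟨_, w_eq_one hw h5.1, h5.2, fun Q hQ => ?_, ?_⟩
  · obtain ⟨a1, h6, h7⟩ := hQ.1
    obtain ⟨c, hc⟩ := val_of_mem (reg_of_LL hLL Q (val_mem h7))
    refine ⟨c, (cred_eq_zero ((h.toFull.val_le h6 h7 (reg_of_LL hLL) hc).trans hw)).1 ?_, hc⟩
    exact (hQ.2.2 _ c (reg_of_LL hLL) hw hc).unique (Val.zero_iff.2 (Or.inr h5.2.ge))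
  · have h6 := dg_mono (pol_le (nsmul_nonneg (pol_nonneg T) _) hLL)
    have h7 : (n + 1) • pol (kC C) (w.red T) ≤
        pol (kC C) (w.red (x + (T - algebraMap C K a) ^ (n + 1))) := by
      intro R
      rw [Finsupp.smul_apply, nsmul_eq_mul]
      by_cases hR : w.red T ∈ R.1
      · rw [pol_eq_zero hR, mul_zero]; exact pol_nonneg _ R
      have h8 := pol_pos hR
      have h9 := (h2.resolve_left h1) R
      rw [Finsupp.smul_apply, nsmul_eq_mul] at h9
      have h10 : ord R (w.red T - algebraMap _ (kap w) (cred a)) = -pol (kC C) (w.red T) R := by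
        have h11 : ¬ 0 ≤ ord R (w.red T) := fun e => hR (mem_of_ord e)
        rw [sub_eq_add_neg, ← map_neg, (ord_add_of_lt (NV.red_ne_zero h.toFull.wT)
          (Or.inr (by rw [ord_const]; omega))).2, pol_apply]
        omega
      have h11 := (ord_add_of_lt (P := R) (pow_ne_zero (n + 1) hne) (w := w.red x) (Or.inr (by
        rw [ord_pow, h10]; push_cast; nlinarith))).2
      rw [hr, add_comm (w.red x), pol_apply (_ + _), h11, ord_pow, h10, mul_neg, neg_neg]
      exact le_max_right _ _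
    have h8 := dg_mono h7
    rw [map_nsmul, dg_pol h.og.red_ne, h.toFull.deg_eq] at h8
    rw [map_nsmul, dg_pol h.toFull.nc] at h6
    exact h6.trans h8

/-- the abstract form of the theorem of Deuring -/
theorem div_of (s : Plk C K → Plk (kC C) (kap w))
    (H1 : ∀ P x, w x ≤ 1 → (∀ Q, s Q = P → x ∈ Q.1) → w.red x ∈ P.1)
    (H2 : ∀ P, ∃ t, w t = 1 ∧ ord P (w.red t) = 1 ∧ (∀ Q, s Q = P → ∃ c, ‖c‖ < 1 ∧ Val Q t c) ∧
      dg (pol C t) ≤ dg (pol (kC C) (w.red t))) {f : K} (hf : w f = 1) :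
    dv (kC C) (w.red f) = (dv C f).mapDomain s := by
  classical
  choose t ht1 ht2 ht3 ht4 using H2
  choose c hc1 hc2 using fun Q => ht3 (s Q) Q rfl
  set u : Plk C K → K := fun Q => t (s Q) - algebraMap C K (c Q) with hu
  have hu1 : ∀ Q, w (u Q) = 1 := fun Q => (red_sub_lt (ht1 _) (hc1 Q)).1
  have hu2 : ∀ Q, w.red (u Q) = w.red (t (s Q)) := fun Q => (red_sub_lt (ht1 _) (hc1 Q)).2
  have hu3 : ∀ Q, 1 ≤ ord Q (u Q) := fun Q => val_zero_pos (val_sub_self (hc2 Q)) (ne_of_w (hu1 Q))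
  have hu4 : ∀ Q Q', s Q' = s Q → 0 ≤ ord Q' (u Q) := fun Q Q' e => by
    obtain ⟨c', -, h⟩ := ht3 (s Q) Q' e
    exact ord_nn (sub_mem (val_mem h) (Q'.2.1 _))
  have mod : ∀ (f : K), w f = 1 → ∀ (P) (S : Finset (Plk C K)) (m : Plk C K → ℤ),
      (∀ Q ∈ S, s Q = P) → ∃ g, w g = 1 ∧ ord P (w.red g) = ord P (w.red f) + ∑ Q ∈ S, m Q ∧
        ∀ Q' : Plk C K, ord Q' g = ord Q' f + ∑ Q ∈ S, m Q * ord Q' (u Q) := by
    intro f hf P S m hS
    have h1 : ∀ Q ∈ S, w (u Q ^ m Q) ≤ 1 := fun Q _ => (red_zpow (hu1 Q) _).1.le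
    have h2 : ∀ Q ∈ S, u Q ^ m Q ≠ 0 := fun Q _ => ne_of_w (red_zpow (hu1 Q) _).1
    have h3 : ∀ Q ∈ S, w.red (u Q ^ m Q) ≠ 0 := fun Q _ => NV.red_ne_zero (red_zpow (hu1 Q) _).1
    refine ⟨f * ∏ Q ∈ S, u Q ^ m Q, ?_, ?_, fun Q' => ?_⟩
    · rw [map_mul, hf, one_mul, map_prod]
      exact Finset.prod_eq_one fun Q _ => (red_zpow (hu1 Q) _).1
    · rw [NV.red_mul hf.le (red_prod S h1).1, (red_prod S h1).2,
        ord_mul P (NV.red_ne_zero hf) (Finset.prod_ne_zero_iff.2 h3), ord_prod P S _ h3]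
      congr 1
      exact Finset.sum_congr rfl fun Q hQ => by
        rw [(red_zpow (hu1 Q) _).2, Vale.Agent.P019P.ord_zpow, hu2, hS Q hQ, ht2, mul_one]
    · rw [ord_mul Q' (ne_of_w hf) (Finset.prod_ne_zero_iff.2 h2), ord_prod Q' S _ h2]
      congr 1
      exact Finset.sum_congr rfl fun Q _ => Vale.Agent.P019P.ord_zpow _ _ _
  have stepA : ∀ f : K, w f = 1 → pol (kC C) (w.red f) ≤ (pol C f).mapDomain s := by
    intro f hf P
    rw [mapDomain_apply', pol_apply]
    obtain ⟨g, h1, h2, h3⟩ := mod f hf P ((pol C f).support.filter fun Q => s Q = P) (pol C f)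
      fun Q hQ => (Finset.mem_filter.1 hQ).2
    have h4 : ∀ Q', s Q' = P → ∀ Q ∈ (pol C f).support.filter fun Q => s Q = P,
        0 ≤ pol C f Q * ord Q' (u Q) := fun Q' e Q hQ =>
      mul_nonneg (pol_nonneg f Q) (hu4 Q Q' (e.trans (Finset.mem_filter.1 hQ).2.symm))
    have h5 := ord_nn (H1 P g h1.le fun Q' e => mem_of_ord (by
      rw [h3]
      by_cases h6 : pol C f Q' = 0
      · have := Finset.sum_nonneg (h4 Q' e)
        rw [pol_apply] at h6
        omega
      · have h7 := Finset.single_le_sum (h4 Q' e)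
          (Finset.mem_filter.2 ⟨Finsupp.mem_support_iff.2 h6, e⟩)
        have h8 := hu3 Q'
        have h9 : 0 ≤ pol C f Q' := pol_nonneg f Q'
        have h10 : -ord Q' f ≤ pol C f Q' := by rw [pol_apply]; omega
        nlinarith))
    have h6 : 0 ≤ ∑ Q ∈ (pol C f).support.filter fun Q => s Q = P, pol C f Q :=
      Finset.sum_nonneg fun Q _ => pol_nonneg f Q
    omega
  have stepB : ∀ Q Q', s Q' = s Q → ord Q' (u Q) = if Q = Q' then 1 else 0 := by
    intro Q Q' e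
    have hnc : ∀ a : C, t (s Q) ≠ algebraMap C K a := by
      intro a ha
      have h1 := ht2 (s Q)
      have h2 := ht1 (s Q)
      rw [ha] at h1 h2
      rw [NV.red_algebraMap (by rw [← w_const (w := w)]; exact h2.le), ord_const] at h1
      exact zero_ne_one h1
    have h1 := stepA (u Q)⁻¹ (by rw [map_inv₀, hu1, inv_one])
    have h2 := eq_of_le_of_dg_le h1 (by
      rw [dg_map, NV.red_inv (hu1 Q), dg_pol_inv, dg_pol_inv, hu2, hu, dg_pol (nc_sub hnc _),
        adjoin_sub_eq, ← dg_pol hnc]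
      exact ht4 _)
    have h3 := DFunLike.congr_fun h2 (s Q)
    rw [mapDomain_apply', NV.red_inv (hu1 Q), pol_apply, Vale.Agent.P019P.ord_inv, hu2, ht2] at h3
    have h4 : ∀ R, s R = s Q → pol C (u Q)⁻¹ R = ord R (u Q) := fun R e => by
      have := hu4 Q R e
      rw [pol_apply, Vale.Agent.P019P.ord_inv]
      omega
    have h5 : Q ∈ (pol C (u Q)⁻¹).support.filter fun R => s R = s Q :=
      Finset.mem_filter.2 ⟨Finsupp.mem_support_iff.2 (by have := hu3 Q; rw [h4 Q rfl]; omega), rfl⟩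
    rw [← Finset.add_sum_erase _ _ h5, h4 Q rfl] at h3
    have h6 : ∀ R ∈ ((pol C (u Q)⁻¹).support.filter fun R => s R = s Q).erase Q,
        0 ≤ pol C (u Q)⁻¹ R := fun R _ => pol_nonneg _ R
    have h7 := Finset.sum_nonneg h6
    have h8 := hu3 Q
    split_ifs with h9
    · subst h9; omega
    · rw [← h4 Q' e]
      by_contra h10
      have := Finset.single_le_sum h6 (Finset.mem_erase.2 ⟨Ne.symm h9,
        Finset.mem_filter.2 ⟨Finsupp.mem_support_iff.2 h10, e⟩⟩)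
      have h11 : 0 ≤ pol C (u Q)⁻¹ Q' := pol_nonneg _ Q'
      omega
  ext P
  rw [mapDomain_apply', dv_apply]
  obtain ⟨g, h1, h2, h3⟩ := mod f hf P ((dv C f).support.filter fun Q => s Q = P)
    (fun Q => -dv C f Q) fun Q hQ => (Finset.mem_filter.1 hQ).2
  have h4 : ∀ Q', s Q' = P → ord Q' g = 0 := by
    intro Q' e
    rw [h3, Finset.sum_congr rfl fun Q hQ => by
      rw [stepB Q Q' (e.trans (Finset.mem_filter.1 hQ).2.symm), mul_ite, mul_one, mul_zero],
      Finset.sum_ite_eq']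
    split_ifs with h5
    · rw [dv_apply, add_neg_cancel]
    · rw [add_zero, ← dv_apply]
      by_contra h6
      exact h5 (Finset.mem_filter.2 ⟨Finsupp.mem_support_iff.2 h6, e⟩)
  have h5 := ord_nn (H1 P g h1.le fun Q' e => mem_of_ord (h4 Q' e).ge)
  have h6 := ord_nn (H1 P g⁻¹ (by rw [map_inv₀, h1, inv_one]) fun Q' e =>
    mem_of_ord (by rw [Vale.Agent.P019P.ord_inv, h4 Q' e, neg_zero]))
  rw [NV.red_inv h1, Vale.Agent.P019P.ord_inv] at h6
  rw [Finset.sum_neg_distrib] at h2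
  omega

/-- `s` is the specialisation map of places -/
def IsSp (w : NV C K) [CFF (kC C) (kap w)] (s : Plk C K → Plk (kC C) (kap w)) : Prop :=
  ∀ f, w f = 1 → dv (kC C) (w.red f) = (dv C f).mapDomain s

/-- **Deuring** -/
theorem Gd.exists_sp (h : Gd w T) : ∃ s, IsSp w s := by
  classical
  have hT := h.toFull.wT
  have ex : ∀ Q : Plk C K, ∃ P, Rel w T Q P ∨
      ((¬ ∃ a : C, ‖a‖ ≤ 1 ∧ Val Q T a) ∧ w.red T ∉ P.1 ∧ Rel w T⁻¹ Q P) := by
    intro Q
    by_cases h1 : ∃ a : C, ‖a‖ ≤ 1 ∧ Val Q T a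
    · obtain ⟨a, h2, h3⟩ := h1
      obtain ⟨P, hP⟩ := h.exists_rel h2 h3
      exact ⟨P, Or.inl hP⟩
    obtain ⟨b, h2, h3⟩ : ∃ b : C, ‖b‖ < 1 ∧ Val Q T⁻¹ b := by
      by_cases h2 : T ∈ Q.1
      · obtain ⟨a, ha⟩ := val_of_mem h2
        have h3 : 1 < ‖a‖ := not_le.1 fun e => h1 ⟨a, e, ha⟩
        have h4 : a ≠ 0 := by rintro rfl; rw [norm_zero] at h3; linarith
        obtain ⟨b, hb⟩ := val_of_mem (P := Q) (x := T⁻¹)
          (mem_of_ord (by rw [Vale.Agent.P019P.ord_inv, (ha.unit h4).2, neg_zero]))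
        have h5 := ha.mul hb
        rw [mul_inv_cancel₀ (ne_of_w hT)] at h5
        rw [eq_inv_of_mul_eq_one_right (h5.unique (Val.one Q))] at hb
        exact ⟨_, by rw [norm_inv]; exact inv_lt_one_of_one_lt₀ h3, hb⟩
      · have h3 : ¬ 0 ≤ ord Q T := fun e => h2 (mem_of_ord e)
        exact ⟨0, by simp, Val.zero_iff.2 (Or.inr (by rw [Vale.Agent.P019P.ord_inv]; omega))⟩
    obtain ⟨P, hP⟩ := h.inv.exists_rel h2.le h3
    refine ⟨P, Or.inr ⟨h1, fun h4 => ?_, hP⟩⟩
    have h5 := hP.2.2 _ b (fun _ h => h) h.inv.toFull.wT.le h3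
    rw [(cred_eq_zero h2.le).2 h2, NV.red_inv hT] at h5
    have h6 := val_zero_pos h5 (inv_ne_zero (NV.red_ne_zero hT))
    have h7 := ord_nn h4
    rw [Vale.Agent.P019P.ord_inv] at h6
    omega
  choose s hs using ex
  have ch : ∀ P, ∃ T', Gd w T' ∧ w.red T' ∈ P.1 ∧ ∀ Q, s Q = P ↔ Rel w T' Q P := by
    intro P
    by_cases hP : w.red T ∈ P.1
    · refine ⟨T, h, hP, fun Q => ⟨fun e => ?_, fun r => ?_⟩⟩
      · subst e
        exact (hs Q).resolve_right fun h1 => h1.2.1 hP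
      · exact h.rel_unique ((hs Q).resolve_right fun h1 => h1.1 r.1) r
    · refine ⟨T⁻¹, h.inv, ?_, fun Q => ⟨fun e => ?_, fun r => ?_⟩⟩
      · rw [NV.red_inv hT]; exact (P.1.mem_or_inv_mem _).resolve_left hP
      · subst e
        exact ((hs Q).resolve_left fun h1 => hP h1.2.1).2.2
      · refine h.inv.rel_unique ((hs Q).resolve_left fun h1 => ?_).2.2 r
        obtain ⟨a, h2, h3⟩ := h1.1
        obtain ⟨b, h4, h5⟩ := r.1
        have h6 := h3.mul h5
        rw [mul_inv_cancel₀ (ne_of_w hT)] at h6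
        have h7 := r.2.2 _ b (fun _ h => h) h.inv.toFull.wT.le h5
        have h8 : cred b ≠ 0 := by
          have := cred_mul h2 h4
          rw [h6.unique (Val.one Q), cred_one] at this
          exact right_ne_zero_of_mul_eq_one this.symm
        have h9 := (h7.unit h8).2
        rw [NV.red_inv hT, Vale.Agent.P019P.ord_inv, neg_eq_zero] at h9
        exact hP (mem_of_ord h9.ge)
  refine ⟨s, fun f hf => div_of s (fun P x h1 h2 => ?_) (fun P => ?_) hf⟩
  · obtain ⟨T', h3, h4, h5⟩ := ch P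
    exact h3.mem_of_rel h4 h1 fun Q hQ => h2 Q ((h5 Q).2 hQ)
  · obtain ⟨T', h3, h4, h5⟩ := ch P
    obtain ⟨t, h6, h7, h8, h9⟩ := h3.param h4
    exact ⟨t, h6, h7, fun Q hQ => h8 Q ((h5 Q).1 hQ), h9⟩

end Vale.Agent.P027M.Gs
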