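import Vale.Agent.P027M.G.Defs
import Vale.Agent.P027M.I.Spec
import Vale.Agent.P027M.D.Atlas

/-!
# P027, route M, block G: bridges to the blocks I and D
-/

set_option linter.all false

noncomputable section

namespace Vale.Agent.P027M.G

open Polynomial IntermediateField Module P025H373 P025H746 Vale.Agent.P019P P025H492 P025H816

/-- good reduction in the terms of block I -/
def BR : Prop := ∀ (C K : Type) [NontriviallyNormedField C] [IsUltrametricDist C]
  [IsAlgClosed C] [Field K] [Algebra C K] [CFF C K] (T : K) [FiniteDimensional C⟮T⟯ K]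
  (w : NV C K), Good w T → I.Full C T ∧ I.cd C T = 0 ∧ ∀ w' : I.WW C T, w'.1 = w

/-- the chart of a curve with good reduction -/
def CHB : Prop := ∀ (C K : Type) [NontriviallyNormedField C] [IsUltrametricDist C]
  [IsAlgClosed C] [Field K] [Algebra C K] [CFF C K] (T θ : K) (w : NV C K)
  (O : ValuationSubring C) (r : O →+* kC C), (∀ c, c ∈ O ↔ ‖c‖ ≤ 1) →
  (∀ c : O, r c = cred (c : C)) → Good w T → Reg C T θ → w θ ≤ 1 →
  (kC C)⟮w.red T⟯⟮w.red θ⟯ = ⊤ →
  ∃ ch : D.Chart r K, ch.x = T ∧ ch.th = θ ∧ D.Mov r fun _ : Unit => ch.x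

end Vale.Agent.P027M.G
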